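import Vale.Agent.P095.S.Defs

/-! From `IsNuclear` to the elementary form. Positivity of `[φ (x p* x q)]`: the matrix
`[x p* x q]` is `X* X` in `CStarMatrix (Fin n) (Fin n) A` (`X` has the row `x` in one row, or sum of such; `n = 0` is trivial), so
`map φ` of it is `Y* Y` in `CStarMatrix (Fin n) (Fin n) (CStarMatrix (Fin k) (Fin k) ℂ)`
(`CStarAlgebra.nonneg_iff_eq_star_mul_self`); flatten to `Zᴴ * Z`. Contractivity:
`φ (a* a) ≤ ‖φ (a* a)‖ ≤ ‖a‖²` in `CStarMatrix`, again write the difference as `Y* Y`.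
Choi: the matrix `[single s t 1]` in `CStarMatrix (Fin k) (Fin k) (CStarMatrix (Fin k) (Fin k) ℂ)` is
positive, so `ψ (single s t 1) = ∑ r, (c r s)* c r t`, and `∑ s, single s s 1 = 1` has norm `≤ 1`. -/

open Filter Topology TopologicalSpace
open scoped BoundedContinuousFunction ComplexOrder Matrix Kronecker

namespace Vale.Agent.P095.S

open H P101

section
variable {B : Type} [NonUnitalCStarAlgebra B] [PartialOrder B] [StarOrderedRing B] {n : ℕ}

theorem cp_sq {a : B} (h : 0 ≤ a) : ∃ y, a = star y * y :=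
  CStarAlgebra.nonneg_iff_eq_star_mul_self.1 h

theorem cp_conj {x h : B} (e : x * h = x) {δ : ℝ} (hδ : ‖star x * x‖ ≤ δ) :
    0 ≤ (δ : ℂ) • (star h * h) - star x * x := by
  rw [sub_nonneg, Complex.coe_smul]
  calc star x * x = star h * (star x * x) * h := by rw [← mul_assoc, ← star_mul, mul_assoc, e]
    _ ≤ ‖star x * x‖ • (star h * h) :=
        CStarAlgebra.star_left_conjugate_le_norm_smul (IsSelfAdjoint.star_mul_self _)
    _ ≤ δ • (star h * h) := smul_le_smul_of_nonneg_right hδ (star_mul_self_nonneg h)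

theorem cp_unital {C : Type} [CStarAlgebra C] [PartialOrder C] [StarOrderedRing C] {a : C}
    (h : 0 ≤ a) {δ : ℝ} (hδ : ‖a‖ ≤ δ) : 0 ≤ (δ : ℂ) • (1 : C) - a := by
  obtain ⟨y, rfl⟩ := cp_sq h
  simpa using cp_conj (mul_one y) hδ

/-- the matrix with the row `x` at position `p` -/
def cpRow (p : Fin n) (x : Fin n → B) : CStarMatrix (Fin n) (Fin n) B :=
  CStarMatrix.ofMatrix (Matrix.of fun i j => if i = p then x j else 0)

omit [PartialOrder B] [StarOrderedRing B] in
theorem cpRow_mul (p : Fin n) (x : Fin n → B) (j l : Fin n) :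
    (star (cpRow p x) * cpRow p x) j l = star (x j) * x l := by
  rw [CStarMatrix.mul_apply, Finset.sum_eq_single p]
  · simp [cpRow, CStarMatrix.star_apply]
  · intro i _ hi; simp [cpRow, hi]
  · simp

theorem cp_rank_one (x : Fin n → B) :
    0 ≤ CStarMatrix.ofMatrix (Matrix.of fun j l => star (x j) * x l) := by
  cases n with
  | zero => exact le_of_eq (CStarMatrix.ext fun i => i.elim0)
  | succ n =>
    have : CStarMatrix.ofMatrix (Matrix.of fun j l => star (x j) * x l) =
        star (cpRow 0 x) * cpRow 0 x := CStarMatrix.ext fun j l => (cpRow_mul 0 x j l).symm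
    rw [this]
    exact star_mul_self_nonneg _

theorem cp_entries {M : CStarMatrix (Fin n) (Fin n) B} (h : 0 ≤ M) :
    ∃ Y : Fin n → Fin n → B, ∀ j l, M j l = ∑ r, star (Y r j) * Y r l := by
  obtain ⟨Y, rfl⟩ := cp_sq h
  exact ⟨Y, fun j l => CStarMatrix.mul_apply⟩

/-- the corner embedding -/
def cpCorner (B : Type) [NonUnitalCStarAlgebra B] (p : Fin n) :
    B →⋆ₙₐ[ℂ] CStarMatrix (Fin n) (Fin n) B where
  toFun x := CStarMatrix.ofMatrix (Matrix.single p p x)
  map_smul' c x := (Matrix.smul_single c p p x).symm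
  map_zero' := Matrix.single_zero p p
  map_add' x y := Matrix.single_add p p x y
  map_mul' x y := (Matrix.single_mul_single_same x p p p y).symm
  map_star' x := (Matrix.conjTranspose_single p p x).symm

theorem cpRow_norm (p : Fin n) (x : Fin n → B) :
    ‖star (cpRow p x) * cpRow p x‖ ≤ ‖∑ j, x j * star (x j)‖ := by
  have : cpRow p x * star (cpRow p x) = cpCorner B p (∑ j, x j * star (x j)) := by
    refine CStarMatrix.ext fun j l => ?_
    rw [CStarMatrix.mul_apply]
    change _ = Matrix.single p p _ j l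
    simp only [cpRow, CStarMatrix.star_apply, Matrix.single_apply, CStarMatrix.ofMatrix_apply,
      Matrix.of_apply, eq_comm (b := p)]
    by_cases h1 : p = j
    · by_cases h2 : p = l
      · simp only [if_pos h1, if_pos h2, if_pos (And.intro h1 h2)]
      · simp [h2]
    · simp [h1]
  rw [CStarRing.norm_star_mul_self, ← CStarRing.norm_self_mul_star, this]
  exact NonUnitalStarAlgHom.norm_apply_le _ _

end

theorem cp_psd {k : ℕ} {M : CStarMatrix (Fin k) (Fin k) ℂ} (h : 0 ≤ M) :
    (CStarMatrix.ofMatrix.symm M).PosSemidef := by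
  obtain ⟨Y, rfl⟩ := cp_sq h
  exact Matrix.posSemidef_conjTranspose_mul_self (CStarMatrix.ofMatrix.symm Y)

theorem cp_cpm {A : Type} [NonUnitalCStarAlgebra A] [PartialOrder A] [StarOrderedRing A] {k : ℕ}
    (φ : CompletelyPositiveMap A (CStarMatrix (Fin k) (Fin k) ℂ)) (h : ∀ a, ‖φ a‖ ≤ ‖a‖) :
    CpM (k := k) φ.toLinearMap := by
  refine ⟨fun n x => ?_, fun a => ?_⟩
  · obtain ⟨Y, hY⟩ := cp_entries (φ.map_cstarMatrix_nonneg _ (cp_rank_one x))
    have : (Matrix.of fun p q : Fin n × Fin k => φ.toLinearMap (star (x p.1) * x q.1) p.2 q.2) =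
        (Matrix.of fun p q : Fin n × Fin k => Y p.1 q.1 p.2 q.2)ᴴ *
          Matrix.of fun p q : Fin n × Fin k => Y p.1 q.1 p.2 q.2 := by
      ext p q
      refine (congrFun₂ (hY p.1 q.1) p.2 q.2).trans ?_
      rw [Matrix.mul_apply, Fintype.sum_prod_type]
      exact Matrix.sum_apply p.2 q.2 Finset.univ fun r => star (Y r p.1) * Y r q.1
    exact (congrArg Matrix.PosSemidef this).mpr (Matrix.posSemidef_conjTranspose_mul_self _)
  · have h1 : 0 ≤ φ (star a * a) := map_nonneg φ (star_mul_self_nonneg a)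
    exact cp_psd (cp_unital h1 ((h _).trans (by rw [CStarRing.norm_star_mul_self, sq])))

theorem cp_choi {A : Type} [NonUnitalCStarAlgebra A] [PartialOrder A] [StarOrderedRing A] {k : ℕ}
    (ψ : CompletelyPositiveMap (CStarMatrix (Fin k) (Fin k) ℂ) A) :
    ∃ c : Fin k → Fin k → A, ∀ s t, ψ (CStarMatrix.ofMatrix (Matrix.single s t 1)) =
      ∑ r, star (c r s) * c r t := by
  obtain ⟨x, hx⟩ : ∃ x : Fin k → CStarMatrix (Fin k) (Fin k) ℂ, ∀ s t,
      CStarMatrix.ofMatrix (Matrix.single s t 1) = star (x s) * x t := by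
    cases k with
    | zero => exact ⟨fun s => s.elim0, fun s => s.elim0⟩
    | succ k =>
      refine ⟨fun t => CStarMatrix.ofMatrix (Matrix.single 0 t 1), fun s t => ?_⟩
      have : Matrix.single s t (1 : ℂ) =
          (Matrix.single (0 : Fin (k + 1)) s (1 : ℂ))ᴴ * Matrix.single 0 t (1 : ℂ) := by
        rw [Matrix.conjTranspose_single, Matrix.single_mul_single_same, star_one, one_mul]
      exact this
  obtain ⟨c, hc⟩ := cp_entries (ψ.map_cstarMatrix_nonneg _ (cp_rank_one x))
  exact ⟨c, fun s t => (congrArg ψ (hx s t)).trans (hc s t)⟩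

theorem IsNuclear.cp {A : Type} [NonUnitalCStarAlgebra A] [PartialOrder A] [StarOrderedRing A]
    (h : IsNuclear A) : Cp A := by
  intro F ε hε
  obtain ⟨k, φ, ψ, h1, h2, h3⟩ := h F ε hε
  obtain ⟨c, hc⟩ := cp_choi ψ
  refine ⟨k, φ.toLinearMap, c, cp_cpm φ h1, ?_, fun a ha => ?_⟩
  · have : ∑ r, ∑ s, star (c r s) * c r s = ψ 1 := by
      rw [Finset.sum_comm]
      simp only [← hc, ← map_sum]
      exact congrArg ψ Matrix.sum_single_one
    rw [this]
    refine (h2 1).trans ?_
    rcases subsingleton_or_nontrivial (CStarMatrix (Fin k) (Fin k) ℂ) with h | h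
    · rw [Subsingleton.elim (1 : CStarMatrix (Fin k) (Fin k) ℂ) 0, norm_zero]
      exact zero_le_one
    · exact norm_one.le
  · have : ∑ r, ∑ s, ∑ t, φ.toLinearMap a s t • (star (c r s) * c r t) = ψ (φ a) := by
      rw [Finset.sum_comm]
      simp only [Finset.sum_comm (s := (Finset.univ : Finset (Fin k)))
        (f := fun r t => φ.toLinearMap a _ t • (star (c r _) * c r t))]
      simp only [← Finset.smul_sum, ← hc, ← map_smul, ← map_sum]
      refine congrArg ψ ?_
      simp only [CStarMatrix.smul_of, Matrix.smul_single, smul_eq_mul, mul_one]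
      exact Matrix.sum_sum_single _
    rw [norm_sub_rev]
    exact this ▸ (h3 a ha).le

theorem CpM.one_sub {A : Type} [NonUnitalCStarAlgebra A] {k : ℕ}
    {φ : A →ₗ[ℂ] Matrix (Fin k) (Fin k) ℂ} (hφ : CpM φ) {w : A} (hw : ‖star w * w‖ ≤ 1) :
    (1 - φ (star w * w)).PosSemidef := by
  have h1 : (0 : ℂ) ≤ ((1 - ‖w‖ ^ 2 : ℝ) : ℂ) := by
    rw [CStarRing.norm_star_mul_self, ← sq] at hw
    exact Complex.zero_le_real.2 (sub_nonneg.2 hw)
  have h2 := (Matrix.PosSemidef.one.smul h1).add (hφ.2 w)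
  rwa [← add_sub_assoc, ← add_smul, ← Complex.ofReal_add, sub_add_cancel, Complex.ofReal_one,
    one_smul] at h2

theorem cp_dom {A : Type} [NonUnitalCStarAlgebra A] {d : ℕ} {z : Fin d → A} {h : A}
    (sa : IsSelfAdjoint h) (hz : ∀ j, z j * h = z j) {δ : ℝ}
    (h2 : ‖∑ j, z j * star (z j)‖ ≤ δ) : ∃ Y : Fin d → Fin d → A, ∀ j l,
      (if j = l then (δ : ℂ) • (star h * h) else 0) - star (z j) * z l =
        ∑ r, star (Y r j) * Y r l := by
  cases d with
  | zero => exact ⟨fun j => j.elim0, fun j => j.elim0⟩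
  | succ d =>
    letI := CStarAlgebra.spectralOrder A
    letI := CStarAlgebra.spectralOrderedRing A
    let H : CStarMatrix (Fin (d + 1)) (Fin (d + 1)) A :=
      CStarMatrix.ofMatrix (Matrix.diagonal fun _ => h)
    have h3 : cpRow 0 z * H = cpRow 0 z := by
      refine CStarMatrix.ext fun j l => (Matrix.mul_diagonal _ _ j l).trans ?_
      by_cases hj : j = 0 <;> simp [cpRow, hj, hz]
    obtain ⟨Y, hY⟩ := cp_entries (cp_conj h3 ((cpRow_norm 0 z).trans h2))
    refine ⟨Y, fun j l => ?_⟩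
    rw [← hY, CStarMatrix.sub_apply, cpRow_mul, CStarMatrix.smul_apply]
    have h5 : (star H * H) j l = if j = l then star h * h else 0 := by
      refine (Matrix.mul_diagonal _ _ j l).trans ?_
      by_cases hj : j = l
      · simp [H, CStarMatrix.star_apply, hj]
      · simp [H, CStarMatrix.star_apply, hj, Ne.symm hj]
    rw [h5]
    split_ifs <;> simp

/-- With `S = ∑ z z*`, `g t = 1 / (√δ + √(δ - t))`, `Y r j = √δ δ_{rj} h - (z r)* g(S) z j`
(compute in the unitization, or in any unital algebra: `z r* g(S) z j` lies in `A`) one has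
`∑ r, (Y r j)* Y r l = δ h² δ_{jl} - (z j)* z l`. `∑ z* z = w* w` with `‖w‖ ≤ 1`. -/
theorem CpM.gram {A : Type} [NonUnitalCStarAlgebra A] {k d : ℕ}
    {φ : A →ₗ[ℂ] Matrix (Fin k) (Fin k) ℂ} (hφ : CpM φ) {z : Fin d → A} {h : A}
    (sa : IsSelfAdjoint h) (h1 : ‖h‖ ≤ 1) (hz : ∀ j, z j * h = z j) {δ : ℝ} (hδ : 0 < δ)
    (h2 : ‖∑ j, z j * star (z j)‖ ≤ δ) (h3 : ‖∑ j, star (z j) * z j‖ ≤ 1) :
    Gram (fun j l => φ (star (z j) * z l)) δ := by
  refine ⟨hφ.1 d z, ?_, ?_⟩
  · obtain ⟨Y, hY⟩ := cp_dom sa hz h2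
    have h4 : (1 - φ (star h * h)).PosSemidef := hφ.one_sub (by
      rw [CStarRing.norm_star_mul_self]
      exact mul_le_one₀ h1 (norm_nonneg _) h1)
    have h5 := (((Matrix.PosSemidef.one (n := Fin d) (R := ℂ)).kronecker h4).smul
      (Complex.zero_le_real.2 hδ.le)).add
      (Matrix.posSemidef_sum Finset.univ fun r _ => hφ.1 d (Y r))
    refine cast (congrArg _ ?_) h5
    ext p q
    have h6 := congrFun₂ (congrArg φ (hY p.1 q.1)) p.2 q.2
    rw [map_sum, Matrix.sum_apply] at h6
    simp only [Matrix.add_apply, Matrix.sum_apply, Matrix.of_apply, ← h6, map_sub,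
      Matrix.sub_apply, Matrix.smul_apply, Matrix.kroneckerMap_apply, Matrix.one_apply,
      Prod.ext_iff]
    by_cases h7 : p.1 = q.1
    · simp [h7, mul_sub]
    · simp [h7]
  · letI := CStarAlgebra.spectralOrder A
    letI := CStarAlgebra.spectralOrderedRing A
    obtain ⟨w, hw⟩ := CStarAlgebra.nonneg_iff_eq_star_mul_self.1
      (Finset.sum_nonneg (s := Finset.univ) fun j _ => star_mul_self_nonneg (z j))
    rw [← map_sum, hw]
    exact hφ.one_sub (hw ▸ h3)

end Vale.Agent.P095.S
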