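import Vale.Agent.P095.S.Defs

/-! Hahn-Banach dichotomy, the trace generated by a positive functional, and its linearization. -/

open Filter Topology TopologicalSpace
open scoped BoundedContinuousFunction ComplexOrder Matrix Kronecker

namespace Vale.Agent.P095.S

open H P101

variable {M : Type} [CStarAlgebra M]

variable [PartialOrder M] [StarOrderedRing M]

omit [PartialOrder M] [StarOrderedRing M] in
theorem weight_smul {s : ℝ} (hs : 0 ≤ s) (x y : M) : (√s • x) * (√s • y) = s • (x * y) := by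
  rw [smul_mul_smul_comm, Real.mul_self_sqrt hs]

omit [PartialOrder M] [StarOrderedRing M] in
theorem weight_scale {s : ℝ} (hs : 0 ≤ s) {n : ℕ} (z : Fin n → M) :
    ∑ j, (√s • z j) * star (√s • z j) = s • ∑ j, z j * star (z j) ∧
      ∑ j, star (√s • z j) * (√s • z j) = s • ∑ j, star (z j) * z j := by
  simp only [star_smul, star_trivial, weight_smul hs, Finset.smul_sum, and_self]

omit [PartialOrder M] [StarOrderedRing M] in
theorem weight_cat {n n' : ℕ} (z : Fin n → M) (z' : Fin n' → M) (F : M → M) :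
    ∑ j, F (Fin.append z z' j) = ∑ j, F (z j) + ∑ j, F (z' j) := by
  simp only [Fin.sum_univ_add, Fin.append_left, Fin.append_right]

theorem weight_mono {f : M →L[ℝ] ℝ} (hf : ∀ x, 0 ≤ x → 0 ≤ f x) {x y : M} (h : x ≤ y) :
    f x ≤ f y := by
  have := hf _ (sub_nonneg.2 h)
  rwa [map_sub, sub_nonneg] at this

theorem weight_le {x : M} (hx : IsSelfAdjoint x) : x ≤ ‖x‖ • (1 : M) := by
  have := hx.le_algebraMap_norm_self
  rwa [Algebra.algebraMap_eq_smul_one] at this

/-- In the real normed space `selfAdjoint M` separate `a` from the open convex set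
`{k - p + w | k ∈ K, 0 ≤ p, ‖w‖ < η}` (`geometric_hahn_banach_open_point`); `K` is convex
(concatenate `√s z`, `√t z'`) and contains `0`; normalize `f 1 = 1`; compose with the real part. -/
theorem hb {y a : M} (ha : 0 ≤ a) {η δ : ℝ} (hη : 0 < η) (hδ : 0 < δ) :
    (∃ (n : ℕ) (z : Fin n → M), (∀ j, y * z j = z j) ∧ ‖∑ j, z j * star (z j)‖ ≤ δ ∧
      a ≤ ∑ j, star (z j) * z j + (η : ℂ) • 1) ∨
    ∃ f : M →L[ℝ] ℝ, (∀ x, 0 ≤ x → 0 ≤ f x) ∧ η ≤ f a ∧ ∀ (n : ℕ) (z : Fin n → M),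
      (∀ j, y * z j = z j) → ‖∑ j, z j * star (z j)‖ ≤ δ → f (∑ j, star (z j) * z j) ≤ ‖a‖ := by
  let S : Set M := {x | ∃ (n : ℕ) (z : Fin n → M), (∀ j, y * z j = z j) ∧
    ‖∑ j, z j * star (z j)‖ ≤ δ ∧ x ≤ ∑ j, star (z j) * z j}
  have hS : Convex ℝ S := by
    rintro x ⟨n, z, a1, a2, a3⟩ x' ⟨n', z', b1, b2, b3⟩ s t hs ht hst
    refine ⟨n + n', Fin.append (fun j => √s • z j) fun j => √t • z' j, fun j => ?_, ?_, ?_⟩
    · refine Fin.addCases (fun j => ?_) (fun j => ?_) j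
      · rw [Fin.append_left, mul_smul_comm, a1]
      · rw [Fin.append_right, mul_smul_comm, b1]
    · rw [weight_cat _ _ fun x => x * star x, (weight_scale hs z).1, (weight_scale ht z').1]
      refine (norm_add_le _ _).trans ?_
      rw [norm_smul, norm_smul, Real.norm_of_nonneg hs, Real.norm_of_nonneg ht]
      nlinarith [mul_le_mul_of_nonneg_left a2 hs, mul_le_mul_of_nonneg_left b2 ht]
    · rw [weight_cat _ _ fun x => star x * x, (weight_scale hs z).2, (weight_scale ht z').2]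
      exact add_le_add (smul_le_smul_of_nonneg_left a3 hs) (smul_le_smul_of_nonneg_left b3 ht)
  have h0 : ∀ x : M, x ≤ 0 → x ∈ S := fun x hx =>
    ⟨0, Fin.elim0, fun j => j.elim0, by simpa using hδ.le, by simpa using hx⟩
  by_cases h : a ∈ Set.image2 (· + ·) S (Metric.ball 0 η)
  · obtain ⟨x, ⟨n, z, a1, a2, a3⟩, w, hw, rfl⟩ := h
    refine Or.inl ⟨n, z, a1, a2, add_le_add a3 ?_⟩
    have h1 : IsSelfAdjoint x := by
      have := (IsSelfAdjoint.of_nonneg (Finset.sum_nonneg (s := Finset.univ) fun j _ =>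
        star_mul_self_nonneg (z j))).sub (IsSelfAdjoint.of_nonneg (sub_nonneg.2 a3))
      rwa [sub_sub_cancel] at this
    have h2 : IsSelfAdjoint w := by simpa using (IsSelfAdjoint.of_nonneg ha).sub h1
    rw [Complex.coe_smul]
    exact (weight_le h2).trans
      (smul_le_smul_of_nonneg_right (mem_ball_zero_iff.1 hw).le zero_le_one)
  obtain ⟨f, hf⟩ := geometric_hahn_banach_open_point (hS.add (convex_ball 0 η))
    (Metric.isOpen_ball.add_left) h
  have h1 : ∀ x ∈ S, f x < f a := fun x hx => by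
    simpa using hf _ (Set.add_mem_add hx (Metric.mem_ball_self hη))
  have h2 : 0 < f a := by simpa using h1 0 (h0 0 le_rfl)
  have h3 : ∀ x, 0 ≤ x → 0 ≤ f x := fun x hx => by
    by_contra hn
    push Not at hn
    have h4 := h1 _ (h0 ((f a / f x) • x) (smul_nonpos_of_nonpos_of_nonneg
      (div_nonpos_of_nonneg_of_nonpos h2.le hn.le) hx))
    rw [map_smul, smul_eq_mul, div_mul_cancel₀ _ hn.ne] at h4
    exact h4.false
  have h4 : f a ≤ ‖a‖ * f 1 := by
    simpa using weight_mono h3 (weight_le (IsSelfAdjoint.of_nonneg ha))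
  have h5 : 0 < f 1 := (pos_iff_pos_of_mul_pos (h2.trans_le h4)).1
    ((norm_nonneg a).lt_of_ne' fun e => by rw [e, zero_mul] at h4; linarith)
  refine Or.inr ⟨(f 1)⁻¹ • f, fun x hx => mul_nonneg (inv_nonneg.2 h5.le) (h3 x hx), ?_,
    fun n z a1 a2 => (inv_mul_le_iff₀' h5).2 ((h1 _ ⟨n, z, a1, a2, le_rfl⟩).le.trans h4)⟩
  refine le_of_forall_lt_imp_le_of_dense fun t ht => (le_inv_mul_iff₀' h5).2 ?_
  rcases le_total t 0 with h6 | h6
  · exact (mul_nonpos_of_nonpos_of_nonneg h6 h5.le).trans h2.le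
  · have h7 : ‖t • (1 : M)‖ < η := by
      rw [norm_smul, Real.norm_of_nonneg h6]
      exact (mul_le_of_le_one_right h6 (norm_le_of_unitary (one_mem _))).trans_lt ht
    simpa using (hf _ (Set.add_mem_add (h0 0 le_rfl) (mem_ball_zero_iff.2 h7))).le

theorem weight_inv {c : M} (hc : 0 ≤ c) {ε : ℝ} (hε : 0 < ε) :
    ∃ r : M, star r = r ∧ r * (c + ε • 1) * r = 1 := by
  obtain ⟨b, ⟨b, rfl⟩, h1, h2⟩ :=
    CStarAlgebra.isStrictlyPositive_iff_exists_isUnit_and_isSelfAdjoint_and_eq_mul_self.1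
      (IsStrictlyPositive.nonneg_add hc (isStrictlyPositive_one.smul hε))
  refine ⟨↑b⁻¹, ?_, by rw [h2, ← mul_assoc, Units.inv_mul, one_mul, Units.mul_inv]⟩
  have h3 := congrArg star b.inv_mul
  rw [star_mul, h1.star_eq, star_one] at h3
  rw [← one_mul (star _), ← b.inv_mul, mul_assoc, h3, mul_one]

/-- the generated weight -/
noncomputable def weightW (f : M →L[ℝ] ℝ) (c : M) : ENNReal :=
  ⨆ (p : Σ n, Fin n → M) (_ : ∑ j, p.2 j * star (p.2 j) ≤ c),
    ENNReal.ofReal (f (∑ j, star (p.2 j) * p.2 j))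

omit [StarOrderedRing M] in
theorem le_weightW (f : M →L[ℝ] ℝ) {c : M} {n : ℕ} (x : Fin n → M)
    (h : ∑ j, x j * star (x j) ≤ c) : ENNReal.ofReal (f (∑ j, star (x j) * x j)) ≤ weightW f c :=
  le_iSup₂_of_le (f := fun (p : Σ n, Fin n → M) (_ : ∑ j, p.2 j * star (p.2 j) ≤ c) =>
    ENNReal.ofReal (f (∑ j, star (p.2 j) * p.2 j))) ⟨n, x⟩ h le_rfl

theorem weightW_zero (f : M →L[ℝ] ℝ) : weightW f 0 = 0 := by
  refine le_zero_iff.1 (iSup₂_le fun p hp => ?_)
  have h1 : ∀ j, p.2 j = 0 := fun j => (CStarRing.mul_star_self_eq_zero_iff _).1 (le_antisymm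
    ((Finset.single_le_sum (fun j _ => mul_star_self_nonneg (p.2 j)) (Finset.mem_univ j)).trans hp)
    (mul_star_self_nonneg _))
  simp [h1]

theorem weightW_key {f : M →L[ℝ] ℝ} (u v : M) :
    weightW f (star u * u + star v * v) ≤ weightW f (u * star u) + weightW f (v * star v) := by
  refine iSup₂_le fun ⟨n, x⟩ hx => ENNReal.le_of_forall_pos_le_add fun ε hε _ => ?_
  obtain ⟨δ, hδ, h0⟩ := exists_pos_mul_lt (NNReal.coe_pos.2 hε) (n * ‖f‖)
  obtain ⟨r, hr, h1⟩ := weight_inv (add_nonneg (star_mul_self_nonneg u) (star_mul_self_nonneg v)) hδ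
  have h2 : r * (∑ j, x j * star (x j)) * r ≤ 1 := by
    rw [← h1]
    exact IsSelfAdjoint.conjugate_le_conjugate
      (hx.trans (le_add_of_nonneg_right (smul_nonneg hδ.le zero_le_one))) hr
  have h3 : ∀ u : M, ∑ j, u * r * x j * star (u * r * x j) ≤ u * star u := fun u => by
    have := star_right_conjugate_le_conjugate h2 u
    simpa only [Finset.mul_sum, Finset.sum_mul, star_mul, hr, mul_assoc, mul_one] using this
  have h4 : ∀ j, ‖star (r * x j) * (r * x j)‖ ≤ 1 := fun j => by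
    rw [CStarRing.norm_star_mul_self, ← CStarRing.norm_self_mul_star,
      CStarAlgebra.norm_le_one_iff_of_nonneg _ (mul_star_self_nonneg _)]
    refine le_trans (le_of_eq_of_le ?_ (IsSelfAdjoint.conjugate_le_conjugate (Finset.single_le_sum
      (fun j _ => mul_star_self_nonneg (x j)) (Finset.mem_univ j)) hr)) h2
    simp only [star_mul, hr, mul_assoc]
  have h5 : ∑ j, star (x j) * x j = ∑ j, star (u * r * x j) * (u * r * x j) +
      ∑ j, star (v * r * x j) * (v * r * x j) + δ • ∑ j, star (r * x j) * (r * x j) := by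
    rw [Finset.smul_sum, ← Finset.sum_add_distrib, ← Finset.sum_add_distrib]
    refine Finset.sum_congr rfl fun j _ => ?_
    conv_lhs => rw [← mul_one (star (x j)), ← h1]
    simp only [star_mul, hr, mul_add, add_mul, mul_assoc, mul_smul_comm, smul_mul_assoc, one_mul]
  have h6 : f (δ • ∑ j, star (r * x j) * (r * x j)) ≤ ε := by
    have h7 := (norm_sum_le _ _).trans (Finset.sum_le_card_nsmul Finset.univ _ _ fun j _ => h4 j)
    rw [Finset.card_univ, Fintype.card_fin, nsmul_eq_mul, mul_one] at h7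
    have h8 := (le_abs_self _).trans ((f.le_opNorm _).trans
      (mul_le_mul_of_nonneg_left h7 (norm_nonneg f)))
    rw [map_smul, smul_eq_mul]
    nlinarith
  change ENNReal.ofReal (f (∑ j, star (x j) * x j)) ≤ _
  rw [h5, map_add, map_add]
  refine ENNReal.ofReal_add_le.trans (add_le_add (ENNReal.ofReal_add_le.trans
    (add_le_add (le_weightW f _ (h3 u)) (le_weightW f _ (h3 v)))) ?_)
  exact (ENNReal.ofReal_le_ofReal h6).trans_eq ENNReal.ofReal_coe_nnreal

theorem weightW_smul (f : M →L[ℝ] ℝ) (c : NNReal) (x : M) :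
    c * weightW f x ≤ weightW f ((c : ℝ) • x) := by
  rw [weightW, ENNReal.mul_iSup]
  refine iSup_le fun p => ?_
  rw [ENNReal.mul_iSup]
  refine iSup_le fun hp => ?_
  obtain ⟨h1, h2⟩ := weight_scale c.2 p.2
  have h3 := le_weightW f (c := (c : ℝ) • x) (fun j => √(c : ℝ) • p.2 j)
    (h1.trans_le (smul_le_smul_of_nonneg_left hp c.2))
  refine le_of_eq_of_le ?_ h3
  rw [← ENNReal.ofReal_coe_nnreal, ← ENNReal.ofReal_mul c.coe_nonneg, ← smul_eq_mul, ← map_smul]
  exact congrArg (fun z => ENNReal.ofReal (f z)) h2.symm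

/-- `w c = ⨆ (n x) (∑ x x* ≤ c), ofReal (f (∑ x* x))`. Subadditivity: for `∑ x x* ≤ a + b` put
`u = √a (a+b+ε)^(-1/2)`, `v = √b (a+b+ε)^(-1/2)`; `∑ (u x)(u x)* ≤ a`, and
`x* (u* u + v* v) x = x* x - ε x* (a+b+ε)⁻¹ x` with `ε ‖x* (a+b+ε)⁻¹ x‖ ≤ ε` (as `x x* ≤ a+b`).
Trace: for `∑ x x* ≤ c c*` use `x' = c* (c c* + ε)^(-1/2) x`. -/
theorem exists_wt (f : M →L[ℝ] ℝ) (hf : ∀ x, 0 ≤ x → 0 ≤ f x) : ∃ w : M → ENNReal, Wt w ∧
    (∀ c, 0 ≤ c → ENNReal.ofReal (f c) ≤ w c) ∧ ∀ (c : M) (κ : ℝ), (∀ (n : ℕ) (x : Fin n → M),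
      ∑ j, x j * star (x j) ≤ c → f (∑ j, star (x j) * x j) ≤ κ) → w c ≤ ENNReal.ofReal κ := by
  have _ := hf
  have tr : ∀ x, weightW f (star x * x) ≤ weightW f (x * star x) := fun x => by
    simpa [weightW_zero] using weightW_key (f := f) x 0
  refine ⟨weightW f, ⟨weightW_zero f, fun x y _ h => iSup₂_le fun p hp => le_weightW f _ (hp.trans h),
    fun x y hx hy => le_antisymm ?_ ?_, fun c x _ => le_antisymm ?_ (weightW_smul f c x),
    fun x => le_antisymm (tr x) (by simpa using tr (star x))⟩, fun c hc => ?_,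
    fun c κ h => iSup₂_le fun p hp => ENNReal.ofReal_le_ofReal (h _ _ hp)⟩
  · have h1 := weightW_key (f := f) (CFC.sqrt x) (CFC.sqrt y)
    rwa [(CFC.sqrt_nonneg x).star_eq, (CFC.sqrt_nonneg y).star_eq, CFC.sqrt_mul_sqrt_self x hx,
      CFC.sqrt_mul_sqrt_self y hy] at h1
  · refine ENNReal.biSup_add_biSup_le' ⟨⟨0, Fin.elim0⟩, by simpa using hx⟩
      ⟨⟨0, Fin.elim0⟩, by simpa using hy⟩ fun p hp q hq => ?_
    have h1 := le_weightW f (c := x + y) (Fin.append p.2 q.2)
      ((weight_cat _ _ fun x => x * star x).trans_le (add_le_add hp hq))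
    rwa [weight_cat _ _ fun x => star x * x, map_add, ENNReal.ofReal_add
      (hf _ (Finset.sum_nonneg fun _ _ => star_mul_self_nonneg _))
      (hf _ (Finset.sum_nonneg fun _ _ => star_mul_self_nonneg _))] at h1
  · rcases eq_or_ne c 0 with rfl | hc
    · simp [weightW_zero]
    have h1 := weightW_smul f c⁻¹ ((c : ℝ) • x)
    rw [smul_smul, ← NNReal.coe_mul, inv_mul_cancel₀ hc, NNReal.coe_one, one_smul] at h1
    refine le_of_eq_of_le ?_ (mul_le_mul_right h1 c)
    rw [← mul_assoc, ← ENNReal.coe_mul, mul_inv_cancel₀ hc, ENNReal.coe_one, one_mul]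
  · have h1 := le_weightW f (c := c) (fun _ : Fin 1 => CFC.sqrt c)
    simp only [Fin.sum_univ_one, (CFC.sqrt_nonneg c).star_eq, CFC.sqrt_mul_sqrt_self c hc] at h1
    exact h1 le_rfl

theorem weight_lin {σ : M → ℝ} (h1 : ∀ x y, 0 ≤ x → 0 ≤ y → σ (x + y) = σ x + σ y)
    (h2 : ∀ (c : ℝ) x, 0 ≤ c → 0 ≤ x → σ (c • x) = c * σ x) :
    ∃ g : selfAdjoint M →ₗ[ℝ] ℝ, ∀ (x : selfAdjoint M) (p q : M), 0 ≤ p → 0 ≤ q → x = p - q →
      g x = σ p - σ q := by
  have e : ∀ x : selfAdjoint M, (x : M) = (x : M)⁺ - (x : M)⁻ := fun x =>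
    (CFC.posPart_sub_negPart _ x.2).symm
  have hp : ∀ x : M, 0 ≤ x⁺ := fun x => CFC.posPart_nonneg x
  have hn : ∀ x : M, 0 ≤ x⁻ := fun x => CFC.negPart_nonneg x
  have key : ∀ (x : selfAdjoint M) (p q : M), 0 ≤ p → 0 ≤ q → x = p - q →
      σ (x : M)⁺ - σ (x : M)⁻ = σ p - σ q := fun x p q a1 a2 h => by
    have h3 := congrArg σ (sub_eq_sub_iff_add_eq_add.1 ((e x).symm.trans h))
    rw [h1 _ _ (hp _) a2, h1 _ _ a1 (hn _)] at h3
    linarith
  refine ⟨⟨⟨fun x => σ (x : M)⁺ - σ (x : M)⁻, fun x y => ?_⟩, fun c x => ?_⟩, key⟩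
  · rw [key (x + y) _ _ (add_nonneg (hp x) (hp y)) (add_nonneg (hn x) (hn y))
      (by rw [add_sub_add_comm, ← e, ← e]; rfl), h1 _ _ (hp _) (hp _), h1 _ _ (hn _) (hn _)]
    ring
  · dsimp only
    rcases le_total 0 c with hc | hc
    · rw [key (c • x) _ _ (smul_nonneg hc (hp x)) (smul_nonneg hc (hn x))
        (by rw [← smul_sub, ← e]; rfl), h2 _ _ hc (hp _), h2 _ _ hc (hn _)]
      exact (mul_sub _ _ _).symm
    · have hc' := neg_nonneg.2 hc
      rw [key (c • x) _ _ (smul_nonneg hc' (hn x)) (smul_nonneg hc' (hp x))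
        (by rw [← smul_sub, ← neg_sub, ← e, neg_smul_neg]; rfl), h2 _ _ hc' (hp _),
        h2 _ _ hc' (hn _), RingHom.id_apply, smul_eq_mul]
      ring

/-- `σ x = (w (b x b)).toReal` is additive and homogeneous on positive elements, `σ x ≤ ‖x‖ σ 1`;
for selfadjoint `x` put `σ (x + ‖x‖) - ‖x‖ σ 1` (independent of the shift); complexify. -/
theorem Wt.func {w : M → ENNReal} (hw : Wt w) {b : M} (sa : IsSelfAdjoint b) (h : w (b * b) ≠ ⊤) :
    ∃ φ : M →L[ℂ] ℂ, (∀ x, 0 ≤ x → φ x = (w (b * x * b)).toReal) ∧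
      ‖φ‖ ≤ 2 * (w (b * b)).toReal := by
  have p0 : ∀ x, 0 ≤ x → 0 ≤ b * x * b := fun x hx => sa.conjugate_nonneg hx
  have bd : ∀ x, 0 ≤ x → w (b * x * b) ≤ ‖x‖₊ * w (b * b) := fun x hx => by
    have h1 := sa.conjugate_le_conjugate (weight_le (IsSelfAdjoint.of_nonneg hx))
    rw [mul_smul_comm, mul_one, smul_mul_assoc] at h1
    rw [← hw.smul _ _ (by simpa using p0 1 zero_le_one)]
    exact hw.mono _ _ (p0 x hx) h1
  have fin : ∀ x, 0 ≤ x → w (b * x * b) ≠ ⊤ := fun x hx =>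
    ne_top_of_le_ne_top (ENNReal.mul_ne_top ENNReal.coe_ne_top h) (bd x hx)
  have bd' : ∀ x, 0 ≤ x → (w (b * x * b)).toReal ≤ ‖x‖ * (w (b * b)).toReal := fun x hx => by
    simpa using ENNReal.toReal_mono (ENNReal.mul_ne_top ENNReal.coe_ne_top h) (bd x hx)
  obtain ⟨g, hg⟩ := weight_lin (σ := fun x => (w (b * x * b)).toReal) (fun x y hx hy => by
    rw [mul_add, add_mul, hw.add _ _ (p0 x hx) (p0 y hy), ENNReal.toReal_add (fin x hx) (fin y hy)])
    fun c x hc hx => by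
      lift c to NNReal using hc
      rw [mul_smul_comm, smul_mul_assoc, hw.smul _ _ (p0 x hx), ENNReal.toReal_mul,
        ENNReal.coe_toReal]
  have h0 : 0 ≤ (w (b * b)).toReal := ENNReal.toReal_nonneg
  have gb : ∀ x, |g x| ≤ ‖x‖ * (w (b * b)).toReal := fun x => by
    rw [hg x _ _ (CFC.posPart_nonneg x.1) (CFC.negPart_nonneg x.1)
      (CFC.posPart_sub_negPart _ x.2).symm]
    have h1 := (bd' _ (CFC.posPart_nonneg x.1)).trans
      (mul_le_mul_of_nonneg_right (CStarAlgebra.norm_posPart_le _) h0)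
    have h2 := (bd' _ (CFC.negPart_nonneg x.1)).trans
      (mul_le_mul_of_nonneg_right (CStarAlgebra.norm_negPart_le _) h0)
    exact abs_sub_le_iff.2 ⟨(sub_le_self _ ENNReal.toReal_nonneg).trans h1,
      (sub_le_self _ ENNReal.toReal_nonneg).trans h2⟩
  let φ : M →ₗ[ℂ] ℂ :=
    { toFun := fun x => g (realPart x) + g (imaginaryPart x) * Complex.I
      map_add' := fun x y => by
        simp only [map_add, Complex.ofReal_add]
        ring
      map_smul' := fun c x => by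
        rw [realPart_smul, imaginaryPart_smul]
        simp only [map_add, map_sub, map_smul, smul_eq_mul, RingHom.id_apply]
        apply Complex.ext <;> simp }
  have hφ : ∀ x, ‖φ x‖ ≤ 2 * (w (b * b)).toReal * ‖x‖ := fun x => by
    refine (norm_add_le _ _).trans ?_
    rw [norm_mul, Complex.norm_I, mul_one, Complex.norm_real, Complex.norm_real]
    have h1 := (gb _).trans (mul_le_mul_of_nonneg_right (realPart.norm_le x) h0)
    have h2 := (gb _).trans (mul_le_mul_of_nonneg_right (imaginaryPart.norm_le x) h0)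
    exact (add_le_add h1 h2).trans_eq (by ring)
  refine ⟨φ.mkContinuous _ hφ, fun x hx => ?_, φ.mkContinuous_norm_le (by positivity) hφ⟩
  have h1 := IsSelfAdjoint.of_nonneg hx
  change (g (realPart x) + g (imaginaryPart x) * Complex.I : ℂ) = _
  rw [h1.imaginaryPart, map_zero, hg _ x 0 hx le_rfl (by rw [h1.coe_realPart, sub_zero])]
  simp [hw.zero]

end Vale.Agent.P095.S
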