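import Vale.Agent.P095.S.Defs
import Vale.Agent.P095.Quasi

/-! The ideal `range i`: functional calculus, domination, nested approximate units. -/

open Filter Topology TopologicalSpace
open scoped BoundedContinuousFunction ComplexOrder Matrix Kronecker

namespace Vale.Agent.P095.S

open H P101

variable {A M D G : Type} [NonUnitalCStarAlgebra A] [CStarAlgebra M] [CStarAlgebra D] [Group G]
  {i : A →⋆ₙₐ[ℂ] M} {ω : Ultrafilter ℕ} {π : cenSeq i ω →⋆ₐ[ℂ] D} {α : G →* (M ≃⋆ₐ[ℂ] M)}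
  {hα : Inv i α} {γ : G →* (D ≃⋆ₐ[ℂ] D)} {b : ℕ → M} {m : ℕ → ℝ}

/-- finite sums of conjugates of `w` -/
def idlCone (w : M) : AddSubmonoid M where
  carrier := {s | ∃ (n : ℕ) (c : Fin n → M), s = ∑ j, star (c j) * w * c j}
  zero_mem' := ⟨0, fun _ => 0, by simp⟩
  add_mem' := by
    rintro _ _ ⟨n, c, rfl⟩ ⟨n', c', rfl⟩
    exact ⟨n + n', Fin.append c c', by simp [Fin.sum_univ_add]⟩

theorem idlCone_conj {w s : M} (hs : s ∈ idlCone w) (x : M) : star x * s * x ∈ idlCone w := by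
  obtain ⟨n, c, rfl⟩ := hs
  refine ⟨n, fun j => c j * x, ?_⟩
  simp only [Finset.mul_sum, Finset.sum_mul, star_mul, mul_assoc]

theorem idlCone_smul {w s : M} (hs : s ∈ idlCone w) {r : ℝ} (hr : 0 ≤ r) :
    r • s ∈ idlCone w := by
  have h := idlCone_conj hs (√r • (1 : M))
  rwa [star_smul, star_one, star_trivial, smul_mul_assoc, one_mul, mul_smul_comm, mul_one,
    smul_smul, Real.mul_self_sqrt hr] at h

section order

variable [PartialOrder M] [StarOrderedRing M]

/-- elements dominated by the cone up to arbitrarily small errors -/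
def idlDom (w x : M) : Prop :=
  ∀ ε : ℝ, 0 < ε → ∃ s ∈ idlCone w, star x * x ≤ s + ε • (1 : M)

theorem idl_add_le (x y : M) :
    star (x + y) * (x + y) ≤ (2 : ℝ) • (star x * x) + (2 : ℝ) • (star y * y) := by
  rw [← sub_nonneg]
  have e : (2 : ℝ) • (star x * x) + (2 : ℝ) • (star y * y) - star (x + y) * (x + y) =
      star (x - y) * (x - y) := by
    simp only [two_smul, star_add, star_sub]
    noncomm_ring
  rw [e]
  exact star_mul_self_nonneg _

theorem idl_sq_le (x : M) {c : ℝ} (h : ‖x‖ ^ 2 ≤ c) : star x * x ≤ c • (1 : M) := by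
  refine CStarAlgebra.star_mul_le_algebraMap_norm_sq.trans ?_
  rw [Algebra.algebraMap_eq_smul_one]
  exact smul_le_smul_of_nonneg_right h zero_le_one

theorem idlDom.add {w x y : M} (hx : idlDom w x) (hy : idlDom w y) : idlDom w (x + y) := by
  intro ε hε
  obtain ⟨s, hs, h1⟩ := hx (ε / 4) (by positivity)
  obtain ⟨s', hs', h2⟩ := hy (ε / 4) (by positivity)
  refine ⟨(2 : ℝ) • s + (2 : ℝ) • s', add_mem (idlCone_smul hs zero_le_two)
    (idlCone_smul hs' zero_le_two), (idl_add_le x y).trans ?_⟩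
  refine (add_le_add (smul_le_smul_of_nonneg_left h1 zero_le_two)
    (smul_le_smul_of_nonneg_left h2 zero_le_two)).trans (le_of_eq ?_)
  module

theorem idlDom.mul_left {w y : M} (hy : idlDom w y) (x : M) : idlDom w (x * y) := by
  intro ε hε
  have hC : 0 < ‖star x * x‖ + 1 := by positivity
  obtain ⟨s, hs, h1⟩ := hy (ε / (‖star x * x‖ + 1)) (by positivity)
  refine ⟨(‖star x * x‖ + 1) • s, idlCone_smul hs hC.le, ?_⟩
  have e : star (x * y) * (x * y) = star y * (star x * x) * y := by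
    simp only [star_mul, mul_assoc]
  rw [e]
  refine (CStarAlgebra.star_left_conjugate_le_norm_smul (IsSelfAdjoint.star_mul_self x)).trans ?_
  refine (smul_le_smul_of_nonneg_right (le_add_of_nonneg_right zero_le_one)
    (star_mul_self_nonneg y)).trans ?_
  refine (smul_le_smul_of_nonneg_left h1 hC.le).trans (le_of_eq ?_)
  rw [smul_add, smul_smul, mul_div_cancel₀ _ hC.ne']

theorem idlDom.mul_right {w y : M} (hy : idlDom w y) (x : M) : idlDom w (y * x) := by
  intro ε hε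
  have hC : 0 < ‖x‖ ^ 2 + 1 := by positivity
  obtain ⟨s, hs, h1⟩ := hy (ε / (‖x‖ ^ 2 + 1)) (by positivity)
  refine ⟨star x * s * x, idlCone_conj hs x, ?_⟩
  have e : star (y * x) * (y * x) = star x * (star y * y) * x := by
    simp only [star_mul, mul_assoc]
  rw [e]
  refine (star_left_conjugate_le_conjugate h1 x).trans ?_
  rw [mul_add, add_mul, mul_smul_comm, mul_one, smul_mul_assoc]
  refine add_le_add le_rfl ((smul_le_smul_of_nonneg_left
    (idl_sq_le x (le_add_of_nonneg_right zero_le_one)) (by positivity)).trans (le_of_eq ?_))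
  rw [smul_smul, div_mul_cancel₀ _ hC.ne']

theorem isClosed_idlDom (w : M) : IsClosed {x | idlDom w x} := by
  refine isClosed_of_closure_subset fun x hx ε hε => ?_
  obtain ⟨y, hy, h1⟩ := Metric.mem_closure_iff.1 hx √(ε / 4) (by positivity)
  obtain ⟨s, hs, h2⟩ := hy (ε / 4) (by positivity)
  refine ⟨(2 : ℝ) • s, idlCone_smul hs zero_le_two, ?_⟩
  have h3 : ‖x - y‖ ^ 2 ≤ ε / 4 := by
    rw [← dist_eq_norm, ← Real.sq_sqrt (show 0 ≤ ε / 4 by positivity)]
    exact pow_le_pow_left₀ dist_nonneg h1.le 2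
  have h4 := idl_add_le y (x - y)
  rw [add_sub_cancel] at h4
  refine h4.trans ((add_le_add (smul_le_smul_of_nonneg_left h2 zero_le_two)
    (smul_le_smul_of_nonneg_left (idl_sq_le _ h3) zero_le_two)).trans (le_of_eq ?_))
  module

end order

/-- plateau functions -/
noncomputable def idlG (δ : ℝ) (j : ℕ) (t : ℝ) : ℝ := min 1 (max ((t - 1) / δ + j + 1) 0)

theorem idlG_cont (δ : ℝ) (j : ℕ) : Continuous (idlG δ j) := by
  unfold idlG
  fun_prop

theorem idlG_mem (δ : ℝ) (j : ℕ) (t : ℝ) : idlG δ j t ∈ Set.Icc (0 : ℝ) 1 :=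
  ⟨le_min zero_le_one (le_max_right _ _), min_le_left _ _⟩

theorem idlG_zero {δ : ℝ} {j : ℕ} {t : ℝ} (h : (t - 1) / δ + j + 1 ≤ 0) : idlG δ j t = 0 := by
  rw [idlG, max_eq_right h, min_eq_right zero_le_one]

theorem idlG_one {δ : ℝ} {j : ℕ} {t : ℝ} (h : 0 ≤ (t - 1) / δ + j) : idlG δ j t = 1 :=
  min_eq_left (le_max_of_le_left (by linarith))

theorem idlG_mul (δ : ℝ) (j : ℕ) (t : ℝ) : idlG δ (j + 1) t * idlG δ j t = idlG δ j t := by
  by_cases h : (t - 1) / δ + j + 1 ≤ 0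
  · rw [idlG_zero h, mul_zero]
  · rw [idlG_one (by push_cast; linarith), one_mul]

theorem Ctx.norm_i (h : Ctx i ω π hα γ) (a : A) : ‖i a‖ = ‖a‖ :=
  NonUnitalStarAlgHom.norm_map i h.inj a
theorem isClosed_range (hi : Function.Injective i) : IsClosed (Set.range i) :=
  (NonUnitalStarAlgHom.isometry i hi).isClosedEmbedding.isClosed_range
theorem mul_mem_left (hi : IsIdl i) (x : M) {y : M} (hy : y ∈ Set.range i) :
    x * y ∈ Set.range i := by
  obtain ⟨a, rfl⟩ := hy
  obtain ⟨b, hb⟩ := hi x a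
  exact ⟨b, hb.symm⟩
theorem mul_mem_right (hi : IsIdl i) (x : M) {y : M} (hy : y ∈ Set.range i) :
    y * x ∈ Set.range i := by
  obtain ⟨a, rfl⟩ := hy
  obtain ⟨b, hb⟩ := hi.right x a
  exact ⟨b, hb.symm⟩
theorem star_mem_range {y : M} (hy : y ∈ Set.range i) : star y ∈ Set.range i := by
  obtain ⟨a, rfl⟩ := hy
  exact ⟨star a, map_star i a⟩
theorem act_mem (hα : Inv i α) (g : G) {y : M} (hy : y ∈ Set.range i) : α g y ∈ Set.range i := by
  obtain ⟨a, rfl⟩ := hy
  obtain ⟨b, hb⟩ := hα g a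
  exact ⟨b, hb.symm⟩
/-- pass to the quotient by the closed ideal (`exists_quot_ideal`), where `x` becomes `0` -/
theorem cfc_mem_range (hi : Function.Injective i) (hi' : IsIdl i) {x : M} (hx : x ∈ Set.range i)
    {f : ℝ → ℝ} (hf : Continuous f) (h0 : f 0 = 0) : cfc f x ∈ Set.range i := by
  obtain ⟨a, rfl⟩ := hx
  by_cases hs : IsSelfAdjoint (i a)
  · have ha : IsSelfAdjoint a := hi (by rw [map_star, hs.star_eq])
    refine ⟨cfcₙ f a, ?_⟩
    rw [NonUnitalStarAlgHomClass.map_cfcₙ i f a hf.continuousOn h0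
      (NonUnitalStarAlgHom.isometry i hi).continuous ha hs, cfcₙ_eq_cfc hf.continuousOn h0]
  · rw [cfc_apply_of_not_predicate _ hs]
    exact ⟨0, map_zero i⟩
theorem ps_sqrt {x : M} (hx : Ps x) : ∃ r, Ps r ∧ r * r = x ∧ ‖r‖ ^ 2 = ‖x‖ ∧
    (∀ y, x * y = x → r * y = r) ∧ ∀ y, Commute y x → Commute y r := by
  let _ := CStarAlgebra.spectralOrder M
  have _ := CStarAlgebra.spectralOrderedRing M
  have h0 : 0 ≤ x := ps_iff.1 hx
  have h1 : 0 ≤ CFC.sqrt x := CFC.sqrt_nonneg x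
  have h2 : CFC.sqrt x * CFC.sqrt x = x := CFC.sqrt_mul_sqrt_self x h0
  refine ⟨CFC.sqrt x, ps_iff.2 h1, h2, ?_, fun y hy => ?_, fun y hy => ?_⟩
  · rw [← h1.isSelfAdjoint.norm_mul_self, h2]
  · have h3 : star (CFC.sqrt x * (1 - y)) * (CFC.sqrt x * (1 - y)) = 0 := by
      rw [star_mul, h1.isSelfAdjoint.star_eq, mul_assoc, ← mul_assoc (CFC.sqrt x), h2, mul_sub,
        mul_one, hy, sub_self, mul_zero]
    rw [CStarRing.star_mul_self_eq_zero_iff, mul_sub, mul_one, sub_eq_zero] at h3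
    exact h3.symm
  · rw [CFC.sqrt_eq_real_sqrt x h0, cfcₙ_eq_cfc Real.continuous_sqrt.continuousOn Real.sqrt_zero]
    exact (hy.symm.cfc_real _).symm
theorem sqrt_mem_range (hi : Function.Injective i) (hi' : IsIdl i) {r : M} (hr : Ps r)
    (hx : r * r ∈ Set.range i) : r ∈ Set.range i := by
  let _ := CStarAlgebra.spectralOrder M
  have _ := CStarAlgebra.spectralOrderedRing M
  have h0 : 0 ≤ r := ps_iff.1 hr
  have h1 := cfc_mem_range hi hi' hx Real.continuous_sqrt Real.sqrt_zero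
  rwa [← cfcₙ_eq_cfc Real.continuous_sqrt.continuousOn Real.sqrt_zero,
    ← CFC.sqrt_eq_real_sqrt _ (Commute.mul_nonneg h0 h0 (Commute.refl r)),
    CFC.sqrt_mul_self r h0] at h1

/-- three nested plateau functions of `z` at the top of the spectrum -/
theorem exists_plateau (hi : Function.Injective i) (hi' : IsIdl i) {z : M} (hz : z ∈ Set.range i)
    (ps : Ps z) (h1 : ‖z‖ = 1) {η : ℝ} (hη : 0 < η) : ∃ y : Fin 3 → M,
      (∀ j, y j ∈ Set.range i ∧ Ps (y j) ∧ ‖y j‖ = 1) ∧ y 1 * y 0 = y 0 ∧ y 2 * y 1 = y 1 ∧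
      ‖z * y 2 - y 2‖ ≤ η := by
  let _ := CStarAlgebra.spectralOrder M
  have _ := CStarAlgebra.spectralOrderedRing M
  have h0 : 0 ≤ z := ps_iff.1 ps
  have hM : Nontrivial M := nontrivial_of_ne z 0 fun h => by simp [h] at h1
  have hs : (1 : ℝ) ∈ spectrum ℝ z := h1 ▸ CStarAlgebra.norm_mem_spectrum_of_nonneg h0
  obtain ⟨δ, hδ, hδ1, hδ2⟩ : ∃ δ : ℝ, 0 < δ ∧ 3 * δ ≤ 1 ∧ 3 * δ ≤ η :=
    ⟨min 1 η / 3, by positivity, by linarith [min_le_left 1 η], by linarith [min_le_right 1 η]⟩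
  have hc := idlG_cont δ
  have hmul : ∀ j, cfc (idlG δ (j + 1)) z * cfc (idlG δ j) z = cfc (idlG δ j) z := fun j => by
    rw [← cfc_mul _ _ _ (hc _).continuousOn (hc _).continuousOn]
    simp only [idlG_mul]
  refine ⟨fun j => cfc (idlG δ j) z, fun j => ⟨cfc_mem_range hi hi' hz (hc j) (idlG_zero ?_),
    ps_iff.2 (cfc_nonneg fun t _ => (idlG_mem δ j t).1), le_antisymm
      (norm_cfc_le zero_le_one fun t _ => ?_) ?_⟩, hmul 0, hmul 1, ?_⟩
  · have h2 : ((j : ℕ) : ℝ) ≤ 2 := by exact_mod_cast Nat.lt_succ_iff.1 j.2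
    have h3 : (0 - 1) / δ ≤ -3 := by
      rw [div_le_iff₀ hδ]
      linarith
    linarith
  · rw [Real.norm_of_nonneg (idlG_mem δ j t).1]
    exact (idlG_mem δ j t).2
  · have h2 := norm_apply_le_norm_cfc (idlG δ j) z hs (hc j).continuousOn h0.isSelfAdjoint
    rwa [idlG_one (by simp), norm_one] at h2
  · have e : z * cfc (idlG δ 2) z - cfc (idlG δ 2) z =
        cfc (fun t => t * idlG δ 2 t - idlG δ 2 t) z := by
      have h2 := hc 2
      rw [cfc_sub _ _ _ (by fun_prop) (by fun_prop), cfc_mul _ _ _ (by fun_prop) (by fun_prop),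
        cfc_id' ℝ z h0.isSelfAdjoint]
    change ‖z * cfc (idlG δ 2) z - cfc (idlG δ 2) z‖ ≤ η
    rw [e]
    refine norm_cfc_le hη.le fun t ht => ?_
    have h2 : t ≤ 1 := (le_abs_self t).trans (h1 ▸ spectrum.norm_le_norm_of_mem ht)
    obtain ⟨h3, h4⟩ := idlG_mem δ 2 t
    by_cases h5 : (t - 1) / δ + (2 : ℕ) + 1 ≤ 0
    · rw [idlG_zero h5]
      simpa using hη.le
    · have h6 : -3 < (t - 1) / δ := by
        push_cast at h5
        linarith
      rw [lt_div_iff₀ hδ] at h6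
      rw [Real.norm_eq_abs, abs_le]
      constructor <;> nlinarith

/-- The set `K` of `a : A` such that for all `ε` there are `c` with
`(i a)* (i a) ≤ ∑ c* y* y c + ε` is a closed two-sided ideal (`(a+b)*(a+b) ≤ 2 a* a + 2 b* b`,
`(x a)* (x a) ≤ ‖x‖² a* a`) containing the preimage of `y`, so it contains that of `u'`;
compress `u'² ≤ ∑ + 1/2` by `u`. -/
theorem dom (hs : IsSimple A) (hi : Function.Injective i) (hi' : IsIdl i) {y u u' : M}
    (hy : y ∈ Set.range i) (h0 : y ≠ 0) (hu' : u' ∈ Set.range i) (sa : IsSelfAdjoint u)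
    (sa' : IsSelfAdjoint u') (hu : u' * u = u) :
    ∃ (n : ℕ) (c : Fin n → M), Ps (∑ j, star (c j) * (star y * y) * c j - u * u) := by
  let _ := CStarAlgebra.spectralOrder M
  have _ := CStarAlgebra.spectralOrderedRing M
  let K : TwoSidedIdeal A := .mk' {a | idlDom (star y * y) (i a)}
    (fun ε hε => ⟨0, zero_mem _, by
      rw [map_zero, mul_zero, zero_add]
      exact smul_nonneg hε.le zero_le_one⟩)
    (fun {a b} ha hb => by
      rw [Set.mem_setOf_eq, map_add]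
      exact idlDom.add ha hb)
    (fun {a} ha ε hε => by
      rw [map_neg, star_neg, neg_mul_neg]
      exact ha ε hε)
    (fun {a b} hb => by
      rw [Set.mem_setOf_eq, map_mul]
      exact idlDom.mul_left hb _)
    (fun {a b} ha => by
      rw [Set.mem_setOf_eq, map_mul]
      exact idlDom.mul_right ha _)
  have hK : ∀ a, a ∈ K ↔ idlDom (star y * y) (i a) := fun a => TwoSidedIdeal.mem_mk' ..
  have hcl : IsClosed (K : Set A) := by
    rw [show (K : Set A) = i ⁻¹' {x | idlDom (star y * y) x} from Set.ext hK]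
    exact (isClosed_idlDom (star y * y)).preimage (NonUnitalStarAlgHom.isometry i hi).continuous
  obtain ⟨a, rfl⟩ := hy
  obtain ⟨a', rfl⟩ := hu'
  have ha : a ∈ K := (hK a).2 fun ε hε => ⟨star (i a) * i a, ⟨1, fun _ => 1, by simp⟩,
    le_add_of_nonneg_right (smul_nonneg hε.le zero_le_one)⟩
  rcases hs.2 K hcl with h | h
  · rw [h, TwoSidedIdeal.mem_bot] at ha
    exact absurd (by rw [ha, map_zero]) h0
  obtain ⟨s, hs1, hs2⟩ := (hK a').1 (h ▸ TwoSidedIdeal.mem_top A) (1 / 2) (by norm_num)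
  obtain ⟨n, c, hc⟩ := idlCone_smul (idlCone_conj hs1 u) zero_le_two
  refine ⟨n, c, ps_iff.2 ?_⟩
  have h1 := star_left_conjugate_le_conjugate hs2 u
  have e1 : star u * (star (i a') * i a') * u = u * u := by
    rw [mul_assoc, mul_assoc, hu, sa'.star_eq, hu, sa.star_eq]
  have e2 : star u * (s + (1 / 2 : ℝ) • (1 : M)) * u = star u * s * u + (1 / 2 : ℝ) • (u * u) := by
    rw [mul_add, add_mul, mul_smul_comm, mul_one, smul_mul_assoc, sa.star_eq]
  rw [e1, e2, ← sub_nonneg] at h1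
  rw [← hc]
  refine (smul_nonneg (zero_le_two (α := ℝ)) h1).trans (le_of_eq ?_)
  module

/-- `a₀ = ∑ 2⁻ⁿ a n (a n)* / (1 + ‖a n‖²)` for a dense sequence, normalized to norm one,
`b k = cfc (f k) a₀` with `f k = 0` on `[0, 2^-(k+1)]`, `= 1` on `[2^-k, 1]`;
`‖(1 - b k) a n‖² ≤ C ‖(1 - b k) a₀ (1 - b k)‖ ≤ C 2^-k`. -/
theorem exists_au [SeparableSpace A] (hs : IsSimple A) (hi : Function.Injective i)
    (hi' : IsIdl i) : ∃ b m, AU i b m := by
  obtain ⟨f, hf, hn, hl⟩ := quasi_nested (A := A)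
  have hps : ∀ n, Ps (i (f n)) := fun n => by
    have h1 : Ps (cm A (f n)) := by
      have h2 := Ps.of_norm_le ((IsSelfAdjoint.one _).sub (hf n).sa) (hf n).le'
      simpa using h2
    obtain ⟨r, hr, h2, -⟩ := ps_sqrt h1
    obtain ⟨a, rfl⟩ := sqrt_mem_range cm_injective isIdl_cm hr ⟨f n, h2.symm⟩
    refine ⟨i a, ?_⟩
    rw [← map_star, ← map_mul]
    congr 1
    refine cm_injective ?_
    rw [map_mul, map_star, hr.sa.star_eq, h2]
  obtain ⟨k0, hk0⟩ : ∃ k0, f k0 ≠ 0 := by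
    by_contra h
    push Not at h
    have := hs.1
    obtain ⟨a, ha⟩ := exists_ne (0 : A)
    have h1 := hl a
    simp only [h, zero_mul] at h1
    exact ha (tendsto_nhds_unique h1 tendsto_const_nhds)
  have hne : ∀ k, i (f (k + 1 + k0)) ≠ 0 := fun k h => by
    have h1 : f (k + 1 + k0) = 0 := hi (by rw [h, map_zero])
    exact hk0 (by rw [← hn k0 (k + 1 + k0) (by omega), h1, zero_mul])
  have hnest : ∀ k, i (f (k + 1 + 1 + k0)) * i (f (k + 1 + k0)) = i (f (k + 1 + k0)) := fun k => by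
    rw [← map_mul, hn _ _ (by omega)]
  choose n c hc using fun k => dom hs hi hi' ⟨f (k + 1 + k0), rfl⟩ (hne k)
    ⟨f (k + 1 + 1 + 1 + k0), rfl⟩ (hps _).sa (hps _).sa (hnest (k + 1))
  refine ⟨fun k => i (f (k + 1 + k0)), fun k => 2 * ∑ j, ‖c k j‖ ^ 2, fun k => ⟨_, rfl⟩,
    fun k => hps _, fun k => ?_, hne, hnest, fun a => ?_, fun k => ⟨n k, c k, ?_, le_rfl⟩⟩
  · rw [NonUnitalStarAlgHom.norm_map i hi, ← norm_cm]
    exact (hf _).le
  · have h1 := ((NonUnitalStarAlgHom.isometry i hi).continuous.tendsto a).comp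
      ((hl a).comp (tendsto_add_atTop_nat (1 + k0)))
    simpa only [Function.comp_def, map_mul, add_assoc] using h1
  · have h1 := hc k
    rwa [(hps _).sa.star_eq] at h1

end Vale.Agent.P095.S
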