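import Vale.Agent.P095.S.Cp

/-! Factorization through vector states of a faithful functional. -/

open Filter Topology TopologicalSpace
open scoped BoundedContinuousFunction ComplexOrder Matrix Kronecker

namespace Vale.Agent.P095.S

open H P101

section Aux

variable {A : Type} [NonUnitalCStarAlgebra A]

theorem fact_ind {P : A → Prop} (h1 : ∀ x, P (star x * x)) (h2 : ∀ x y, P x → P y → P (x + y))
    (h3 : ∀ (c : ℂ) x, P x → P (c • x)) (a : A) : P a := by
  let _ := CStarAlgebra.spectralOrder A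
  have _ := CStarAlgebra.spectralOrderedRing A
  have ha : a ∈ Submodule.span ℂ {a : A | 0 ≤ a} := by rw [CStarAlgebra.span_nonneg]; trivial
  induction ha using Submodule.span_induction with
  | mem x hx =>
    obtain ⟨y, rfl⟩ := CStarAlgebra.nonneg_iff_eq_star_mul_self.1 (show 0 ≤ x from hx)
    exact h1 y
  | zero => simpa using h1 0
  | add x y _ _ hx hy => exact h2 x y hx hy
  | smul c x _ hx => exact h3 c x hx

theorem fact_star {f : A →L[ℂ] ℂ} (hf : PosF f) (a : A) :
    f (star a) = starRingEnd ℂ (f a) := by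
  induction a using fact_ind with
  | h1 x =>
    rw [star_mul, star_star]
    exact (Complex.conj_eq_iff_im.2 (Complex.nonneg_iff.1 (hf x)).2.symm).symm
  | h2 x y hx hy => rw [star_add, map_add, map_add, map_add, hx, hy]
  | h3 c x hx => rw [star_smul, map_smul, map_smul, hx, smul_eq_mul, smul_eq_mul, map_mul]; rfl

theorem fact_star' {k : ℕ} {φ : A →ₗ[ℂ] Matrix (Fin k) (Fin k) ℂ} (hφ : CpM φ) (a : A)
    (s t : Fin k) : φ (star a) t s = starRingEnd ℂ (φ a s t) := by
  induction a using fact_ind with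
  | h1 x =>
    rw [star_mul, star_star]
    exact ((hφ.1 1 fun _ => x).isHermitian.apply (0, t) (0, s)).symm
  | h2 x y hx hy =>
    rw [star_add, map_add, map_add, Matrix.add_apply, Matrix.add_apply, map_add, hx, hy]
  | h3 c x hx =>
    rw [star_smul, map_smul, map_smul, Matrix.smul_apply, Matrix.smul_apply, hx, smul_eq_mul,
      smul_eq_mul, map_mul]
    rfl

theorem fact_cs {f : A →L[ℂ] ℂ} (hf : PosF f) {u : A} (hu : f (star u * u) = 0) (v : A) :
    f (v * u) = 0 := by
  by_contra hn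
  have h0 : 0 < Complex.normSq (f (v * u)) := Complex.normSq_pos.2 hn
  obtain ⟨t, ht⟩ : ∃ t : ℝ, t * Complex.normSq (f (v * u)) = (f (v * star v)).re + 1 :=
    ⟨_, div_mul_cancel₀ _ h0.ne'⟩
  have h1 := (Complex.nonneg_iff.1 (hf (star v - ((t : ℂ) * starRingEnd ℂ (f (v * u))) • u))).1
  have h2 : f (star u * star v) = starRingEnd ℂ (f (v * u)) := by rw [← star_mul, fact_star hf]
  have h3 := (Complex.nonneg_iff.1 (hf (star v))).1
  simp only [star_sub, star_star, star_smul, sub_mul, mul_sub, smul_mul_assoc, mul_smul_comm,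
    map_sub, map_smul, hu, h2, smul_eq_mul, mul_zero, sub_zero, Complex.star_def, map_mul,
    Complex.conj_conj, Complex.conj_ofReal, mul_assoc, Complex.mul_conj,
    ← Complex.normSq_eq_conj_mul_self, ← Complex.ofReal_mul, Complex.sub_re,
    Complex.ofReal_re] at h1 h3
  linarith

theorem fact_faith (hs : IsSimple A) {f : A →L[ℂ] ℂ} (hf : PosF f) (h0 : f ≠ 0) {a : A}
    (ha : ∀ y, f (star (a * y) * (a * y)) = 0) : a = 0 := by
  let J : TwoSidedIdeal A := .mk' {a | ∀ x y, f (x * a * y) = 0} (fun x y => by simp)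
    (fun {a b} ha hb x y => by rw [mul_add, add_mul, map_add, ha, hb, add_zero])
    (fun {a} ha x y => by rw [mul_neg, neg_mul, map_neg, ha, neg_zero])
    (fun {a b} hb x y => by rw [← mul_assoc, hb])
    (fun {a b} ha x y => by rw [← mul_assoc, mul_assoc, ha])
  have hJ : ∀ a, a ∈ J ↔ ∀ x y, f (x * a * y) = 0 := fun a => by simp [J]
  rcases hs.2 J (by
    have : (J : Set A) = ⋂ x, ⋂ y, {a | f (x * a * y) = 0} := by
      ext a; simp [hJ]
    rw [this]
    exact isClosed_iInter fun x => isClosed_iInter fun y =>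
      isClosed_eq (by fun_prop) continuous_const) with h | h
  · have : a ∈ J := (hJ a).2 fun x y => by rw [mul_assoc]; exact fact_cs hf (ha y) x
    rwa [h, TwoSidedIdeal.mem_bot] at this
  · have h1 : ∀ a x y, f (x * a * y) = 0 := fun a => (hJ a).1 (h ▸ TwoSidedIdeal.mem_top A)
    have h2 : ∀ a y, f (a * y) = 0 := fun a y => by
      induction a using fact_ind with
      | h1 x => exact h1 _ _ _
      | h2 x z hx hz => rw [add_mul, map_add, hx, hz, add_zero]
      | h3 c x hx => rw [smul_mul_assoc, map_smul, hx, smul_zero]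
    refine absurd (ContinuousLinearMap.ext fun a => ?_) h0
    induction a using fact_ind with
    | h1 x => exact h2 _ _
    | h2 x z hx hz => rw [map_add, map_add, hx, hz]
    | h3 c x hx => rw [map_smul, map_smul, hx]

theorem fact_neg {K : A} (Ksa : IsSelfAdjoint K) : ∃ N Z : A,
    star N * K * N = -(star Z * Z) ∧ (Z = 0 → ∃ Y, K = star Y * Y) := by
  let _ := CStarAlgebra.spectralOrder A
  have _ := CStarAlgebra.spectralOrderedRing A
  obtain ⟨N, hN⟩ : ∃ N, N = K⁻ := ⟨_, rfl⟩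
  have N0 : 0 ≤ N := hN ▸ CFC.negPart_nonneg K
  have Nsa : IsSelfAdjoint N := .of_nonneg N0
  obtain ⟨W, hW⟩ := CStarAlgebra.nonneg_iff_eq_star_mul_self.1 N0
  refine ⟨N, W * N, ?_, fun e4 => ?_⟩
  · have e2 : N * K⁺ = 0 := hN ▸ CFC.negPart_mul_posPart K
    have e3 : K = K⁺ - N := hN ▸ (CFC.posPart_sub_negPart K Ksa).symm
    rw [star_mul, mul_assoc (star N) (star W), ← mul_assoc (star W), ← hW, Nsa.star_eq, e3,
      mul_sub, e2, zero_sub, neg_mul, mul_assoc]
  · have e5 : N = 0 := by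
      refine CStarRing.star_mul_self_eq_zero_iff N |>.1 ?_
      rw [Nsa.star_eq]
      nth_rw 1 [hW]
      rw [mul_assoc, e4, mul_zero]
    exact CStarAlgebra.nonneg_iff_eq_star_mul_self.1 ((CFC.negPart_eq_zero_iff K Ksa).1 (hN ▸ e5))

theorem fact_neg' {k : ℕ} (H : Fin k → Fin k → A) (sa : ∀ s t, star (H s t) = H t s) :
    ∃ N Z : Fin k → Fin k → A, (∀ t, ∑ s', (∑ s, star (N s t) * H s s') * N s' t
      = -∑ r, star (Z r t) * Z r t) ∧
      ((∀ r t, Z r t = 0) → ∃ Y : Fin k → Fin k → A, ∀ s t, H s t = ∑ r, star (Y r s) * Y r t) := by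
  let _ := CStarAlgebra.spectralOrder A
  have _ := CStarAlgebra.spectralOrderedRing A
  obtain ⟨N, Z, h1, h2⟩ := fact_neg (A := CStarMatrix (Fin k) (Fin k) A) (K := H)
    (CStarMatrix.ext fun s t => sa t s)
  refine ⟨N, Z, fun t => congrFun (congrFun h1 t) t, fun h => ?_⟩
  obtain ⟨Y, hY⟩ := h2 (CStarMatrix.ext h)
  exact ⟨Y, fun s t => congrFun (congrFun hY s) t⟩

end Aux

/-- Use the spectral order on `A` and `H₋ = H⁻` in `CStarMatrix (Fin k) (Fin k) A`. With
`d s = H₋ s t * y`, `f (y* (H₋ H H₋) t t y) = - f (y* (H₋ ^ 3) t t y)`. The closed ideal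
`{a | ∀ y, f ((a y)* (a y)) = 0}` is not everything (else `f` kills all `(a y)* (a' y')`, hence `f = 0`),
so `H₋ = 0`, `H = Y* Y`, and `CpM` for each row of `Y` with the vector `∑ e_s ⊗ e_s`. -/
theorem pos_of_vec {A : Type} [NonUnitalCStarAlgebra A] (hs : IsSimple A) {f : A →L[ℂ] ℂ}
    (hf : PosF f) (h0 : f ≠ 0) {k : ℕ} {φ : A →ₗ[ℂ] Matrix (Fin k) (Fin k) ℂ} (hφ : CpM φ)
    (H : Fin k → Fin k → A) (sa : ∀ s t, star (H s t) = H t s)
    (h : ∀ d : Fin k → A, 0 ≤ (f (∑ s, ∑ t, star (d s) * H s t * d t)).re) :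
    0 ≤ (∑ s, ∑ t, φ (H s t) s t).re := by
  obtain ⟨N, Z, e1, e2⟩ := fact_neg' H sa
  obtain ⟨Y, hY⟩ := e2 fun r t => by
    refine fact_faith hs hf h0 fun y => ?_
    have h1 := h fun s => N s t * y
    have h2 : ∑ s, ∑ s', star (N s t * y) * H s s' * (N s' t * y)
        = -∑ r, star (Z r t * y) * (Z r t * y) := by
      have h3 : ∑ s, ∑ s', star (N s t * y) * H s s' * (N s' t * y)
          = star y * (∑ s', (∑ s, star (N s t) * H s s') * N s' t) * y := by
        rw [Finset.sum_comm]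
        simp only [Finset.mul_sum, Finset.sum_mul, star_mul, mul_assoc]
      rw [h3, e1, mul_neg, neg_mul]
      simp only [Finset.mul_sum, Finset.sum_mul, star_mul, mul_assoc]
    rw [h2, map_neg, map_sum, Complex.neg_re, Complex.re_sum, neg_nonneg] at h1
    have h4 := (Finset.sum_eq_zero_iff_of_nonneg fun r _ =>
      (Complex.nonneg_iff.1 (hf (Z r t * y))).1).1 (le_antisymm h1
        (Finset.sum_nonneg fun r _ => (Complex.nonneg_iff.1 (hf (Z r t * y))).1)) r
        (Finset.mem_univ r)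
    exact Complex.ext h4 (Complex.nonneg_iff.1 (hf (Z r t * y))).2.symm
  have e6 : ∑ s, ∑ t, φ (H s t) s t = ∑ r, ∑ s, ∑ t, φ (star (Y r s) * Y r t) s t := by
    rw [Finset.sum_comm (f := fun r s => ∑ t, φ (star (Y r s) * Y r t) s t)]
    refine Finset.sum_congr rfl fun s _ => ?_
    rw [Finset.sum_comm]
    refine Finset.sum_congr rfl fun t _ => ?_
    rw [hY, map_sum, Matrix.sum_apply]
  rw [e6, Complex.re_sum]
  refine Finset.sum_nonneg fun r _ => (Complex.nonneg_iff.1 ?_).1
  have h5 := ((hφ.1 k (Y r)).submatrix fun s => (s, s)).dotProduct_mulVec_nonneg fun _ => 1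
  simpa [dotProduct, Matrix.mulVec] using h5

/-- Separate `(φ a s t)` from the closed convex cone generated by `(f ((d s)* a (d t)))` in the finite
dimensional real space `F → Fin k → Fin k → ℂ` (`geometric_hahn_banach_point_closed`); the functional is
`re ∑ β a s t * ·`; apply `pos_of_vec` to the hermitian part of `X s t = ∑ a, β a s t • a`
(`φ (a*) s t = conj (φ a t s)` and `f (a*) = conj (f a)` follow from positivity). -/
theorem vec_approx {A : Type} [NonUnitalCStarAlgebra A] (hs : IsSimple A) {f : A →L[ℂ] ℂ}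
    (hf : PosF f) (h0 : f ≠ 0) {k : ℕ} {φ : A →ₗ[ℂ] Matrix (Fin k) (Fin k) ℂ} (hφ : CpM φ)
    (F : Finset A) {ε : ℝ} (hε : 0 < ε) : ∃ (n : ℕ) (d : Fin n → Fin k → A), ∀ a ∈ F, ∀ s t,
      ‖φ a s t - ∑ j, f (star (d j s) * a * d j t)‖ ≤ ε := by
  let g : (Fin k → A) → (F × Fin k × Fin k → ℂ) := fun d q => f (star (d q.2.1) * q.1 * d q.2.2)
  let C : Set (F × Fin k × Fin k → ℂ) := {v | ∃ (n : ℕ) (d : Fin n → Fin k → A), v = ∑ j, g (d j)}
  let p : F × Fin k × Fin k → ℂ := fun q => φ q.1 q.2.1 q.2.2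
  have hg : ∀ c : ℝ, 0 ≤ c → ∀ d, g (fun s => ((√c : ℝ) : ℂ) • d s) = c • g d := fun c hc d => by
    funext q
    simp only [g, star_smul, smul_mul_assoc, mul_smul_comm, map_smul, smul_eq_mul, Pi.smul_apply,
      Complex.real_smul, Complex.star_def, Complex.conj_ofReal]
    rw [← mul_assoc, ← Complex.ofReal_mul, Real.mul_self_sqrt hc]
  have hsm : ∀ c : ℝ, 0 ≤ c → ∀ v ∈ C, c • v ∈ C := by
    rintro c hc _ ⟨n, d, rfl⟩
    exact ⟨n, fun j s => ((√c : ℝ) : ℂ) • d j s, by simp only [hg c hc, Finset.smul_sum]⟩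
  have hadd : ∀ v ∈ C, ∀ w ∈ C, v + w ∈ C := by
    rintro _ ⟨n, d, rfl⟩ _ ⟨n', d', rfl⟩
    exact ⟨n + n', Fin.append d d', by simp only [Fin.sum_univ_add, Fin.append_left,
      Fin.append_right]⟩
  have hC : Convex ℝ C := fun v hv w hw a b ha hb _ => hadd _ (hsm a ha v hv) _ (hsm b hb w hw)
  have hp : p ∈ closure C := by
    by_contra hn
    obtain ⟨Λ, u, h1, h2⟩ := RCLike.geometric_hahn_banach_point_closed (𝕜 := ℂ) hC.closure
      isClosed_closure hn
    simp only [RCLike.re_to_complex] at h1 h2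
    have h3 : u < 0 := by
      simpa using h2 0 (subset_closure ⟨0, fun j => j.elim0, by simp⟩)
    have h4 : ∀ d, 0 ≤ (Λ (g d)).re := fun d => by
      by_contra h5
      have h6 : (Λ (g d)).re < 0 := not_le.1 h5
      have h7 := h2 _ (subset_closure (hsm (u / (Λ (g d)).re) (div_pos_of_neg_of_neg h3 h6).le
        (g d) ⟨1, fun _ => d, by simp⟩))
      rw [← Complex.coe_smul, map_smul, smul_eq_mul, Complex.re_ofReal_mul,
        div_mul_cancel₀ _ h6.ne] at h7
      exact lt_irrefl _ h7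
    classical
    obtain ⟨β, hβ⟩ : ∃ β : F × Fin k × Fin k → ℂ, ∀ v, Λ v = ∑ q, β q * v q :=
      ⟨_, fun v => by
        have := LinearMap.pi_apply_eq_sum_univ (Λ : (F × Fin k × Fin k → ℂ) →ₗ[ℂ] ℂ) v
        simp only [smul_eq_mul] at this
        exact this.trans (Finset.sum_congr rfl fun q _ => mul_comm _ _)⟩
    let X : Fin k → Fin k → A := fun s t => ∑ a : F, β (a, s, t) • (a : A)
    have hX : ∀ v : F × Fin k × Fin k → ℂ, Λ v = ∑ s, ∑ t, ∑ a : F, β (a, s, t) * v (a, s, t) :=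
      fun v => by
        rw [hβ, Fintype.sum_prod_type, Finset.sum_comm, Fintype.sum_prod_type]
    have h8 := pos_of_vec hs hf h0 hφ (fun s t => X s t + star (X t s))
      (fun s t => by rw [star_add, star_star, add_comm]) fun d => by
        have e1 : f (∑ s, ∑ t, star (d s) * X s t * d t) = Λ (g d) := by
          simp only [hX, X, g, map_sum, Finset.mul_sum, Finset.sum_mul, mul_smul_comm,
            smul_mul_assoc, map_smul, smul_eq_mul]
        have e2 : ∑ s, ∑ t, star (d s) * (X s t + star (X t s)) * d t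
            = ∑ s, ∑ t, star (d s) * X s t * d t + star (∑ s, ∑ t, star (d s) * X s t * d t) := by
          rw [star_sum]
          simp only [star_sum]
          rw [Finset.sum_comm (f := fun s t => star (star (d s) * X s t * d t))]
          simp only [mul_add, add_mul, Finset.sum_add_distrib, star_mul, star_star, mul_assoc]
        rw [e2, map_add, fact_star hf, e1, Complex.add_re, Complex.conj_re]
        linarith [h4 d]
    have e1 : ∑ s, ∑ t, φ (X s t) s t = Λ p := by
      simp only [hX, X, p, map_sum, map_smul, Matrix.sum_apply, Matrix.smul_apply, smul_eq_mul]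
    have e2 : ∑ s, ∑ t, φ (star (X t s)) s t = starRingEnd ℂ (Λ p) := by
      rw [← e1, Finset.sum_comm]
      simp only [map_sum (starRingEnd ℂ), fact_star' hφ]
    simp only [map_add, Matrix.add_apply, Finset.sum_add_distrib, e1, e2, Complex.add_re,
      Complex.conj_re] at h8
    linarith
  obtain ⟨_, ⟨n, d, rfl⟩, h1⟩ := Metric.mem_closure_iff.1 hp ε hε
  refine ⟨n, d, fun a ha s t => ?_⟩
  have h2 := (dist_le_pi_dist p (∑ j, g (d j)) (⟨a, ha⟩, s, t)).trans h1.le
  rwa [dist_eq_norm, Finset.sum_apply] at h2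

theorem Cp.fact {A : Type} [NonUnitalCStarAlgebra A] (h : Cp A) (hs : IsSimple A)
    {f : A →L[ℂ] ℂ} (hf : PosF f) (h0 : f ≠ 0) (F : Finset A) {ε : ℝ} (hε : 0 < ε) :
    ∃ (L k : ℕ) (d c : Fin L → Fin k → A), ∀ a ∈ F,
      ‖a - ∑ l, ∑ s, ∑ t, f (star (d l s) * a * d l t) • (star (c l s) * c l t)‖ ≤ ε := by
  obtain ⟨k, φ, c, hφ, -, h1⟩ := h F _ (half_pos hε)
  obtain ⟨δ, hδ, h2⟩ := exists_pos_mul_lt (half_pos hε) (∑ r, ∑ s, ∑ t, ‖star (c r s) * c r t‖)
  obtain ⟨n, d, h3⟩ := vec_approx hs hf h0 hφ F hδ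
  refine ⟨k * n, k, fun l => d (finProdFinEquiv.symm l).2, fun l => c (finProdFinEquiv.symm l).1,
    fun a ha => ?_⟩
  rw [finProdFinEquiv.symm.sum_comp fun q : Fin k × Fin n =>
    ∑ s, ∑ t, f (star (d q.2 s) * a * d q.2 t) • (star (c q.1 s) * c q.1 t), Fintype.sum_prod_type]
  have e : a - ∑ r, ∑ j, ∑ s, ∑ t, f (star (d j s) * a * d j t) • (star (c r s) * c r t)
      = (a - ∑ r, ∑ s, ∑ t, φ a s t • (star (c r s) * c r t)) +
        ∑ r, ∑ s, ∑ t, (φ a s t - ∑ j, f (star (d j s) * a * d j t)) • (star (c r s) * c r t) := by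
    simp only [sub_smul, Finset.sum_sub_distrib, sub_add_sub_cancel, Finset.sum_smul]
    congr 1
    refine Finset.sum_congr rfl fun r _ => ?_
    rw [Finset.sum_comm]
    exact Finset.sum_congr rfl fun s _ => Finset.sum_comm
  rw [e]
  refine (norm_add_le _ _).trans ?_
  have h4 : ‖∑ r, ∑ s, ∑ t, (φ a s t - ∑ j, f (star (d j s) * a * d j t)) • (star (c r s) * c r t)‖
      ≤ (∑ r, ∑ s, ∑ t, ‖star (c r s) * c r t‖) * δ := by
    simp only [Finset.sum_mul]
    refine norm_sum_le_of_le _ fun r _ => norm_sum_le_of_le _ fun s _ =>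
      norm_sum_le_of_le _ fun t _ => ?_
    rw [norm_smul, mul_comm]
    exact mul_le_mul_of_nonneg_left (h3 a ha s t) (norm_nonneg _)
  linarith [h1 a ha]

end Vale.Agent.P095.S
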