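import Vale.Agent.P095.S.Weight
import Vale.Agent.P095.S.Ideal

/-! Tracially small elements are additively dominated. Use the spectral order on `M`, `ps_iff`.
`dom` for `y`, `u = b (k+1)`, `u' = b (k+2)` gives `c` with `C = ∑ ‖c‖² > 0`; `δ = η δ' / (C + 1)`.
Second case of `hb`: `w (y y) ≤ 1/δ'` (`∑ x x* ≤ y y` gives `y₀ x = x`, use `√δ' x`),
`w (b' b') ≤ ∑ w (y c c* y) ≤ C / δ'`, `η ≤ w a ≤ w (b b) ≤ w (b' b')`; `φ = func / w (b b)` is in `TA`
(`AU.dom`) and `φ a ≥ η δ' / C`. First case: replace `z` by `z c`, `c = (E + η)^(-1/2) √a`. -/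

open Filter Topology TopologicalSpace
open scoped BoundedContinuousFunction ComplexOrder Matrix Kronecker

namespace Vale.Agent.P095.S

open H P101

variable {A M D G : Type} [NonUnitalCStarAlgebra A] [CStarAlgebra M] [CStarAlgebra D] [Group G]
  {i : A →⋆ₙₐ[ℂ] M} {ω : Ultrafilter ℕ} {π : cenSeq i ω →⋆ₐ[ℂ] D} {α : G →* (M ≃⋆ₐ[ℂ] M)}
  {hα : Inv i α} {γ : G →* (D ≃⋆ₐ[ℂ] D)} {b : ℕ → M} {m : ℕ → ℝ}

section

variable [PartialOrder M] [StarOrderedRing M]

theorem dich_fac {a P : M} (ha : 0 ≤ a) (h : a ≤ P) (hP : IsUnit P) :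
    ∃ c, star c * P * c = a ∧ ‖c‖ ≤ 1 ∧ ∀ y, a * y = a → c * y = c := by
  obtain ⟨r, hr, e1, -, h1, -⟩ := ps_sqrt (ps_iff.2 ha)
  obtain ⟨s, hs, e2, -⟩ := ps_sqrt (ps_iff.2 (ha.trans h))
  obtain ⟨u, rfl⟩ : IsUnit s := isUnit_mul_self_iff.1 (e2 ▸ hP)
  have e3 : star (↑u⁻¹ : M) * u = 1 := by
    rw [← hs.sa.star_eq, ← star_mul, Units.mul_inv, star_one]
  have e4 : (u : M) * star (↑u⁻¹ : M) = 1 := by
    rw [← hs.sa.star_eq, ← star_mul, Units.inv_mul, star_one]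
  refine ⟨↑u⁻¹ * r, ?_, ?_, fun y hy => by rw [mul_assoc, h1 y hy]⟩
  · rw [← e2, star_mul, hr.sa.star_eq, mul_assoc r, ← mul_assoc _ (u : M), e3, one_mul, mul_assoc,
      Units.mul_inv_cancel_left, e1]
  · have h2 := star_right_conjugate_le_conjugate h (↑u⁻¹ : M)
    have e5 : (↑u⁻¹ : M) * a * star (↑u⁻¹ : M) = ↑u⁻¹ * r * star (↑u⁻¹ * r) := by
      rw [star_mul, hr.sa.star_eq, ← e1]
      simp only [mul_assoc]
    rw [e5, ← e2, Units.inv_mul_cancel_left, e4,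
      ← CStarAlgebra.norm_le_one_iff_of_nonneg _ (mul_star_self_nonneg _),
      CStarRing.norm_self_mul_star] at h2
    exact (mul_self_le_mul_self_iff (norm_nonneg _) zero_le_one).2 (by rwa [one_mul])

theorem dich_le {x c : M} (hc : IsSelfAdjoint c) (h1 : ‖c‖ ≤ 1) : x * c * star x ≤ x * star x := by
  refine (CStarAlgebra.star_right_conjugate_le_norm_smul hc).trans ?_
  exact (smul_le_smul_of_nonneg_right h1 (mul_star_self_nonneg x)).trans_eq (one_smul _ _)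

theorem dich_one {y₀ a β : M} (ha : 0 ≤ a) (h1 : ‖a‖ ≤ 1) (hβ : a * β = a) {η δ : ℝ} (hη : 0 < η)
    {n : ℕ} {z : Fin n → M} (h2 : ∀ j, y₀ * z j = z j) (h3 : ‖∑ j, z j * star (z j)‖ ≤ δ)
    (h4 : a ≤ ∑ j, star (z j) * z j + (η : ℂ) • 1) :
    ∃ (n : ℕ) (z : Fin n → M), (∀ j, y₀ * z j = z j ∧ z j * β = z j) ∧
      ‖∑ j, z j * star (z j)‖ ≤ δ ∧ ‖∑ j, star (z j) * z j‖ ≤ 1 ∧
      ‖∑ j, star (z j) * z j - a‖ ≤ η := by
  have hE : 0 ≤ ∑ j, star (z j) * z j := Finset.sum_nonneg fun j _ => star_mul_self_nonneg _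
  obtain ⟨c, e1, h5, h6⟩ := dich_fac ha h4 (CStarAlgebra.isUnit_of_le ((η : ℂ) • (1 : M))
    (le_add_of_nonneg_left hE) ⟨ps_iff.1 (Ps.one.smul hη.le), by
      rw [← Algebra.algebraMap_eq_smul_one]
      exact (Complex.ofReal_ne_zero.2 hη.ne').isUnit.map _⟩)
  have h7 : ‖star c * c‖ ≤ 1 := by
    rw [CStarRing.norm_star_mul_self]
    exact mul_le_one₀ h5 (norm_nonneg _) h5
  have e2 : ∑ j, star (z j * c) * (z j * c) = a - (η : ℂ) • (star c * c) := by
    rw [← e1, mul_add, add_mul, mul_smul_comm, smul_mul_assoc, mul_one, add_sub_cancel_right,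
      Finset.mul_sum, Finset.sum_mul]
    simp only [star_mul, mul_assoc]
  refine ⟨n, fun j => z j * c, fun j => ⟨by rw [← mul_assoc, h2], by rw [mul_assoc, h6 β hβ]⟩,
    le_trans ?_ h3, le_trans ?_ h1, ?_⟩
  · refine CStarAlgebra.norm_le_norm_of_nonneg_of_le
      (Finset.sum_nonneg fun j _ => mul_star_self_nonneg _) (Finset.sum_le_sum fun j _ => ?_)
    have h8 := dich_le (x := z j) (IsSelfAdjoint.mul_star_self c) (by
      rw [CStarRing.norm_self_mul_star]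
      exact mul_le_one₀ h5 (norm_nonneg _) h5)
    simpa only [star_mul, mul_assoc] using h8
  · refine CStarAlgebra.norm_le_norm_of_nonneg_of_le
      (Finset.sum_nonneg fun j _ => star_mul_self_nonneg _) ?_
    rw [e2]
    exact sub_le_self _ (ps_iff.1 ((Ps.sq c).smul hη.le))
  · rw [e2, sub_sub_cancel_left, norm_neg, norm_smul, Complex.norm_real, Real.norm_of_nonneg hη.le]
    exact mul_le_of_le_one_right hη.le h7

theorem dich_sum {w : M → ENNReal} (hw : Wt w) {ι : Type} (s : Finset ι) {x : ι → M}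
    (hx : ∀ j, 0 ≤ x j) : w (∑ j ∈ s, x j) = ∑ j ∈ s, w (x j) := by
  classical
  induction s using Finset.induction_on with
  | empty => exact hw.zero
  | insert j s hj ih =>
    rw [Finset.sum_insert hj, Finset.sum_insert hj,
      hw.add _ _ (hx j) (Finset.sum_nonneg fun l _ => hx l), ih]

theorem dich_dom {w : M → ENNReal} (hw : Wt w) {u v : M} {n : ℕ} {c : Fin n → M} (hu : 0 ≤ u)
    (h : Ps (∑ j, star (c j) * (star v * v) * c j - u)) {κ : ℝ}
    (hκ : w (v * star v) ≤ ENNReal.ofReal κ) : w u ≤ ENNReal.ofReal ((∑ j, ‖c j‖ ^ 2) * κ) := by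
  refine (hw.mono _ _ hu (sub_nonneg.1 (ps_iff.1 h))).trans ?_
  rw [dich_sum hw _ fun j => star_left_conjugate_nonneg (star_mul_self_nonneg v) (c j),
    ENNReal.ofReal_mul (Finset.sum_nonneg fun _ _ => sq_nonneg _),
    ENNReal.ofReal_sum_of_nonneg fun _ _ => sq_nonneg _, Finset.sum_mul]
  refine Finset.sum_le_sum fun j _ => ?_
  have e1 : star (c j) * (star v * v) * c j = star (v * c j) * (v * c j) := by
    simp only [star_mul, mul_assoc]
  have e2 : v * c j * star (v * c j) = v * (c j * star (c j)) * star v := by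
    simp only [star_mul, mul_assoc]
  have h1 := hw.mono _ _ (star_right_conjugate_nonneg (mul_star_self_nonneg (c j)) v)
    (CStarAlgebra.star_right_conjugate_le_norm_smul (IsSelfAdjoint.mul_star_self (c j)))
  have h2 := hw.smul ‖c j * star (c j)‖₊ _ (mul_star_self_nonneg v)
  rw [coe_nnnorm] at h2
  rw [e1, hw.tr, e2]
  refine (h1.trans_eq h2).trans (mul_le_mul' (le_of_eq ?_) hκ)
  rw [sq, ← CStarRing.norm_self_mul_star, ofReal_norm]
  rfl

theorem dich_y {f : M →L[ℝ] ℝ} {y y₀ : M} (sy : IsSelfAdjoint y) (h1 : ‖y‖ = 1)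
    (sa : IsSelfAdjoint y₀) (h0 : y₀ * y = y) {δ : ℝ} (hδ : 0 < δ)
    (hf : ∀ (n : ℕ) (z : Fin n → M), (∀ j, y₀ * z j = z j) → ‖∑ j, z j * star (z j)‖ ≤ δ →
      f (∑ j, star (z j) * z j) ≤ 1) (n : ℕ) (x : Fin n → M)
    (hx : ∑ j, x j * star (x j) ≤ y * star y) : f (∑ j, star (x j) * x j) ≤ δ⁻¹ := by
  have e1 : ∀ u v : M, √δ • u * √δ • v = δ • (u * v) := fun u v => by
    rw [smul_mul_smul_comm, Real.mul_self_sqrt hδ.le]
  have h2 := hf n (fun j => √δ • x j) (fun j => ?_) ?_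
  · simp only [star_smul, star_trivial, e1, ← Finset.smul_sum, map_smul, smul_eq_mul] at h2
    rwa [← le_inv_mul_iff₀ hδ, mul_one] at h2
  · have h3 := star_right_conjugate_le_conjugate ((Finset.single_le_sum
      (f := fun j => x j * star (x j)) (fun l _ => mul_star_self_nonneg _)
      (Finset.mem_univ j)).trans hx) (1 - y₀)
    have e2 : (1 - y₀) * y = 0 := by rw [sub_mul, one_mul, h0, sub_self]
    have e3 : (1 - y₀) * (x j * star (x j)) * star (1 - y₀) =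
        (1 - y₀) * x j * star ((1 - y₀) * x j) := by simp only [star_mul, mul_assoc]
    rw [e3, ← mul_assoc _ y, e2, zero_mul, zero_mul] at h3
    have h4 := (CStarRing.mul_star_self_eq_zero_iff _).1
      (le_antisymm h3 (mul_star_self_nonneg _))
    rw [sub_mul, one_mul, sub_eq_zero] at h4
    rw [mul_smul_comm, ← h4]
  · simp only [star_smul, star_trivial, e1, ← Finset.smul_sum]
    rw [norm_smul, Real.norm_of_nonneg hδ.le]
    refine mul_le_of_le_one_right hδ.le ((CStarAlgebra.norm_le_norm_of_nonneg_of_le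
      (Finset.sum_nonneg fun j _ => mul_star_self_nonneg _) hx).trans_eq ?_)
    rw [CStarRing.norm_self_mul_star, h1, one_mul]

theorem dich_ta {w : M → ENNReal} (hw : Wt w) {β β' : M} (sβ : IsSelfAdjoint β)
    (sβ' : IsSelfAdjoint β') (e : β' * β = β) {μ t : ℝ} (ht : 0 < t)
    (h1 : w (β * β) = ENNReal.ofReal t) {n : ℕ} {c : Fin n → M}
    (h2 : Ps (∑ j, star (c j) * (β * β) * c j - β' * β')) (h3 : 2 * ∑ j, ‖c j‖ ^ 2 ≤ μ) :
    ∃ φ ∈ TA β β' μ, ∀ x, 0 ≤ x → φ (β * x * β) = (t⁻¹ * (w (β * x * β)).toReal : ℝ) := by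
  have e' : β * β' = β := by rw [← sβ.star_eq, ← sβ'.star_eq, ← star_mul, e]
  have h4 := dich_dom hw (v := β) (κ := t) (by simpa only [sβ'.star_eq] using star_mul_self_nonneg β')
    (by rwa [sβ.star_eq]) (by rw [sβ.star_eq, h1])
  obtain ⟨φ, h5, h6⟩ := hw.func sβ' (ne_top_of_le_ne_top ENNReal.ofReal_ne_top h4)
  have h7 : ∀ x, 0 ≤ x → (((t⁻¹ : ℝ) : ℂ) • φ) x = (t⁻¹ * (w (β' * x * β')).toReal : ℝ) :=
    fun x hx => by rw [smul_apply, h5 x hx, smul_eq_mul, Complex.ofReal_mul]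
  have h8 : ∀ x, 0 ≤ x →
      (((t⁻¹ : ℝ) : ℂ) • φ) (β * x * β) = (t⁻¹ * (w (β * x * β)).toReal : ℝ) := fun x hx => by
    rw [h7 _ (sβ.conjugate_nonneg hx), ← mul_assoc, ← mul_assoc, e, mul_assoc _ β, e']
  refine ⟨_, ⟨fun x => ?_, ?_, fun u hu hu' => ?_, ?_⟩, h8⟩
  · rw [h7 _ (star_mul_self_nonneg x)]
    exact Complex.zero_le_real.2 (by positivity)
  · have h9 := ENNReal.toReal_le_of_le_ofReal (by positivity) h4
    rw [norm_smul, Complex.norm_real, Real.norm_of_nonneg (by positivity), inv_mul_le_iff₀ ht]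
    nlinarith
  · have e1 : β' * star u = star u := by rw [← sβ'.star_eq, ← star_mul, hu']
    have e2 : star u * β' = star u := by rw [← sβ'.star_eq, ← star_mul, hu]
    rw [h7 _ (star_mul_self_nonneg u), h7 _ (mul_star_self_nonneg u), ← mul_assoc, ← mul_assoc, e1,
      hu, mul_assoc _ u, hu', mul_assoc u, e2, hw.tr]
  · have h9 := h8 1 zero_le_one
    rw [mul_one, h1, ENNReal.toReal_ofReal ht.le, inv_mul_cancel₀ ht.ne'] at h9
    exact h9

end

theorem dich (hs : IsSimple A) (hi : Function.Injective i) (hi' : IsIdl i) (hb : AU i b m) (k : ℕ)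
    {y y₀ : M} (hy : y ∈ Set.range i) (ps : Ps y) (h1 : ‖y‖ = 1) (sa : IsSelfAdjoint y₀)
    (h0 : y₀ * y = y) {η δ' : ℝ} (hη : 0 < η) (hδ : 0 < δ') : ∃ δ > 0, ∀ x : M, Ps x → ‖x‖ ≤ 1 →
      (∀ φ ∈ TA (b k) (b (k + 1)) (m k), (φ (b k * x * b k)).re < δ) →
      ∃ (n : ℕ) (z : Fin n → M), (∀ j, y₀ * z j = z j ∧ z j * b (k + 1) = z j) ∧
        ‖∑ j, z j * star (z j)‖ ≤ δ' ∧ ‖∑ j, star (z j) * z j‖ ≤ 1 ∧
        ‖∑ j, star (z j) * z j - b k * x * b k‖ ≤ η := by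
  let _ := CStarAlgebra.spectralOrder M
  have _ := CStarAlgebra.spectralOrderedRing M
  have sβ := fun k => (hb.ps k).sa
  obtain ⟨n, c, hc⟩ := dom hs hi hi' hy (by rintro rfl; simp at h1) (hb.mem (k + 1 + 1))
    (sβ (k + 1)) (sβ (k + 1 + 1)) (hb.nest (k + 1))
  have hC : 0 ≤ ∑ j, ‖c j‖ ^ 2 := Finset.sum_nonneg fun _ _ => sq_nonneg _
  refine ⟨η * δ' / (∑ j, ‖c j‖ ^ 2 + 1), by positivity, fun x hx hx1 h => ?_⟩
  have e' : b k * b (k + 1) = b k := by
    rw [← (sβ k).star_eq, ← (sβ (k + 1)).star_eq, ← star_mul, hb.nest]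
  have ha : 0 ≤ b k * x * b k := (sβ k).conjugate_nonneg (ps_iff.1 hx)
  have h2 : b k * x * b k ≤ b k * b k := by
    simpa only [(sβ k).star_eq] using dich_le (x := b k) hx.sa hx1
  have h3 : ‖b k * b k‖ ≤ 1 :=
    (norm_mul_le _ _).trans (mul_le_one₀ (hb.le k) (norm_nonneg _) (hb.le k))
  have h4 := (CStarAlgebra.norm_le_norm_of_nonneg_of_le ha h2).trans h3
  rcases S.hb (y := y₀) ha hη hδ with ⟨n', z, h5, h6, h7⟩ | ⟨f, h5, h6, h7⟩
  · exact dich_one ha h4 (by rw [mul_assoc, e']) hη h5 h6 h7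
  exfalso
  obtain ⟨w, hw, h8, h9⟩ := exists_wt f h5
  have h10 := dich_dom hw (by simpa only [(sβ _).star_eq] using star_mul_self_nonneg (b (k + 1))) hc
    (h9 _ _ (dich_y ps.sa h1 sa h0 hδ fun n z hz hz' => (h7 n z hz hz').trans h4))
  have h11 : b k * b k ≤ b (k + 1) * b (k + 1) := by
    have h12 := dich_le (x := b (k + 1)) (c := b k * b k)
      (IsSelfAdjoint.of_nonneg (ha.trans h2)) h3
    rwa [(sβ _).star_eq, ← mul_assoc, hb.nest, mul_assoc, e'] at h12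
  have h12 := (hw.mono _ _ (ha.trans h2) h11).trans h10
  have h13 := hw.mono _ _ ha h2
  have h14 := (ENNReal.ofReal_le_ofReal h6).trans (h8 _ ha)
  have f1 := ne_top_of_le_ne_top ENNReal.ofReal_ne_top h12
  have h15 := (ENNReal.ofReal_le_iff_le_toReal (ne_top_of_le_ne_top f1 h13)).1 h14
  have h16 := (ENNReal.ofReal_le_iff_le_toReal f1).1 (h14.trans h13)
  have h17 := ENNReal.toReal_le_of_le_ofReal (by positivity) h12
  obtain ⟨n', c', h18, h19⟩ := hb.dom k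
  obtain ⟨φ, hφ, h20⟩ := dich_ta hw (sβ k) (sβ (k + 1)) (hb.nest k) (hη.trans_le h16)
    (ENNReal.ofReal_toReal f1).symm h18 h19
  have h21 := h φ hφ
  rw [h20 x (ps_iff.1 hx), Complex.ofReal_re, inv_mul_lt_iff₀ (hη.trans_le h16), ← mul_div_assoc,
    lt_div_iff₀ (by positivity)] at h21
  rw [← div_eq_mul_inv, le_div_iff₀ hδ] at h17
  nlinarith [mul_le_mul_of_nonneg_left h17 hη.le, mul_le_mul_of_nonneg_left h15 hC]

end Vale.Agent.P095.S
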