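import Vale.Agent.P095.Defs2
import Vale.Agent.P095.Reidx
import Vale.Agent.P095.H.Alg

/-! Part I of P095: definitions. `M` is a unital C*-algebra containing `A` as the ideal `range i`. -/

open Filter Topology TopologicalSpace
open scoped BoundedContinuousFunction ComplexOrder Matrix Kronecker

namespace Vale.Agent.P095.S

open H P101

/-- elementary complete positivity for maps to matrices -/
def CpM {A : Type} [NonUnitalCStarAlgebra A] {k : ℕ} (φ : A →ₗ[ℂ] Matrix (Fin k) (Fin k) ℂ) :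
    Prop :=
  (∀ (n : ℕ) (x : Fin n → A), (Matrix.of fun p q : Fin n × Fin k =>
    φ (star (x p.1) * x q.1) p.2 q.2).PosSemidef) ∧
  ∀ a, (((‖a‖ ^ 2 : ℝ) : ℂ) • (1 : Matrix (Fin k) (Fin k) ℂ) - φ (star a * a)).PosSemidef

/-- elementary form of nuclearity -/
def Cp (A : Type) [NonUnitalCStarAlgebra A] : Prop :=
  ∀ (F : Finset A) (ε : ℝ), 0 < ε → ∃ (k : ℕ) (φ : A →ₗ[ℂ] Matrix (Fin k) (Fin k) ℂ)
    (c : Fin k → Fin k → A), CpM φ ∧ ‖∑ r, ∑ s, star (c r s) * c r s‖ ≤ 1 ∧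
    ∀ a ∈ F, ‖a - ∑ r, ∑ s, ∑ t, φ a s t • (star (c r s) * c r t)‖ ≤ ε

/-- positive functionals -/
def PosF {A : Type} [NonUnitalCStarAlgebra A] (φ : A →L[ℂ] ℂ) : Prop :=
  ∀ x, 0 ≤ φ (star x * x)

variable {A M D G : Type} [NonUnitalCStarAlgebra A] [CStarAlgebra M] [CStarAlgebra D] [Group G]

/-- the standing hypotheses -/
structure Ctx (i : A →⋆ₙₐ[ℂ] M) (ω : Ultrafilter ℕ) (π : cenSeq i ω →⋆ₐ[ℂ] D)
    {α : G →* (M ≃⋆ₐ[ℂ] M)} (hα : Inv i α) (γ : G →* (D ≃⋆ₐ[ℂ] D)) : Prop where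
  inj : Function.Injective i
  idl : IsIdl i
  free : (ω : Filter ℕ) ≤ cofinite
  isF : IsF i ω π
  act : IsAct hα π γ
  smp : IsSimple A

/-- normalized local traces -/
def TA (b b' : M) (m : ℝ) : Set (M →L[ℂ] ℂ) :=
  {φ | PosF φ ∧ ‖φ‖ ≤ m ∧ (∀ u, b' * u = u → u * b' = u → φ (star u * u) = φ (u * star u)) ∧
    φ (b * b) = 1}

/-- a nested approximate unit with domination constants -/
structure AU (i : A →⋆ₙₐ[ℂ] M) (b : ℕ → M) (m : ℕ → ℝ) : Prop where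
  mem : ∀ k, b k ∈ Set.range i
  ps : ∀ k, Ps (b k)
  le : ∀ k, ‖b k‖ ≤ 1
  ne : ∀ k, b k ≠ 0
  nest : ∀ k, b (k + 1) * b k = b k
  lim : ∀ a, Tendsto (fun k => b k * i a) atTop (𝓝 (i a))
  dom : ∀ k, ∃ (n : ℕ) (c : Fin n → M),
    Ps (∑ j, star (c j) * (b k * b k) * c j - b (k + 1) * b (k + 1)) ∧ 2 * ∑ j, ‖c j‖ ^ 2 ≤ m k

/-- the limit traces on `D` -/
def TT {i : A →⋆ₙₐ[ℂ] M} {ω : Ultrafilter ℕ} (π : cenSeq i ω →⋆ₐ[ℂ] D) (α : G →* (M ≃⋆ₐ[ℂ] M))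
    (b : ℕ → M) (m : ℕ → ℝ) : Set (D →L[ℂ] ℂ) :=
  {τ | ∃ (k : ℕ) (g : G) (φ : ℕ → (M →L[ℂ] ℂ)), (∀ n, φ n ∈ TA (b k) (b (k + 1)) (m k)) ∧
    ∀ x : cenSeq i ω, Tendsto (fun n => φ n (b k * α g (x.1 n) * b k)) (ω : Filter ℕ)
      (𝓝 (τ (π x)))}

/-- internal functions -/
def Itn {i : A →⋆ₙₐ[ℂ] M} {ω : Ultrafilter ℕ} (π : cenSeq i ω →⋆ₐ[ℂ] D) {ι : Type}
    (p : (ι → D) → D) : Prop :=
  ∃ p' : ℕ → (ι → M) → M, ∀ x : ι → cenSeq i ω, ∃ y : cenSeq i ω,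
    (∀ n, y.1 n = p' n fun l => (x l).1 n) ∧ π y = p fun l => π (x l)

/-- order zero matrix units with small remainder in all relative commutants -/
def OZ (D : Type) [CStarAlgebra D] : Prop :=
  ∀ (n : ℕ) (S : Set D), S.Countable → ∃ (c v : D) (E : Fin (n + 1) → Fin (n + 1) → D),
    PC c ∧ Units c E ∧ star v * v = (1 - c) * (1 - c) ∧ E 0 0 * v = v ∧
    ∀ s ∈ S, Commute s v ∧ Commute s (star v) ∧ ∀ j l, Commute s (E j l)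

/-- independent equivariant copies -/
def CP (γ : G →* (D ≃⋆ₐ[ℂ] D)) : Prop :=
  ∀ y : D, ∃ (E : Type) (_ : CStarAlgebra E) (δ : G →* (E ≃⋆ₐ[ℂ] E)) (e : E) (ψ : E →⋆ₐ[ℂ] D),
    Function.Injective ψ ∧ ψ e = y ∧ (∀ g x, ψ (δ g x) = γ g (ψ x)) ∧
    ∀ (T : Set D), T.Countable → ∀ (u : D) (e₀ : E), ∃ σ : E →⋆ₐ[ℂ] D,
      (∀ g x, σ (δ g x) = γ g (σ x)) ∧ (∀ x, ∀ t ∈ T, Commute (σ x) t) ∧
      ‖u‖ * ‖e₀‖ ≤ ‖u * σ e₀‖

/-- orthogonal positive elements moved off themselves by all outer group elements -/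
def Outer (γ : G →* (D ≃⋆ₐ[ℂ] D)) : Prop :=
  ∀ (P : Finset G), (∀ g ∈ P, γ g ≠ 1) → ∀ (κ : Type) [Fintype κ], ∃ y : κ → D,
    (∀ l, Ps (y l) ∧ ‖y l‖ = 1) ∧ (∀ l l', l ≠ l' → y l * y l' = 0) ∧
    ∀ g ∈ P, ∀ l l', y l * γ g (y l') = 0

/-- an excisable positive functional -/
def Exc (i : A →⋆ₙₐ[ℂ] M) (f : M →L[ℂ] ℂ) : Prop :=
  PosF f ∧ (∃ a, f (i a) ≠ 0) ∧ ∀ (F : Finset A) (ε : ℝ), 0 < ε → ∃ x ∈ Set.range i,
    Ps x ∧ ‖x‖ = 1 ∧ ∀ a ∈ F, ‖x * i a * x - f (i a) • (x * x)‖ ≤ ε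

/-- comparison of tracially small elements with a fixed nonzero element -/
def Cmp (i : A →⋆ₙₐ[ℂ] M) (b : ℕ → M) (m : ℕ → ℝ) : Prop :=
  ∀ (k : ℕ), ∀ z ∈ Set.range i, Ps z → ‖z‖ = 1 → ∀ η : ℝ, 0 < η → ∃ δ > 0, ∀ x : M, Ps x →
    ‖x‖ ≤ 1 → (∀ φ ∈ TA (b k) (b (k + 1)) (m k), (φ (b k * x * b k)).re < δ) →
    ∃ t : M, ‖t‖ ≤ 2 ∧ ‖z * t - t‖ ≤ η ∧ ‖star t * t - b k * x * b k‖ ≤ η

/-- permutation matrices -/
def pm {X : Type} [DecidableEq X] (σ : Equiv.Perm X) : Matrix X X ℂ :=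
  Matrix.of fun x y => if x = σ y then 1 else 0

/-- the hypotheses on the Gram matrix -/
structure Gram {ι κ : Type} [Fintype ι] [Fintype κ] [DecidableEq ι] [DecidableEq κ]
    (N : ι → ι → Matrix κ κ ℂ) (δ : ℝ) : Prop where
  pos : (Matrix.of fun p q : ι × κ => N p.1 q.1 p.2 q.2).PosSemidef
  le : ((δ : ℂ) • (1 : Matrix (ι × κ) (ι × κ) ℂ) -
    Matrix.of fun p q : ι × κ => N p.1 q.1 p.2 q.2).PosSemidef
  sum : (1 - ∑ j, N j j).PosSemidef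

/-- the off diagonal operator -/
noncomputable def offT {ι κ X : Type} [Fintype ι] [DecidableEq ι] [Fintype X] [DecidableEq X]
    (N : ι → ι → Matrix κ κ ℂ) (σ : ι → Equiv.Perm X) : Matrix (κ × X) (κ × X) ℂ :=
  ∑ j, ∑ l, if j = l then 0 else N j l ⊗ₖ ((pm (σ j))ᴴ * pm (σ l))

/-- the tree condition on a set -/
def Tree {ι X : Type} (σ : ι → Equiv.Perm X) (lab : X → Option ι) (B : Set X) : Prop :=
  ∀ x ∈ B, ∀ x' ∈ B, ∀ j l, j ≠ l → lab x ≠ some j → lab x' ≠ some l → σ j x ≠ σ l x'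

/-- `-c ≤ T ≤ c` -/
def Bd {κ : Type} [Fintype κ] [DecidableEq κ] (T : Matrix κ κ ℂ) (c : ℝ) : Prop :=
  ((c : ℂ) • (1 : Matrix κ κ ℂ) - T).PosSemidef ∧ ((c : ℂ) • (1 : Matrix κ κ ℂ) + T).PosSemidef

/-- the output of the free group argument -/
structure FGd {d k p : ℕ} (N : Fin d → Fin d → Matrix (Fin k) (Fin k) ℂ) (c : ℝ)
    (u : Fin d → Matrix (Fin (p + 1)) (Fin (p + 1)) ℂ) (ρ : Fin d → Fin (p + 1)) : Prop where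
  inj : Function.Injective ρ
  row : ∀ j l s, u j (ρ l) s = 0
  le : ∀ j, ((4 : ℂ) • (1 : Matrix (Fin (p + 1)) (Fin (p + 1)) ℂ) - (u j)ᴴ * u j).PosSemidef
  bd : Bd (∑ j, ∑ l, N j l ⊗ₖ ((u j)ᴴ * u l) -
    (∑ j, N j j) ⊗ₖ (1 : Matrix (Fin (p + 1)) (Fin (p + 1)) ℂ)) c

/-- weights: additive monotone traces on the positive cone -/
structure Wt [PartialOrder M] (w : M → ENNReal) : Prop where
  zero : w 0 = 0
  mono : ∀ x y, 0 ≤ x → x ≤ y → w x ≤ w y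
  add : ∀ x y, 0 ≤ x → 0 ≤ y → w (x + y) = w x + w y
  smul : ∀ (c : NNReal) x, 0 ≤ x → w ((c : ℝ) • x) = c * w x
  tr : ∀ x, w (star x * x) = w (x * star x)

end Vale.Agent.P095.S
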