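import Vale.Agent.P095.S.Defs

/-! Discarding the large eigenvalues. `∑ λ ^ (2R) = ∑ q r, ‖(T ^ R) r q‖² ≤ card κ card X η ^ (2R)`, so at
most `card κ card X / 4 ^ R` eigenvalues have `|λ| > 2 η`. `V` = vectors of `EuclideanSpace ℂ X`
orthogonal to all slices `ζ (a, ·)` of these eigenvectors, `finrank V ≥ card X / 2`;
`Y` = matrix of an orthonormal basis of `V` (`stdOrthonormalBasis`). For `ξ` the vector
`(1 ⊗ Y) ξ` is orthogonal to the bad eigenvectors and has the same norm. -/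

open Filter Topology TopologicalSpace
open scoped BoundedContinuousFunction ComplexOrder Matrix Kronecker

namespace Vale.Agent.P095.S

open H P101

theorem discard_diag {ι : Type} [Fintype ι] [DecidableEq ι] {T : Matrix ι ι ℂ}
    (hT : T.IsHermitian) : ∃ (U : Matrix ι ι ℂ) (d : ι → ℝ), Uᴴ * U = 1 ∧ U * Uᴴ = 1 ∧
      T = U * Matrix.diagonal (fun i => (d i : ℂ)) * Uᴴ :=
  ⟨hT.eigenvectorUnitary, hT.eigenvalues, Unitary.coe_star_mul_self _,
    Unitary.coe_mul_star_self _, hT.spectral_theorem⟩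

theorem discard_pow {ι : Type} [Fintype ι] [DecidableEq ι] {U : Matrix ι ι ℂ} (h1 : Uᴴ * U = 1)
    (h2 : U * Uᴴ = 1) (d : ι → ℝ) (R : ℕ) :
    (U * Matrix.diagonal (fun i => (d i : ℂ)) * Uᴴ) ^ R =
      U * Matrix.diagonal (fun i => ((d i ^ R : ℝ) : ℂ)) * Uᴴ := by
  induction R with
  | zero => simp [h2]
  | succ R ih =>
    rw [pow_succ, ih]
    simp only [Matrix.mul_assoc]
    rw [← Matrix.mul_assoc Uᴴ U, h1, Matrix.one_mul, ← Matrix.mul_assoc (Matrix.diagonal _),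
      Matrix.diagonal_mul_diagonal]
    simp only [pow_succ, Complex.ofReal_mul]

theorem discard_frob {ι : Type} [Fintype ι] [DecidableEq ι] {U : Matrix ι ι ℂ} (h1 : Uᴴ * U = 1)
    (d : ι → ℝ) : ∑ q, ∑ r, ‖(U * Matrix.diagonal (fun i => (d i : ℂ)) * Uᴴ) r q‖ ^ 2 =
      ∑ i, d i ^ 2 := by
  have e : ∀ A : Matrix ι ι ℂ, ((∑ q, ∑ r, ‖A r q‖ ^ 2 : ℝ) : ℂ) = (Aᴴ * A).trace := fun A => by
    simp only [Matrix.trace, Matrix.diag, Matrix.mul_apply, Matrix.conjTranspose_apply,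
      Complex.star_def, Complex.conj_mul']
    push_cast
    rfl
  apply Complex.ofReal_injective
  rw [e, Matrix.conjTranspose_mul, Matrix.conjTranspose_mul, Matrix.conjTranspose_conjTranspose,
    Matrix.mul_assoc, Matrix.trace_mul_comm]
  simp only [Matrix.mul_assoc]
  rw [h1, Matrix.mul_one, ← Matrix.mul_assoc Uᴴ U, h1, Matrix.one_mul,
    Matrix.diagonal_conjTranspose, Matrix.diagonal_mul_diagonal, Matrix.trace_diagonal]
  push_cast
  refine Finset.sum_congr rfl fun i _ => ?_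
  simp [sq]

theorem discard_ker {ρ X : Type} [Fintype ρ] [Fintype X] [DecidableEq X] (L : Matrix ρ X ℂ) :
    ∃ (n : ℕ) (Y : Matrix X (Fin n) ℂ), Yᴴ * Y = 1 ∧ L * Y = 0 ∧
      Fintype.card X ≤ n + Fintype.card ρ := by
  let f : EuclideanSpace ℂ X →ₗ[ℂ] (ρ → ℂ) := L.mulVecLin ∘ₗ (WithLp.linearEquiv 2 ℂ (X → ℂ)).toLinearMap
  let b := stdOrthonormalBasis ℂ (LinearMap.ker f)
  refine ⟨_, Matrix.of fun x s => (b s : EuclideanSpace ℂ X) x, ?_, ?_, ?_⟩
  · ext s t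
    have h := orthonormal_iff_ite.1 b.orthonormal s t
    rw [Submodule.coe_inner, PiLp.inner_apply] at h
    rw [Matrix.one_apply, ← h, Matrix.mul_apply]
    refine Finset.sum_congr rfl fun x _ => ?_
    simp [mul_comm]
  · ext i s
    exact congrFun (LinearMap.mem_ker.1 (b s).2) i
  · have h := f.finrank_range_add_finrank_ker
    have h2 := (LinearMap.range f).finrank_le
    rw [finrank_euclideanSpace] at h
    rw [Module.finrank_fintype_fun_eq_card] at h2
    omega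

theorem discard_ps {ι n : Type} [Fintype ι] [DecidableEq ι] [Fintype n] (Z : Matrix ι n ℂ)
    (d : ι → ℝ) (h : ∀ i, 0 ≤ d i ∨ ∀ s, Z i s = 0) :
    (Zᴴ * Matrix.diagonal (fun i => (d i : ℂ)) * Z).PosSemidef := by
  have e : Matrix.diagonal (fun i => (d i : ℂ)) * Z =
      Matrix.diagonal (fun i => ((max (d i) 0 : ℝ) : ℂ)) * Z := by
    ext i s
    rw [Matrix.diagonal_mul, Matrix.diagonal_mul]
    rcases h i with h | h
    · rw [max_eq_left h]
    · rw [h, mul_zero, mul_zero]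
  rw [Matrix.mul_assoc, e, ← Matrix.mul_assoc]
  exact (Matrix.posSemidef_diagonal_iff.2 fun i =>
    Complex.zero_le_real.2 (le_max_right _ _)).conjTranspose_mul_mul_same Z

theorem discard {κ X : Type} [Fintype κ] [DecidableEq κ] [Fintype X] [DecidableEq X]
    {T : Matrix (κ × X) (κ × X) ℂ} (hT : T.IsHermitian) {η : ℝ} (hη : 0 < η) {R : ℕ}
    (hR : 2 * Fintype.card κ ^ 2 ≤ 4 ^ R) (h : ∀ q, ∑ r, ‖(T ^ R) r q‖ ^ 2 ≤ η ^ (2 * R)) :
    ∃ (n : ℕ) (Y : Matrix X (Fin n) ℂ), Yᴴ * Y = 1 ∧ Fintype.card X ≤ 2 * n ∧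
      Bd (((1 : Matrix κ κ ℂ) ⊗ₖ Y)ᴴ * T * ((1 : Matrix κ κ ℂ) ⊗ₖ Y)) (2 * η) := by
  obtain ⟨U, d, h1, h2, rfl⟩ := discard_diag hT
  set B : Finset (κ × X) := Finset.univ.filter fun i => 2 * η < |d i| with hB
  have k1 : ∑ i, (d i ^ R) ^ 2 ≤ (Fintype.card κ * Fintype.card X : ℕ) * η ^ (2 * R) := by
    rw [← discard_frob h1, ← discard_pow h1 h2]
    refine (Finset.sum_le_card_nsmul _ _ _ fun q _ => h q).trans_eq ?_
    rw [Finset.card_univ, Fintype.card_prod, nsmul_eq_mul]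
  have k2 : (B.card : ℝ) * (4 ^ R * η ^ (2 * R)) ≤ ∑ i, (d i ^ R) ^ 2 := by
    rw [← nsmul_eq_mul]
    refine (Finset.card_nsmul_le_sum _ _ _ fun i hi => ?_).trans
      (Finset.sum_le_sum_of_subset_of_nonneg (Finset.subset_univ B) fun _ _ _ => sq_nonneg _)
    calc 4 ^ R * η ^ (2 * R) = ((2 * η) ^ R) ^ 2 := by
          rw [← pow_mul, mul_comm R, mul_pow, pow_mul 2]
          norm_num
      _ ≤ (|d i| ^ R) ^ 2 := by
          have := (Finset.mem_filter.1 hi).2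
          gcongr
      _ = _ := by rw [← abs_pow, sq_abs]
  have k3 : B.card * 4 ^ R ≤ Fintype.card κ * Fintype.card X := by
    have := k2.trans k1
    rw [← mul_assoc] at this
    exact_mod_cast le_of_mul_le_mul_right this (pow_pos hη _)
  have k4 : 2 * (B.card * Fintype.card κ) ≤ Fintype.card X := by
    rcases Nat.eq_zero_or_pos (Fintype.card κ) with h0 | h0
    · simp [h0]
    · refine Nat.le_of_mul_le_mul_left (le_trans ?_ k3) h0
      calc _ = B.card * (2 * Fintype.card κ ^ 2) := by ring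
        _ ≤ _ := Nat.mul_le_mul_left _ hR
  obtain ⟨n, Y, hY, hL, hn⟩ := discard_ker (Matrix.of fun (p : B × κ) x => Uᴴ p.1.1 (p.2, x))
  rw [Fintype.card_prod, Fintype.card_coe] at hn
  refine ⟨n, Y, hY, by omega, ?_⟩
  set W := (1 : Matrix κ κ ℂ) ⊗ₖ Y with hW
  have hz : ∀ i, |d i| ≤ 2 * η ∨ ∀ s, (Uᴴ * W) i s = 0 := fun i => by
    refine (le_or_gt _ _).imp_right fun hi s => ?_
    have := congrFun (congrFun hL (⟨i, Finset.mem_filter.2 ⟨Finset.mem_univ _, hi⟩⟩, s.1)) s.2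
    rw [Matrix.mul_apply] at this
    rw [Matrix.mul_apply, Fintype.sum_prod_type, Finset.sum_eq_single s.1]
    · simpa [hW] using this
    · intro a _ ha
      simp [hW, Matrix.one_apply_ne ha]
    · simp
  have e1 : (Uᴴ * W)ᴴ * (Uᴴ * W) = 1 := by
    rw [Matrix.conjTranspose_mul, Matrix.conjTranspose_conjTranspose, Matrix.mul_assoc,
      ← Matrix.mul_assoc U, h2, Matrix.one_mul, hW, Matrix.conjTranspose_kronecker,
      ← Matrix.mul_kronecker_mul, hY, Matrix.conjTranspose_one, Matrix.one_mul,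
      Matrix.one_kronecker_one]
  have e2 : Wᴴ * (U * Matrix.diagonal (fun i => (d i : ℂ)) * Uᴴ) * W =
      (Uᴴ * W)ᴴ * Matrix.diagonal (fun i => (d i : ℂ)) * (Uᴴ * W) := by
    rw [Matrix.conjTranspose_mul, Matrix.conjTranspose_conjTranspose]
    simp only [Matrix.mul_assoc]
  have e3 : ((2 * η : ℝ) : ℂ) • (1 : Matrix (κ × Fin n) (κ × Fin n) ℂ) =
      (Uᴴ * W)ᴴ * Matrix.diagonal (fun _ : κ × X => ((2 * η : ℝ) : ℂ)) * (Uᴴ * W) := by
    rw [← Matrix.smul_one_eq_diagonal, Matrix.mul_smul, Matrix.mul_one, Matrix.smul_mul, e1]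
  unfold Bd
  rw [e2, e3, ← Matrix.sub_mul, ← Matrix.mul_sub, ← Matrix.add_mul, ← Matrix.mul_add,
    Matrix.diagonal_sub, Matrix.diagonal_add]
  simp only [← Complex.ofReal_sub, ← Complex.ofReal_add]
  exact ⟨discard_ps _ _ fun i => (hz i).imp_left fun h => by linarith [(abs_le.1 h).2],
    discard_ps _ _ fun i => (hz i).imp_left fun h => by linarith [(abs_le.1 h).1]⟩

end Vale.Agent.P095.S
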