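import Vale.Agent.P095.S.Defs

/-! The Haagerup type estimate on a tree-like set. -/

open Filter Topology TopologicalSpace
open scoped BoundedContinuousFunction ComplexOrder Matrix Kronecker

namespace Vale.Agent.P095.S

open H P101

variable {ι κ X : Type} [Fintype ι] [DecidableEq ι] [Fintype κ] [DecidableEq κ] [Fintype X]
  [DecidableEq X]

section Form

variable {n Y : Type} [Fintype n] [Fintype Y] {T T' : Matrix n n ℂ} {a a' b b' : Y → n → ℂ}

/-- the summed sesquilinear form -/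
noncomputable def teQ (T : Matrix n n ℂ) (a b : Y → n → ℂ) : ℂ := ∑ y, star (a y) ⬝ᵥ (T *ᵥ b y)

theorem te_eq : teQ T a b = ∑ y, ∑ p, ∑ q, star (a y p) * T p q * b y q := by
  simp only [teQ, dotProduct, Matrix.mulVec, Finset.mul_sum, mul_assoc, Pi.star_apply]

theorem te_add_left : teQ T (a + a') b = teQ T a b + teQ T a' b := by
  simp only [teQ, Pi.add_apply, star_add, add_dotProduct, Finset.sum_add_distrib]

theorem te_add_right : teQ T a (b + b') = teQ T a b + teQ T a b' := by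
  simp only [teQ, Pi.add_apply, Matrix.mulVec_add, dotProduct_add, Finset.sum_add_distrib]

theorem te_sub : teQ (T - T') a b = teQ T a b - teQ T' a b := by
  simp only [teQ, Matrix.sub_mulVec, dotProduct_sub, Finset.sum_sub_distrib]

theorem te_zero (h : ∀ y p q, a y p ≠ 0 → T p q ≠ 0 → b y q = 0) : teQ T a b = 0 := by
  rw [te_eq]
  refine Finset.sum_eq_zero fun y _ => Finset.sum_eq_zero fun p _ => Finset.sum_eq_zero fun q _ => ?_
  by_cases h1 : a y p = 0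
  · rw [h1, star_zero, zero_mul, zero_mul]
  by_cases h2 : T p q = 0
  · rw [h2, mul_zero, zero_mul]
  rw [h y p q h1 h2, mul_zero]

theorem te_nonneg (hT : T.PosSemidef) (a : Y → n → ℂ) : 0 ≤ (teQ T a a).re := by
  rw [teQ, Complex.re_sum]
  exact Finset.sum_nonneg fun y _ => hT.re_dotProduct_nonneg _

theorem te_self (v : n → ℂ) : star v ⬝ᵥ v = ((∑ p, ‖v p‖ ^ 2 : ℝ) : ℂ) := by
  simp only [dotProduct, Pi.star_apply, Complex.star_def, Complex.conj_mul']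
  push_cast
  rfl

variable [DecidableEq n]

open scoped MatrixOrder in
theorem te_cs (hT : T.PosSemidef) {A B : ℝ} (hA : (teQ T a a).re ≤ A) (hB : (teQ T b b).re ≤ B) :
    ‖teQ T a b‖ ≤ √A * √B := by
  obtain ⟨W, rfl⟩ := CStarAlgebra.nonneg_iff_eq_star_mul_self.mp hT.nonneg
  have h : ∀ a b : Y → n → ℂ, teQ (star W * W) a b =
      inner ℂ (WithLp.toLp 2 fun z : Y × n => (W *ᵥ a z.1) z.2)
        (WithLp.toLp 2 fun z : Y × n => (W *ᵥ b z.1) z.2) := fun a b => by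
    rw [EuclideanSpace.inner_toLp_toLp, dotProduct_comm, dotProduct, Fintype.sum_prod_type]
    refine Finset.sum_congr rfl fun y _ => ?_
    rw [← Matrix.mulVec_mulVec, Matrix.dotProduct_mulVec, Matrix.star_eq_conjTranspose,
      ← Matrix.star_mulVec]
    rfl
  rw [h] at hA hB ⊢
  rw [← RCLike.re_to_complex, inner_self_eq_norm_sq] at hA hB
  exact (norm_inner_le_norm _ _).trans (mul_le_mul (Real.le_sqrt_of_sq_le hA)
    (Real.le_sqrt_of_sq_le hB) (norm_nonneg _) (Real.sqrt_nonneg _))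

theorem te_le {δ : ℝ} (hT : ((δ : ℂ) • (1 : Matrix n n ℂ) - T).PosSemidef) (a : Y → n → ℂ) :
    (teQ T a a).re ≤ δ * ∑ y, ∑ p, ‖a y p‖ ^ 2 := by
  have h := te_nonneg hT a
  rw [te_sub, Complex.sub_re, sub_nonneg] at h
  refine h.trans_eq ?_
  simp only [teQ, Matrix.smul_mulVec, Matrix.one_mulVec, dotProduct_smul, te_self, smul_eq_mul,
    ← Finset.mul_sum, ← Complex.ofReal_sum, ← Complex.ofReal_mul, Complex.ofReal_re]

end Form

/-- the block diagonal part -/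
def teD (T : Matrix (ι × κ) (ι × κ) ℂ) : Matrix (ι × κ) (ι × κ) ℂ :=
  Matrix.of fun p q => if p.1 = q.1 then T p q else 0

theorem teD_pos {T : Matrix (ι × κ) (ι × κ) ℂ} (hT : T.PosSemidef) : (teD T).PosSemidef := by
  have e : teD T = ∑ j : ι, (Matrix.diagonal fun p : ι × κ => if p.1 = j then (1 : ℂ) else 0)ᴴ * T *
      Matrix.diagonal fun p : ι × κ => if p.1 = j then (1 : ℂ) else 0 := by
    ext p q
    simp only [teD, Matrix.of_apply, Matrix.sum_apply, Matrix.diagonal_conjTranspose,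
      Matrix.mul_diagonal, Matrix.diagonal_mul, Pi.star_apply, mul_ite, mul_one, mul_zero,
      Finset.sum_ite_eq, Finset.mem_univ, if_true]
    split_ifs <;> simp
  rw [e]
  exact Matrix.posSemidef_sum _ fun j _ => hT.conjTranspose_mul_mul_same _

omit [Fintype ι] [Fintype κ] in
theorem teD_le (δ : ℂ) (T : Matrix (ι × κ) (ι × κ) ℂ) :
    teD (δ • 1 - T) = δ • 1 - teD T := by
  ext p q
  simp only [teD, Matrix.of_apply, Matrix.sub_apply, Matrix.smul_apply]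
  split_ifs with h
  · rfl
  · rw [Matrix.one_apply_ne fun h1 => h (congrArg Prod.fst h1), smul_zero, sub_zero]

theorem te_pm (s t : Equiv.Perm X) (x x' : X) :
    ((pm s)ᴴ * pm t) x x' = if s x = t x' then 1 else 0 := by
  simp only [pm, Matrix.mul_apply, Matrix.conjTranspose_apply, Matrix.of_apply, mul_ite, mul_one,
    mul_zero, Finset.sum_ite_eq', Finset.mem_univ, if_true, eq_comm (a := t x')]
  split_ifs <;> simp

omit [DecidableEq κ] in
theorem te_kron (S : Matrix κ κ ℂ) (s t : Equiv.Perm X) (ζ ξ : κ × X → ℂ) :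
    star ζ ⬝ᵥ ((S ⊗ₖ ((pm s)ᴴ * pm t)) *ᵥ ξ) =
      ∑ y, ∑ k, ∑ k', star (ζ (k, s.symm y)) * S k k' * ξ (k', t.symm y) := by
  rw [← Equiv.sum_comp s, dotProduct, Fintype.sum_prod_type_right]
  refine Finset.sum_congr rfl fun x _ => Finset.sum_congr rfl fun k _ => ?_
  rw [Matrix.mulVec, dotProduct, Fintype.sum_prod_type, Finset.mul_sum]
  refine Finset.sum_congr rfl fun k' _ => ?_
  simp only [Matrix.kroneckerMap_apply, te_pm, ← t.symm_apply_eq, mul_ite, mul_one, mul_zero,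
    ite_mul, zero_mul, Finset.sum_ite_eq, Finset.mem_univ, if_true, Equiv.symm_apply_apply,
    Pi.star_apply, mul_assoc]

/-- the vector spread over the generators -/
def teS (σ : ι → Equiv.Perm X) (ξ : κ × X → ℂ) (y : X) (p : ι × κ) : ℂ := ξ (p.2, (σ p.1).symm y)

/-- the part with a matching label -/
def teB (σ : ι → Equiv.Perm X) (lab : X → Option ι) (ξ : κ × X → ℂ) (y : X) (p : ι × κ) : ℂ :=
  if lab ((σ p.1).symm y) = some p.1 then teS σ ξ y p else 0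

/-- the rest -/
def teA (σ : ι → Equiv.Perm X) (lab : X → Option ι) (ξ : κ × X → ℂ) (y : X) (p : ι × κ) : ℂ :=
  if lab ((σ p.1).symm y) = some p.1 then 0 else teS σ ξ y p

omit [DecidableEq κ] in
theorem te_off (N : ι → ι → Matrix κ κ ℂ) (σ : ι → Equiv.Perm X) (ζ ξ : κ × X → ℂ) :
    star ζ ⬝ᵥ (offT N σ *ᵥ ξ) = teQ ((Matrix.of fun p q : ι × κ => N p.1 q.1 p.2 q.2) -
      teD (Matrix.of fun p q : ι × κ => N p.1 q.1 p.2 q.2)) (teS σ ζ) (teS σ ξ) := by
  have h : ∀ j l, star ζ ⬝ᵥ ((if j = l then 0 else N j l ⊗ₖ ((pm (σ j))ᴴ * pm (σ l))) *ᵥ ξ) =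
      ∑ y, ∑ k, ∑ k', star (ζ (k, (σ j).symm y)) * (N j l k k' - if j = l then N j l k k' else 0) *
        ξ (k', (σ l).symm y) := fun j l => by
    split_ifs
    · simp
    · simp only [te_kron, sub_zero]
  simp only [offT, Matrix.sum_mulVec, dotProduct_sum, h, te_eq, Fintype.sum_prod_type, teD, teS,
    Matrix.sub_apply, Matrix.of_apply]
  rw [Finset.sum_comm (s := (Finset.univ : Finset X))]
  refine Finset.sum_congr rfl fun j _ => ?_
  rw [Finset.sum_comm]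
  exact Finset.sum_congr rfl fun y _ => Finset.sum_comm

omit [DecidableEq κ] [DecidableEq X] in
theorem te_diag (N : ι → ι → Matrix κ κ ℂ) (σ : ι → Equiv.Perm X) (ξ : κ × X → ℂ) :
    teQ (teD (Matrix.of fun p q : ι × κ => N p.1 q.1 p.2 q.2)) (teS σ ξ) (teS σ ξ) =
      teQ (∑ j, N j j) (fun x k => ξ (k, x)) fun x k => ξ (k, x) := by
  have h : ∀ j, ∑ y, ∑ k, ∑ k', star (ξ (k, (σ j).symm y)) * N j j k k' * ξ (k', (σ j).symm y) =
      ∑ x, ∑ k, ∑ k', star (ξ (k, x)) * N j j k k' * ξ (k', x) := fun j =>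
    Equiv.sum_comp (σ j).symm fun x => ∑ k, ∑ k', star (ξ (k, x)) * N j j k k' * ξ (k', x)
  simp only [te_eq, Fintype.sum_prod_type_right (α₁ := ι), teD, teS, Matrix.of_apply, mul_ite, ite_mul,
    mul_zero, zero_mul, Finset.sum_ite_eq, Finset.mem_univ, if_true, Matrix.sum_apply,
    Finset.mul_sum, Finset.sum_mul]
  simp only [Finset.sum_comm (t := (Finset.univ : Finset ι)), h]

omit [DecidableEq κ] [DecidableEq X] in
theorem te_normB (σ : ι → Equiv.Perm X) (lab : X → Option ι) (ξ : κ × X → ℂ) :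
    ∑ y, ∑ p, ‖teB σ lab ξ y p‖ ^ 2 ≤ ∑ p, ‖ξ p‖ ^ 2 := by
  have h : ∀ j, ∑ y, ∑ k, ‖teB σ lab ξ y (j, k)‖ ^ 2 =
      ∑ x, if lab x = some j then ∑ k, ‖ξ (k, x)‖ ^ 2 else 0 := fun j => by
    rw [← Equiv.sum_comp (σ j)]
    refine Finset.sum_congr rfl fun x _ => ?_
    simp only [teB, teS, Equiv.symm_apply_apply]
    split_ifs <;> simp
  simp only [Fintype.sum_prod_type (α₁ := ι)]
  rw [Finset.sum_comm, Finset.sum_congr rfl fun j _ => h j, Finset.sum_comm,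
    Fintype.sum_prod_type_right]
  refine Finset.sum_le_sum fun x _ => ?_
  cases lab x with
  | none => simpa using Finset.sum_nonneg fun k _ => sq_nonneg _
  | some j => simp

omit [Fintype ι] [Fintype κ] [DecidableEq κ] [Fintype X] [DecidableEq X] in
theorem te_split (σ : ι → Equiv.Perm X) (lab : X → Option ι) (ξ : κ × X → ℂ) :
    teS σ ξ = teA σ lab ξ + teB σ lab ξ := by
  ext y p
  simp only [teA, teB, Pi.add_apply]
  split_ifs <;> simp

omit [DecidableEq κ] [DecidableEq X] in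
theorem te_AA {σ : ι → Equiv.Perm X} {lab : X → Option ι} {B : Set X} (hB : Tree σ lab B)
    (T : Matrix (ι × κ) (ι × κ) ℂ) {ζ ξ : κ × X → ℂ} (hζ : ∀ p, p.2 ∉ B → ζ p = 0)
    (hξ : ∀ p, p.2 ∉ B → ξ p = 0) : teQ (T - teD T) (teA σ lab ζ) (teA σ lab ξ) = 0 := by
  refine te_zero fun y p q h1 h2 => ?_
  by_contra h3
  unfold teA teS at h1 h3
  refine hB ((σ p.1).symm y) (by_contra fun h => h1 (by rw [hζ _ h, ite_self])) ((σ q.1).symm y)
    (by_contra fun h => h3 (by rw [hξ _ h, ite_self])) p.1 q.1 (fun h => h2 ?_)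
    (fun h => h1 (if_pos h)) (fun h => h3 (if_pos h)) (by simp)
  simp [teD, h]

omit [DecidableEq κ] [DecidableEq X] in
theorem te_AB (σ : ι → Equiv.Perm X) (lab : X → Option ι) (T : Matrix (ι × κ) (ι × κ) ℂ)
    (ζ ξ : κ × X → ℂ) : teQ (teD T) (teA σ lab ζ) (teB σ lab ξ) = 0 ∧
      teQ (teD T) (teB σ lab ζ) (teA σ lab ξ) = 0 := by
  constructor <;> refine te_zero fun y p q h1 h2 => ?_ <;>
    have h3 : p.1 = q.1 := by_contra fun h => h2 (if_neg h)
  · exact if_neg fun h => h1 (if_pos (h3 ▸ h))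
  · exact if_pos (h3 ▸ by_contra fun h => h1 (if_neg h))

/-- Write `N j l = (W j)ᴴ W l` or work with the form `Q(η, η') = ∑ η_j* N j l η'_l` on
`ι → κ → ℂ` (positive, `≤ δ`, Cauchy-Schwarz). For `y : X` put `ξ¹ y j = ξ (·, (σ j)⁻¹ y)` if
`lab ((σ j)⁻¹ y) ≠ some j`, else `0`, and `ξ² y j` the rest. Then
`⟨ζ, T ξ⟩ = ∑ y, Q(ζ¹+ζ², ξ¹+ξ²) - ⟨ζ, (∑ N j j ⊗ 1) ξ⟩`; by `Tree` at most one `j` has `ξ¹ y j ≠ 0` or
`ζ¹ y j ≠ 0`, so `∑ y, Q(ζ¹,ξ¹)` is diagonal, `∑ y, Q(ξ¹,ξ¹) ≤ ‖ξ‖²`, `∑ y, Q(ξ²,ξ²) ≤ δ ‖ξ‖²`, and the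
remaining diagonal term is `≤ δ ‖ζ‖ ‖ξ‖`. -/
theorem tree_est {N : ι → ι → Matrix κ κ ℂ} {δ : ℝ} (hδ : 0 ≤ δ) (hN : Gram N δ)
    {σ : ι → Equiv.Perm X} {lab : X → Option ι} {B : Set X} (hB : Tree σ lab B)
    {ζ ξ : κ × X → ℂ} (hζ : ∀ p, p.2 ∉ B → ζ p = 0) (hξ : ∀ p, p.2 ∉ B → ξ p = 0) :
    ‖star ζ ⬝ᵥ (offT N σ *ᵥ ξ)‖ ≤
      (2 * √δ + 2 * δ) * √(∑ p, ‖ζ p‖ ^ 2) * √(∑ p, ‖ξ p‖ ^ 2) := by
  have hD := teD_pos hN.pos
  have hD' := teD_pos hN.le
  rw [teD_le] at hD'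
  have hA : ∀ ξ : κ × X → ℂ, (∀ p, p.2 ∉ B → ξ p = 0) →
      (teQ (Matrix.of fun p q : ι × κ => N p.1 q.1 p.2 q.2) (teA σ lab ξ) (teA σ lab ξ)).re ≤
        ∑ p, ‖ξ p‖ ^ 2 := fun ξ hξ => by
    have h1 := te_AA hB (Matrix.of fun p q : ι × κ => N p.1 q.1 p.2 q.2) hξ hξ
    have h2 := te_le (δ := 1) (T := ∑ j, N j j) (by simpa using hN.sum) fun x k => ξ (k, x)
    rw [← te_diag N σ, te_split σ lab, te_add_left, te_add_right, te_add_right, (te_AB σ lab _ ξ ξ).1,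
      (te_AB σ lab _ ξ ξ).2, add_zero, zero_add, Complex.add_re, one_mul,
      ← Fintype.sum_prod_type_right fun p => ‖ξ p‖ ^ 2] at h2
    rw [te_sub, sub_eq_zero] at h1
    rw [h1]
    linarith [te_nonneg hD (teB σ lab ξ)]
  have hB1 : ∀ (T : Matrix (ι × κ) (ι × κ) ℂ), ((δ : ℂ) • (1 : Matrix (ι × κ) (ι × κ) ℂ) - T).PosSemidef →
      ∀ ξ : κ × X → ℂ, (teQ T (teB σ lab ξ) (teB σ lab ξ)).re ≤ δ * ∑ p, ‖ξ p‖ ^ 2 := fun T hT ξ =>
    (te_le hT _).trans (mul_le_mul_of_nonneg_left (te_normB σ lab ξ) hδ)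
  have a1 := te_cs hN.pos (hA ζ hζ) (hB1 _ hN.le ξ)
  have a2 := te_cs hN.pos (hB1 _ hN.le ζ) (hA ξ hξ)
  have a3 := te_cs hN.pos (hB1 _ hN.le ζ) (hB1 _ hN.le ξ)
  have a4 := te_cs hD (hB1 _ hD' ζ) (hB1 _ hD' ξ)
  rw [te_off, te_split σ lab ζ, te_split σ lab ξ, te_add_left, te_add_right, te_add_right,
    te_AA hB _ hζ hξ, zero_add, te_sub, te_sub, te_sub, (te_AB σ lab _ ζ ξ).1, (te_AB σ lab _ ζ ξ).2,
    sub_zero, sub_zero]
  simp only [Real.sqrt_mul hδ] at a1 a2 a3 a4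
  refine (norm_add_le _ _).trans ((add_le_add a1 ((norm_add_le _ _).trans
    (add_le_add a2 ((norm_sub_le _ _).trans (add_le_add a3 a4))))).trans_eq ?_)
  linear_combination 2 * √(∑ p, ‖ζ p‖ ^ 2) * √(∑ p, ‖ξ p‖ ^ 2) * Real.mul_self_sqrt hδ

theorem offT_herm {N : ι → ι → Matrix κ κ ℂ} {δ : ℝ} (hN : Gram N δ) (σ : ι → Equiv.Perm X) :
    (offT N σ).IsHermitian := by
  have h : ∀ j l, (N j l)ᴴ = N l j := fun j l => by
    ext k k'
    exact congrFun (congrFun hN.pos.1 (l, k)) (j, k')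
  unfold offT Matrix.IsHermitian
  rw [Matrix.conjTranspose_sum, Finset.sum_comm]
  refine Finset.sum_congr rfl fun j _ => ?_
  rw [Matrix.conjTranspose_sum]
  refine Finset.sum_congr rfl fun l _ => ?_
  rcases eq_or_ne j l with rfl | h1
  · rw [if_pos rfl, Matrix.conjTranspose_zero]
  · rw [if_neg h1, if_neg h1.symm, Matrix.conjTranspose_kronecker, h, Matrix.conjTranspose_mul,
      Matrix.conjTranspose_conjTranspose]

/-- For the base point `x₀` use `B' r = {x | x x₀⁻¹ ∈ B r}`, `lab' x = lab (x x₀⁻¹)`; the column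
`T ^ p e` is supported in `B' p`; `‖T ξ‖² = ⟨T ξ, T ξ⟩ ≤ η ‖T ξ‖ ‖ξ‖`. -/
theorem moment {Γ : Type} [Group Γ] [Fintype Γ] [DecidableEq Γ] {N : ι → ι → Matrix κ κ ℂ}
    {δ : ℝ} (hδ : 0 ≤ δ) (hN : Gram N δ) {g : ι → Γ} {lab : Γ → Option ι} {B : ℕ → Set Γ}
    (h1 : 1 ∈ B 0) (hm : Monotone B) (hs : ∀ r j l, ∀ x ∈ B r, (g j)⁻¹ * (g l * x) ∈ B (r + 1))
    {R : ℕ} (hT : Tree (fun j => Equiv.mulLeft (g j)) lab (B R)) (q : κ × Γ) :
    ∑ r, ‖(offT N (fun j => Equiv.mulLeft (g j)) ^ R) r q‖ ^ 2 ≤ (2 * √δ + 2 * δ) ^ (2 * R) := by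
  obtain ⟨T, hTe⟩ : ∃ T, T = offT N fun j => Equiv.mulLeft (g j) := ⟨_, rfl⟩
  have hv : ∀ p, (fun r => (T ^ (p + 1)) r q) = T *ᵥ fun r => (T ^ p) r q := fun p => by
    rw [pow_succ']
    rfl
  have hsupp : ∀ p r, r.2 * q.2⁻¹ ∉ B p → (T ^ p) r q = 0 := by
    intro p
    induction p with
    | zero =>
      intro r hr
      refine Matrix.one_apply_ne fun h => hr ?_
      rwa [h, mul_inv_cancel]
    | succ p ih =>
      intro r hr
      rw [pow_succ', Matrix.mul_apply]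
      refine Finset.sum_eq_zero fun s _ => ?_
      by_cases h : s.2 * q.2⁻¹ ∈ B p
      · rw [hTe, offT, Matrix.sum_apply, Finset.sum_eq_zero fun j _ => ?_, zero_mul]
        rw [Matrix.sum_apply]
        refine Finset.sum_eq_zero fun l _ => ?_
        split_ifs
        · rfl
        · rw [Matrix.kroneckerMap_apply, te_pm, if_neg fun h2 => hr ?_, mul_zero]
          have h3 := hs p j l _ h
          have h4 : g j * r.2 = g l * s.2 := h2
          rwa [← mul_assoc (g l), ← h4, mul_assoc (g j), inv_mul_cancel_left] at h3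
      · rw [ih s h, mul_zero]
  have hT' : Tree (fun j => Equiv.mulLeft (g j)) (fun x => lab (x * q.2⁻¹)) {x | x * q.2⁻¹ ∈ B R} :=
    fun x hx x' hx' j l hjl h2 h3 h4 => hT _ hx _ hx' j l hjl h2 h3 (by
      have h5 : g j * x = g l * x' := h4
      change g j * (x * q.2⁻¹) = g l * (x' * q.2⁻¹)
      rw [← mul_assoc, h5, mul_assoc])
  have hη : 0 ≤ 2 * √δ + 2 * δ := by positivity
  have key : ∀ p ≤ R, √(∑ r, ‖(T ^ p) r q‖ ^ 2) ≤ (2 * √δ + 2 * δ) ^ p := by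
    intro p
    induction p with
    | zero =>
      intro _
      rw [pow_zero, pow_zero, Finset.sum_eq_single q (fun r _ h => by simp [Matrix.one_apply_ne h])
        (by simp)]
      simp
    | succ p ih =>
      intro hp
      have h2 := tree_est hδ hN hT' (ζ := fun r => (T ^ (p + 1)) r q) (ξ := fun r => (T ^ p) r q)
        (fun r hr => hsupp _ r fun h => hr (hm hp h))
        fun r hr => hsupp _ r fun h => hr (hm (Nat.le_of_succ_le hp) h)
      have h3 : 0 ≤ ∑ r, ‖(T ^ (p + 1)) r q‖ ^ 2 := Finset.sum_nonneg fun _ _ => sq_nonneg _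
      rw [← hTe, ← hv, te_self, Complex.norm_of_nonneg h3] at h2
      have h4 := ih (Nat.le_of_succ_le hp)
      have h5 := Real.mul_self_sqrt h3
      rcases (Real.sqrt_nonneg (∑ r, ‖(T ^ (p + 1)) r q‖ ^ 2)).eq_or_lt with h6 | h6
      · rw [← h6]
        positivity
      · refine le_of_mul_le_mul_left ?_ h6
        rw [h5, pow_succ (2 * √δ + 2 * δ)]
        refine h2.trans ((mul_le_mul_of_nonneg_left h4 (mul_nonneg hη h6.le)).trans_eq ?_)
        ring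
  rw [← hTe, ← Real.sq_sqrt (Finset.sum_nonneg fun _ _ => sq_nonneg _), mul_comm 2 R, pow_mul]
  exact pow_le_pow_left₀ (Real.sqrt_nonneg _) (key R le_rfl) 2

end Vale.Agent.P095.S
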