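import Vale.Agent.P095.S.Girth
import Vale.Agent.P095.S.TreeEst
import Vale.Agent.P095.S.Discard

/-! The free group argument with four colours. `ι = Fin d × Fin 4`, `κ = Fin k × Fin 4`,
`N' (j,c) (l,c') = N j l ⊗ single c c' 1` satisfies `Gram N' (4 δ)`. With `Γ, Y` from
`exists_girth`, `moment`, `discard`: `u' j x (c, s) = (pm (g (j,c)) * Y) x s`, a `Γ × (Fin 4 × Fin n)`
matrix with `u' u'ᴴ ≤ 4`; `card Γ + d ≤ 4 n`; choose an embedding `Γ ⊕ Fin d ↪ Fin 4 × Fin n ≃ Fin (p+1)`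
and extend `u'` by zero rows. The matrix in `FGd.bd` is a reindexing (`PosSemidef.submatrix`) of the
compressed `offT`. -/

open Filter Topology TopologicalSpace
open scoped BoundedContinuousFunction ComplexOrder Matrix Kronecker

namespace Vale.Agent.P095.S

open H P101

theorem fg_four {m n : Type} [Fintype m] [DecidableEq m] [Fintype n] [DecidableEq n]
    {V : Matrix m n ℂ} (h : V * Vᴴ = (4 : ℂ) • 1) : ((4 : ℂ) • 1 - Vᴴ * V).PosSemidef := by
  have e : Vᴴ * V * (Vᴴ * V) = (4 : ℂ) • (Vᴴ * V) := by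
    rw [Matrix.mul_assoc, ← Matrix.mul_assoc V, h, Matrix.smul_mul, Matrix.one_mul, Matrix.mul_smul]
  convert Matrix.posSemidef_conjTranspose_mul_self ((2 : ℂ) • 1 - (2⁻¹ : ℂ) • (Vᴴ * V)) using 1
  simp only [Matrix.conjTranspose_sub, Matrix.conjTranspose_smul, Matrix.conjTranspose_one,
    Matrix.conjTranspose_mul, Matrix.conjTranspose_conjTranspose, sub_mul, mul_sub, smul_mul_assoc,
    mul_smul_comm, e, one_mul, mul_one, star_inv₀, star_ofNat]
  module

theorem Gram.colour {d k : ℕ} {N : Fin d → Fin d → Matrix (Fin k) (Fin k) ℂ} {δ : ℝ}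
    (hδ : 0 ≤ δ) (h : Gram N δ) : Gram (fun p q : Fin d × Fin 4 =>
      N p.1 q.1 ⊗ₖ (Matrix.single p.2 q.2 1 : Matrix (Fin 4) (Fin 4) ℂ)) (4 * δ) := by
  let V : Matrix (Fin d × Fin k) ((Fin d × Fin 4) × (Fin k × Fin 4)) ℂ :=
    .of fun p q => if p = (q.1.1, q.2.1) then if q.1.2 = q.2.2 then 1 else 0 else 0
  have e : (Matrix.of fun p q : (Fin d × Fin 4) × (Fin k × Fin 4) => (N p.1.1 q.1.1 ⊗ₖ
      (Matrix.single p.1.2 q.1.2 1 : Matrix (Fin 4) (Fin 4) ℂ)) p.2 q.2) =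
      Vᴴ * (Matrix.of fun p q : Fin d × Fin k => N p.1 q.1 p.2 q.2) * V := by
    ext p q
    by_cases h1 : p.1.2 = p.2.2 <;> by_cases h2 : q.1.2 = q.2.2 <;>
      simp [V, Matrix.mul_apply, Matrix.single_apply, h1, h2, apply_ite star]
  have e' : V * Vᴴ = (4 : ℂ) • 1 := by
    ext p q
    by_cases h1 : p.1 = q.1 <;> by_cases h2 : p.2 = q.2 <;>
      simp [V, Matrix.mul_apply, Matrix.one_apply, apply_ite star, Fintype.sum_prod_type,
        Prod.ext_iff, ite_and, h1, h2]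
  refine ⟨e ▸ h.pos.conjTranspose_mul_mul_same V, ?_, ?_⟩
  · rw [e]
    convert ((fg_four e').smul (Complex.zero_le_real.2 hδ)).add
      (h.le.conjTranspose_mul_mul_same V) using 1
    simp only [Matrix.mul_sub, Matrix.sub_mul, Matrix.mul_smul, Matrix.smul_mul, Matrix.mul_one]
    push_cast
    module
  · refine cast (congrArg _ ?_) (h.sum.kronecker (Matrix.PosSemidef.one (n := Fin 4) (R := ℂ)))
    ext p q
    by_cases h1 : p.1 = q.1 <;> by_cases h2 : p.2 = q.2 <;>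
      simp [Matrix.sum_apply, Fintype.sum_prod_type, Matrix.single_apply, Matrix.one_apply,
        Prod.ext_iff, ite_and, h1, h2]

theorem pm_mul {X : Type} [Fintype X] [DecidableEq X] (s : Equiv.Perm X) :
    (pm s)ᴴ * pm s = 1 := by
  ext x y
  simp [te_pm, Matrix.one_apply]

theorem fg_compress {ι κ X n : Type} [Fintype ι] [DecidableEq ι] [Fintype κ] [DecidableEq κ]
    [Fintype X] [DecidableEq X] [Fintype n] [DecidableEq n] (N : ι → ι → Matrix κ κ ℂ)
    (σ : ι → Equiv.Perm X) {Y : Matrix X n ℂ} (hY : Yᴴ * Y = 1) :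
    ((1 : Matrix κ κ ℂ) ⊗ₖ Y)ᴴ * offT N σ * ((1 : Matrix κ κ ℂ) ⊗ₖ Y) =
      ∑ j, ∑ l, N j l ⊗ₖ ((pm (σ j) * Y)ᴴ * (pm (σ l) * Y)) -
        ∑ j, N j j ⊗ₖ (1 : Matrix n n ℂ) := by
  rw [offT, Matrix.mul_sum, Matrix.sum_mul, ← Finset.sum_sub_distrib]
  refine Finset.sum_congr rfl fun j _ => ?_
  rw [Matrix.mul_sum, Matrix.sum_mul, eq_sub_iff_add_eq, ← Finset.add_sum_erase _ _
    (Finset.mem_univ j), ← Finset.add_sum_erase _ _ (Finset.mem_univ j), if_pos rfl,
    Matrix.mul_zero, Matrix.zero_mul, zero_add, add_comm]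
  refine congrArg₂ _ ?_ (Finset.sum_congr rfl fun l hl => ?_)
  · rw [Matrix.conjTranspose_mul, Matrix.mul_assoc, ← Matrix.mul_assoc _ _ Y, pm_mul,
      Matrix.one_mul, hY]
  · rw [if_neg (Finset.ne_of_mem_erase hl).symm, Matrix.conjTranspose_kronecker,
      ← Matrix.mul_kronecker_mul, ← Matrix.mul_kronecker_mul]
    simp only [Matrix.conjTranspose_one, Matrix.one_mul, Matrix.mul_one, Matrix.conjTranspose_mul,
      Matrix.mul_assoc]

theorem Bd.submatrix {κ κ' : Type} [Fintype κ] [DecidableEq κ] [Fintype κ'] [DecidableEq κ']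
    {T : Matrix κ κ ℂ} {c : ℝ} (h : Bd T c) {f : κ' → κ} (hf : Function.Injective f) :
    Bd (T.submatrix f f) c := by
  constructor
  · simpa [Matrix.submatrix_sub, Matrix.submatrix_smul, Matrix.submatrix_one _ hf] using
      h.1.submatrix f
  · simpa [Matrix.submatrix_add, Matrix.submatrix_smul, Matrix.submatrix_one _ hf] using
      h.2.submatrix f

theorem fg {d k : ℕ} {N : Fin d → Fin d → Matrix (Fin k) (Fin k) ℂ} {δ : ℝ} (hδ : 0 < δ)
    (h : Gram N δ) : ∃ (p : ℕ) (u : Fin d → Matrix (Fin (p + 1)) (Fin (p + 1)) ℂ)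
      (ρ : Fin d → Fin (p + 1)), FGd N (8 * √δ + 16 * δ) u ρ := by
  have h' := h.colour hδ.le
  obtain ⟨Γ, _, _, _, g, lab, B, h1, h2, h3, h4, h5⟩ :=
    exists_girth (Fin d × Fin 4) (2 * Fintype.card (Fin k × Fin 4) ^ 2)
  obtain ⟨n, Y, hY, hn, hT⟩ := discard (offT_herm h' fun j => Equiv.mulLeft (g j)) (by positivity)
    (Nat.lt_pow_self (by norm_num)).le (moment (by positivity) h' h2 h3 h4 h5)
  rw [fg_compress _ _ hY, show 2 * (2 * √(4 * δ) + 2 * (4 * δ)) = 8 * √δ + 16 * δ by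
    rw [Real.sqrt_mul (by norm_num), show √4 = 2 from Real.sqrt_eq_cases.2 (by norm_num)]
    ring] at hT
  have h6 : 0 < Fintype.card Γ := Fintype.card_pos
  simp only [Fintype.card_prod, Fintype.card_fin] at h1
  obtain ⟨p, hp⟩ : ∃ p, p + 1 = 4 * n := ⟨4 * n - 1, by omega⟩
  let e : Fin (p + 1) ≃ Fin 4 × Fin n := (finCongr hp).trans finProdFinEquiv.symm
  obtain ⟨f⟩ : Nonempty (Γ ⊕ Fin d ↪ Fin (p + 1)) :=
    Function.Embedding.nonempty_of_card_le (by simp; omega)
  let J : Matrix (Fin (p + 1)) Γ ℂ := .of fun r x => if r = f (.inl x) then 1 else 0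
  have hJ : Jᴴ * J = 1 := by
    ext x y
    simp [J, Matrix.mul_apply, Matrix.one_apply, apply_ite star, eq_comm]
  let U : Fin d → Matrix Γ (Fin (p + 1)) ℂ := fun j =>
    .of fun x s => (pm (Equiv.mulLeft (g (j, (e s).1))) * Y) x (e s).2
  have hU : ∀ j l, (J * U j)ᴴ * (J * U l) = (U j)ᴴ * U l := fun j l => by
    rw [Matrix.conjTranspose_mul, Matrix.mul_assoc, ← Matrix.mul_assoc _ J, hJ, Matrix.one_mul]
  refine ⟨p, fun j => J * U j, fun l => f (.inr l), f.injective.comp Sum.inr_injective,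
    fun j l s => by simp [J, Matrix.mul_apply], fun j => ?_, ?_⟩
  · let W : Matrix Γ (Fin 4 × Γ) ℂ := .of fun x q => pm (Equiv.mulLeft (g (j, q.1))) x q.2
    have hW : W * Wᴴ = (4 : ℂ) • 1 := by
      ext x y
      simp [W, pm, Matrix.mul_apply, Fintype.sum_prod_type, Matrix.one_apply, apply_ite star,
        ← inv_mul_eq_iff_eq_mul]
    let Z := ((1 : Matrix (Fin 4) (Fin 4) ℂ) ⊗ₖ Y).submatrix id e
    have hZ : Zᴴ * Z = 1 := by
      rw [Matrix.conjTranspose_submatrix, ← Matrix.submatrix_mul _ _ _ _ _ Function.bijective_id,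
        Matrix.conjTranspose_kronecker, ← Matrix.mul_kronecker_mul, hY]
      simp
    have hWZ : U j = W * Z := by
      ext x s
      simp [U, W, Z, Matrix.mul_apply, Fintype.sum_prod_type, Matrix.one_apply]
    rw [hU, hWZ]
    convert (fg_four hW).conjTranspose_mul_mul_same Z using 1
    simp only [Matrix.mul_sub, Matrix.sub_mul, Matrix.mul_smul, Matrix.smul_mul, Matrix.mul_one,
      hZ, Matrix.conjTranspose_mul, Matrix.mul_assoc]
  · convert hT.submatrix (f := fun q : Fin k × Fin (p + 1) => ((q.1, (e q.2).1), (e q.2).2))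
      fun q q' hq => by
        simp only [Prod.mk.injEq] at hq
        exact Prod.ext hq.1.1 (e.injective (Prod.ext hq.1.2 hq.2)) using 1
    ext q q'
    simp only [hU, Matrix.sub_apply, Matrix.sum_apply, Matrix.kroneckerMap_apply,
      Matrix.submatrix_apply, Fintype.sum_prod_type, Matrix.single_apply, Matrix.one_apply]
    have h7 : q.2 = q'.2 ↔ (e q.2).2 = (e q'.2).2 ∧ (e q.2).1 = (e q'.2).1 := by
      rw [and_comm, ← Prod.ext_iff, e.apply_eq_iff_eq]
    simp [ite_and, h7, -Matrix.conjTranspose_mul]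
    rfl

end Vale.Agent.P095.S
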