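import Vale.Agent.P095.S.Defs

/-! Transport through order zero matrix units. -/

open Filter Topology TopologicalSpace
open scoped BoundedContinuousFunction ComplexOrder Matrix Kronecker

namespace Vale.Agent.P095.S

open H P101

variable {E : Type} [CStarAlgebra E]

/-- the quadratic form of a family -/
noncomputable def qf {κ ρ : Type} [Fintype κ] [Fintype ρ] (v : ρ → κ → E) :
    Matrix κ κ ℂ →ₗ[ℂ] E where
  toFun T := ∑ r, ∑ s, ∑ t, T s t • (star (v r s) * v r t)
  map_add' X Y := by simp [add_smul, Finset.sum_add_distrib]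
  map_smul' c X := by simp [Finset.smul_sum, smul_smul]

theorem qf_apply {κ ρ : Type} [Fintype κ] [Fintype ρ] (v : ρ → κ → E) (T : Matrix κ κ ℂ) :
    qf v T = ∑ r, ∑ s, ∑ t, T s t • (star (v r s) * v r t) := rfl

theorem qf_one {κ ρ : Type} [Fintype κ] [DecidableEq κ] [Fintype ρ] (v : ρ → κ → E) :
    qf v 1 = ∑ r, ∑ s, star (v r s) * v r s := by
  simp [qf_apply, Matrix.one_apply, ite_smul]

open scoped MatrixOrder in
theorem ps_qf {κ ρ : Type} [Fintype κ] [DecidableEq κ] [Fintype ρ] {T : Matrix κ κ ℂ}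
    (hT : T.PosSemidef) (v : ρ → κ → E) : Ps (qf v T) := by
  obtain ⟨B, rfl⟩ := CStarAlgebra.nonneg_iff_eq_star_mul_self.mp hT.nonneg
  rw [qf_apply]
  refine Ps.sum _ fun r _ => ?_
  have e : ∑ s, ∑ t, (star B * B) s t • (star (v r s) * v r t) =
      ∑ i, star (∑ s, B i s • v r s) * ∑ t, B i t • v r t := by
    simp only [star_sum, Finset.sum_mul_sum, star_smul, smul_mul_smul_comm, Matrix.mul_apply,
      Matrix.star_apply, Finset.sum_smul]
    rw [Finset.sum_comm (γ := κ) (α := κ) (s := Finset.univ) (t := Finset.univ)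
      (f := fun i s => ∑ t, (star (B i s) * B i t) • (star (v r s) * v r t))]
    exact Finset.sum_congr rfl fun s _ => Finset.sum_comm
  rw [e]
  exact Ps.sum _ fun i _ => Ps.sq _

theorem norm_le_of_ps {x : E} {c : ℝ} (hc : 0 ≤ c) (h1 : Ps ((c : ℂ) • (1 : E) - x))
    (h2 : Ps ((c : ℂ) • (1 : E) + x)) : ‖x‖ ≤ c := by
  have sa : IsSelfAdjoint x := by
    have := h2.sa.sub (Ps.one.smul hc).sa
    rwa [add_sub_cancel_left] at this
  have cm : Commute x ((c : ℂ) • (1 : E)) := (Commute.one_right x).smul_right _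
  have h3 := h1.mul h2 (((Commute.refl _).add_right cm.symm).sub_left
    (cm.add_right (Commute.refl x)))
  have e : ((c : ℂ) • (1 : E) - x) * ((c : ℂ) • (1 : E) + x) =
      ((c * c : ℝ) : ℂ) • (1 : E) - star x * x := by
    rw [sa.star_eq, mul_add, sub_mul, sub_mul, cm.eq, smul_mul_smul_comm, one_mul]
    push_cast
    abel
  rw [e] at h3
  have h4 := (Ps.sq x).norm_le h3
  rw [CStarRing.norm_star_mul_self, norm_smul, Complex.norm_real,
    Real.norm_of_nonneg (mul_nonneg hc hc)] at h4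
  refine alg_le_of_sq hc (norm_nonneg _) (h4.trans ?_)
  exact mul_le_of_le_one_right (mul_nonneg hc hc) (norm_le_of_unitary (one_mem _))

/-- `c - T = Bᴴ B` gives `Ps (c ∑ v* v - ∑ T v* v)` etc. -/
theorem qf_le {κ ρ : Type} [Fintype κ] [DecidableEq κ] [Fintype ρ] {T : Matrix κ κ ℂ} {c : ℝ}
    (hc : 0 ≤ c) (hT : Bd T c) (v : ρ → κ → E) :
    ‖∑ r, ∑ s, ∑ t, T s t • (star (v r s) * v r t)‖ ≤ c * ‖∑ r, ∑ s, star (v r s) * v r s‖ := by
  rw [← qf_apply, ← qf_one]
  have h0 := (Ps.of_norm_le (ps_qf Matrix.PosSemidef.one v).sa le_rfl).smul hc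
  have h1 := h0.add (ps_qf hT.1 v)
  have h2 := h0.add (ps_qf hT.2 v)
  rw [map_sub, map_smul] at h1
  rw [map_add, map_smul] at h2
  refine norm_le_of_ps (by positivity) ?_ ?_
  · convert h1 using 1
    push_cast
    module
  · convert h2 using 1
    push_cast
    module

theorem qf_kron {k n : ℕ} {c : Fin k → Fin k → E} {a : E} {e : Fin (n + 1) → Fin (n + 1) → E}
    (he : Units a e) (hc : ∀ r s s' j l, Commute (star (c r s) * c r s') (e j l))
    (X : Matrix (Fin k) (Fin k) ℂ) (Y : Matrix (Fin (n + 1)) (Fin (n + 1)) ℂ) :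
    qf (fun r (x : Fin k × Fin (n + 1)) => c r x.1 * e 0 x.2) (X ⊗ₖ Y) =
      qf c X * (a * theta (StarAlgHom.ofId ℂ E) e Y) := by
  have h1 : ∀ r s s' t t', star (c r s * e 0 t) * (c r s' * e 0 t') =
      star (c r s) * c r s' * (a * e t t') := by
    intro r s s' t t'
    rw [star_mul, he.star, ← he.mul_same t 0 t', ← mul_assoc _ (e t 0), (hc _ _ _ _ _).eq]
    simp only [mul_assoc]
  rw [qf_apply c, Finset.sum_mul, qf_apply]
  refine Finset.sum_congr rfl fun r _ => ?_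
  rw [Finset.sum_mul, Fintype.sum_prod_type]
  refine Finset.sum_congr rfl fun s _ => ?_
  simp only [Fintype.sum_prod_type, h1, Matrix.kroneckerMap_apply]
  rw [Finset.sum_comm, Finset.sum_mul]
  refine Finset.sum_congr rfl fun s' _ => ?_
  simp only [theta_apply, Finset.mul_sum, StarAlgHom.ofId_apply, ← Algebra.smul_def,
    mul_smul_comm, smul_mul_assoc, smul_smul, mul_comm]

theorem exists_normalizer {a : E} (ha : IsSelfAdjoint a) : ∃ f : E, IsSelfAdjoint f ∧
    ‖f‖ * ‖f‖ ≤ 2 ∧ f * (a * a + (1 - a) * (1 - a)) * f = 1 ∧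
    ∀ x, Commute x a → Commute x f := by
  have hp : ∀ t : ℝ, 1 / 2 ≤ t * t + (1 - t) * (1 - t) := fun t => by
    nlinarith [sq_nonneg (2 * t - 1)]
  have hp' : ∀ t : ℝ, 0 < √(t * t + (1 - t) * (1 - t)) := fun t =>
    Real.sqrt_pos.2 (by linarith [hp t])
  set g : ℝ → ℝ := fun t => (√(t * t + (1 - t) * (1 - t)))⁻¹ with hg
  have gc : Continuous g := Continuous.inv₀ (by fun_prop) fun t => (hp' t).ne'
  have gg : ∀ t, g t * (t * t + (1 - t) * (1 - t)) * g t = 1 := fun t => by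
    have h1 := Real.mul_self_sqrt (x := t * t + (1 - t) * (1 - t)) (by linarith [hp t])
    have h2 := (hp' t).ne'
    simp only [hg]
    generalize √(t * t + (1 - t) * (1 - t)) = y at h1 h2
    rw [← h1]
    field_simp
  refine ⟨cfc g a, cfc_predicate _ _, ?_, ?_, fun x hx => (hx.symm.cfc_real g).symm⟩
  · rw [← CStarRing.norm_star_mul_self, (cfc_predicate g a).star_eq, ← cfc_mul _ _ a]
    refine norm_cfc_le (by norm_num) fun t _ => ?_
    rw [Real.norm_of_nonneg (mul_self_nonneg _)]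
    nlinarith [gg t, hp t, mul_self_nonneg (g t)]
  · have e : a * a + (1 - a) * (1 - a) = cfc (fun t : ℝ => t * t + (1 - t) * (1 - t)) a := by
      rw [cfc_add a _ _, cfc_mul _ _ a, cfc_mul _ _ a, cfc_sub _ _ a, cfc_id' ℝ a,
        cfc_const_one ℝ a]
    have qc : Continuous fun t : ℝ => t * t + (1 - t) * (1 - t) := by fun_prop
    rw [e, ← cfc_mul _ _ a gc.continuousOn qc.continuousOn,
      ← cfc_mul (fun t => g t * (t * t + (1 - t) * (1 - t))) g a (gc.mul qc).continuousOn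
        gc.continuousOn, ← cfc_const_one ℝ a]
    exact cfc_congr fun t _ => gg t

/-- `w' j = ∑ u j s t • e s t`, `(w' j)* w' l = ∑ ((u j)ᴴ u l) s t • (e 0 s)* e 0 t`, `‖w' j‖ ≤ 2`,
`w j = (w' j + e (ρ j) 0 * v) * f`, `f = (a² + (1-a)²)^(-1/2)`, `‖f‖² ≤ 2`. With `t₁ = ∑ z w'`,
`t₂ = ∑ z e (ρ j) 0 v`: `t₁* t₂ = 0`, `t₂* t₂ = Z (1-a)²`, `t₁* t₁ = Z a² + R`, and `R` is estimated by
`qf_le` for the family `c r s * e 0 t` after replacing `(z j)* z l` by `ψ (N j l)`. -/
theorem transport {d k p : ℕ} {N : Fin d → Fin d → Matrix (Fin k) (Fin k) ℂ} {κ : ℝ} (hκ : 0 ≤ κ)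
    {u : Fin d → Matrix (Fin (p + 1)) (Fin (p + 1)) ℂ} {ρ : Fin d → Fin (p + 1)}
    (hu : FGd N κ u ρ) {z : Fin d → E} {c : Fin k → Fin k → E} {a v : E}
    {e : Fin (p + 1) → Fin (p + 1) → E} (pc : PC a) (he : Units a e)
    (hv : star v * v = (1 - a) * (1 - a)) (hv' : e 0 0 * v = v) {S : Set E}
    (hS : ∀ s ∈ S, Commute s v ∧ Commute s (star v) ∧ ∀ j l, Commute s (e j l))
    (hz : ∀ j, z j ∈ S ∧ star (z j) ∈ S) (hc : ∀ r s, c r s ∈ S ∧ star (c r s) ∈ S)
    (h1 : ‖∑ r, ∑ s, star (c r s) * c r s‖ ≤ 1) {ε : ℝ} (hε : 0 ≤ ε)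
    (h2 : ∀ j l, ‖star (z j) * z l - ∑ r, ∑ s, ∑ t, N j l s t • (star (c r s) * c r t)‖ ≤ ε) :
    ∃ w : Fin d → E, ‖star (∑ j, z j * w j) * (∑ j, z j * w j) - ∑ j, star (z j) * z j‖ ≤
      2 * (κ + 5 * d ^ 2 * ε) := by
  set Θ := theta (StarAlgHom.ofId ℂ E) e with hΘ
  have co : ∀ b i j, Commute (StarAlgHom.ofId ℂ E b) (e i j) := fun b i j => commute_ofId _ _
  have tm : ∀ X Y, star (Θ X) * Θ Y = a * Θ (Xᴴ * Y) := fun X Y => by
    rw [hΘ, theta_star he co, theta_mul he co, Matrix.star_eq_conjTranspose]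
  have t1 : Θ 1 = a := theta_one he
  have ts : ∀ i, Θ (Matrix.single i 0 1) = e i 0 := fun i => by
    rw [hΘ, theta_single, map_one, one_mul]
  have aa : ‖a * a‖ ≤ 1 := (norm_mul_le _ _).trans (mul_le_one₀ pc.le (norm_nonneg _) pc.le)
  have q0 : ∀ Y, qf (fun (_ : Fin 1) s => e 0 s) Y = a * Θ Y := fun Y => by
    simp only [qf_apply, hΘ, theta_apply, he.star, he.mul_same, Finset.univ_unique,
      Finset.sum_singleton, Finset.mul_sum, StarAlgHom.ofId_apply, ← Algebra.smul_def,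
      mul_smul_comm]
  have n2 : ∀ j, ‖Θ (u j)‖ ≤ 2 := fun j => by
    have b : Bd ((u j)ᴴ * u j) 4 := ⟨hu.le j, (Matrix.PosSemidef.one.smul (by
      exact_mod_cast (by norm_num : (0 : ℝ) ≤ 4))).add (Matrix.posSemidef_conjTranspose_mul_self _)⟩
    have := qf_le (by norm_num) b (fun (_ : Fin 1) s => e 0 s)
    rw [← qf_apply, ← qf_one, q0, q0, t1, ← tm, CStarRing.norm_star_mul_self] at this
    exact alg_le_of_sq (by norm_num) (norm_nonneg _) (by linarith)
  have n4 : ∀ j l, ‖a * Θ ((u j)ᴴ * u l)‖ ≤ 4 := fun j l => by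
    rw [← tm]
    refine (norm_mul_le _ _).trans ?_
    rw [norm_star]
    nlinarith [n2 j, n2 l, norm_nonneg (Θ (u j)), norm_nonneg (Θ (u l))]
  have z0 : ∀ j l, star (Θ (u j)) * e (ρ l) 0 = 0 := fun j l => by
    have : (u j)ᴴ * Matrix.single (ρ l) (0 : Fin (p + 1)) (1 : ℂ) = 0 := by
      ext s t
      simp [Matrix.mul_apply, Matrix.single_apply, ite_and, hu.row]
    rw [← ts, tm, this, map_zero, mul_zero]
  have av : a * v = v := by
    calc a * v = a * e 0 0 * v := by rw [mul_assoc, hv']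
      _ = v := by rw [← he.mul_same 0 0 0, mul_assoc, hv', hv']
  set x : Fin d → E := fun j => Θ (u j) + e (ρ j) 0 * v with hx
  have xx : ∀ j l, star (x j) * x l =
      a * Θ ((u j)ᴴ * u l) + if j = l then (1 - a) * (1 - a) else 0 := fun j l => by
    have a1 : star (Θ (u j)) * (e (ρ l) 0 * v) = 0 := by rw [← mul_assoc, z0, zero_mul]
    have a2 : star (e (ρ j) 0 * v) * Θ (u l) = 0 := by
      have := congrArg star (z0 l j)
      rw [star_mul, star_star, star_zero] at this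
      rw [star_mul, mul_assoc, this, mul_zero]
    have a3 : star (e (ρ j) 0 * v) * (e (ρ l) 0 * v) =
        if j = l then (1 - a) * (1 - a) else 0 := by
      rw [star_mul, he.star, mul_assoc, ← mul_assoc (e 0 _), he.mul]
      simp only [hu.inj.eq_iff]
      split_ifs
      · rw [mul_assoc, hv', av, hv]
      · simp
    simp only [hx]
    rw [star_add, add_mul, mul_add, mul_add, tm, a1, a2, a3, add_zero, zero_add]
  have cT : ∀ s ∈ S, ∀ Y, Commute s (Θ Y) := fun s hs Y =>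
    commute_theta (fun b => (commute_ofId b s).symm) (hS s hs).2.2 Y
  have cx : ∀ s ∈ S, ∀ j, Commute s (star (x j)) := fun s hs j => by
    simp only [hx]
    rw [star_add, star_mul, he.star, hΘ, theta_star he co]
    exact (cT s hs _).add_right ((hS s hs).2.1.mul_right ((hS s hs).2.2 _ _))
  have cx' : ∀ s ∈ S, ∀ j, Commute s (x j) := fun s hs j =>
    (cT s hs _).add_right (((hS s hs).2.2 _ _).mul_right (hS s hs).1)
  set Z : E := ∑ j, star (z j) * z j with hZ
  have e1 : star (∑ j, z j * x j) * ∑ j, z j * x j =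
      ∑ j, ∑ l, star (z j) * z l * (a * Θ ((u j)ᴴ * u l)) + Z * ((1 - a) * (1 - a)) := by
    rw [star_sum, Finset.sum_mul_sum, hZ, Finset.sum_mul, ← Finset.sum_add_distrib]
    refine Finset.sum_congr rfl fun j _ => ?_
    have : ∀ l, star (z j * x j) * (z l * x l) = star (z j) * z l * (star (x j) * x l) := by
      intro l
      rw [star_mul, ← mul_assoc (star (z j) * z l),
        ((cx _ (hz j).2 j).mul_left (cx _ (hz l).1 j)).eq]
      simp only [mul_assoc]
    simp only [this, xx, mul_add, Finset.sum_add_distrib, mul_ite, mul_zero, Finset.sum_ite_eq,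
      Finset.mem_univ, if_true]
  have ck := qf_kron he fun r s s' j l =>
    ((hS _ (hc r s).2).2.2 j l).mul_left ((hS _ (hc r s').1).2.2 j l)
  set R : E := ∑ j, ∑ l, star (z j) * z l * (a * Θ ((u j)ᴴ * u l)) - Z * (a * a) with hR
  have nR : ‖R‖ ≤ κ + 5 * d ^ 2 * ε := by
    have b1 := qf_le hκ hu.bd fun r (y : Fin k × Fin (p + 1)) => c r y.1 * e 0 y.2
    rw [← qf_apply, ← qf_one, ← Matrix.one_kronecker_one, ck, ← hΘ, t1, qf_one] at b1
    have b2 : ‖(∑ r, ∑ s, star (c r s) * c r s) * (a * a)‖ ≤ 1 :=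
      (norm_mul_le _ _).trans (mul_le_one₀ h1 (norm_nonneg _) aa)
    have b3 := b1.trans (mul_le_of_le_one_right hκ b2)
    simp only [map_sub, map_sum, ck, ← hΘ, t1] at b3
    have e2 : R = (∑ j, ∑ l, qf c (N j l) * (a * Θ ((u j)ᴴ * u l)) - (∑ j, qf c (N j j)) * (a * a))
        + ∑ j, ∑ l, (star (z j) * z l - qf c (N j l)) * (a * Θ ((u j)ᴴ * u l))
        - ∑ j, (star (z j) * z j - qf c (N j j)) * (a * a) := by
      simp only [hR, hZ, sub_mul, Finset.sum_sub_distrib, Finset.sum_mul]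
      abel
    have b4 : ‖∑ j, ∑ l, (star (z j) * z l - qf c (N j l)) * (a * Θ ((u j)ᴴ * u l))‖ ≤
        d * (d * (ε * 4)) := by
      refine (norm_sum_le_of_le _ (n := fun _ => d * (ε * 4)) fun j _ => ?_).trans (by simp)
      refine (norm_sum_le_of_le _ (n := fun _ => ε * 4) fun l _ => ?_).trans (by simp)
      exact (norm_mul_le _ _).trans (mul_le_mul (h2 j l) (n4 j l) (norm_nonneg _) hε)
    have b5 : ‖∑ j, (star (z j) * z j - qf c (N j j)) * (a * a)‖ ≤ d * (ε * 1) := by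
      refine (norm_sum_le_of_le _ (n := fun _ => ε * 1) fun j _ => ?_).trans (by simp)
      exact (norm_mul_le _ _).trans (mul_le_mul (h2 j j) aa (norm_nonneg _) hε)
    have b6 : (d : ℝ) ≤ d ^ 2 := by exact_mod_cast Nat.le_self_pow two_ne_zero d
    rw [e2]
    refine (norm_sub_le _ _).trans ((add_le_add ((norm_add_le _ _).trans
      (add_le_add b3 b4)) b5).trans ?_)
    nlinarith [mul_le_mul_of_nonneg_right b6 hε]
  obtain ⟨f, fs, fn, f1, fc⟩ := exists_normalizer pc.sa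
  have cZ : Commute Z f := fc _ (Commute.sum_left _ _ _ fun j _ =>
    (he.commute_of (hS _ (hz j).2).2.2).mul_left (he.commute_of (hS _ (hz j).1).2.2))
  refine ⟨fun j => x j * f, ?_⟩
  have e3 : star (∑ j, z j * (x j * f)) * (∑ j, z j * (x j * f)) - Z = f * R * f := by
    have a1 : ∑ j, z j * (x j * f) = (∑ j, z j * x j) * f := by
      simp only [Finset.sum_mul, mul_assoc]
    have a2 : f * (Z * (a * a + (1 - a) * (1 - a))) * f = Z := by
      rw [← mul_assoc f, ← cZ.eq, mul_assoc Z, mul_assoc Z, f1, mul_one]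
    rw [a1, star_mul, fs.star_eq, mul_assoc f, ← mul_assoc _ _ f, e1, hR]
    nth_rewrite 2 [← a2]
    noncomm_ring
  rw [e3]
  refine (norm_mul_le _ _).trans ((mul_le_mul_of_nonneg_right (norm_mul_le _ _)
    (norm_nonneg _)).trans ?_)
  nlinarith [norm_nonneg R, norm_nonneg f, mul_nonneg (norm_nonneg f) (norm_nonneg f)]

end Vale.Agent.P095.S
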