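import Vale.Agent.P095.S.Ideal

/-! The limit traces. Bounded scalar sequences converge along `ω`. Well defined:
`α g (x n) * b k = α g (x n * α g⁻¹ (b k))`. Bounded: `exists_lift_le`. Trace property: with
`r = √(b k)` (`ps_sqrt`, `sqrt_mem_range`), `y = α g (x n)`, `u = r y r`:
`u* u - b y* y b` and `u u* - b y y* b` are null, `b (k+1) u = u = u b (k+1)`; `Tr.of_pos`. -/

open Filter Topology TopologicalSpace
open scoped BoundedContinuousFunction ComplexOrder Matrix Kronecker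

namespace Vale.Agent.P095.S

open H P101

variable {A M D G : Type} [NonUnitalCStarAlgebra A] [CStarAlgebra M] [CStarAlgebra D] [Group G]
  {i : A →⋆ₙₐ[ℂ] M} {ω : Ultrafilter ℕ} {π : cenSeq i ω →⋆ₐ[ℂ] D} {α : G →* (M ≃⋆ₐ[ℂ] M)}
  {hα : Inv i α} {γ : G →* (D ≃⋆ₐ[ℂ] D)} {b : ℕ → M} {m : ℕ → ℝ}

theorem tr_nul {φ : ℕ → (M →L[ℂ] ℂ)} {c : ℝ} (hφ : ∀ n, ‖φ n‖ ≤ c) {z : ℕ → M}
    (hz : Nul ω z) : Tendsto (fun n => φ n (z n)) (ω : Filter ℕ) (𝓝 0) :=
  squeeze_zero_norm (fun n => ((φ n).le_opNorm _).trans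
    (mul_le_mul_of_nonneg_right (hφ n) (norm_nonneg _))) (by simpa using (nul_iff.1 hz).const_mul c)

theorem tr_lim {s : ℕ → ℂ} {c : ℝ} (hs : ∀ n, ‖s n‖ ≤ c) :
    ∃ l, ‖l‖ ≤ c ∧ Tendsto s (ω : Filter ℕ) (𝓝 l) := by
  obtain ⟨l, hl, h⟩ := (isCompact_closedBall (0 : ℂ) c).ultrafilter_le_nhds (ω.map s)
    (by
      rw [le_principal_iff, Ultrafilter.mem_coe, Ultrafilter.mem_map]
      exact Filter.univ_mem' fun n => by simpa using hs n)
  exact ⟨l, by simpa using hl, h⟩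

theorem tr_conj {r : M} (hr : r ∈ Set.range i) (w y : cenSeq i ω) : Nul ω fun n =>
    r * w.1 n * r * (r * y.1 n * r) - r * r * (w.1 n * y.1 n) * (r * r) := by
  obtain ⟨a, rfl⟩ := hr
  refine ((((((w.2 a).const_mul (i a)).mul_const (i a)).mul_right y.1).mul_const (i a)).sub
    ((((y.2 a).mul_left w.1).const_mul (i a * i a)).mul_const (i a))).congr fun n => ?_
  noncomm_ring

theorem Ctx.tt_ex (h : Ctx i ω π hα γ) (hb : AU i b m) (k : ℕ) (g : G) (φ : ℕ → (M →L[ℂ] ℂ))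
    (hφ : ∀ n, φ n ∈ TA (b k) (b (k + 1)) (m k)) : ∃ τ ∈ TT π α b m, ∀ x : cenSeq i ω,
      Tendsto (fun n => φ n (b k * α g (x.1 n) * b k)) (ω : Filter ℕ) (𝓝 (τ (π x))) := by
  have hm : 0 ≤ m k := (norm_nonneg _).trans (hφ 0).2.1
  have hbd : ∀ (x : cenSeq i ω) n, ‖φ n (b k * α g (x.1 n) * b k)‖ ≤ m k * ‖x‖ := fun x n => by
    refine ((φ n).le_opNorm _).trans (mul_le_mul (hφ n).2.1 ?_ (norm_nonneg _) hm)
    have h1 : ‖α g (x.1 n)‖ ≤ ‖x‖ := by
      rw [StarAlgEquiv.norm_map]; exact x.1.norm_coe_le_norm n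
    have h2 := norm_mul_le (b k * α g (x.1 n)) (b k)
    have h3 := norm_mul_le (b k) (α g (x.1 n))
    have h4 := mul_le_mul (hb.le k) h1 (norm_nonneg _) zero_le_one
    have h5 := mul_le_mul (h3.trans h4) (hb.le k) (norm_nonneg _) (by positivity)
    linarith
  choose L hL hL' using fun x => tr_lim (ω := ω) (hbd x)
  have hadd : ∀ x y, L (x + y) = L x + L y := fun x y =>
    tendsto_nhds_unique (hL' (x + y)) (((hL' x).add (hL' y)).congr fun n => by
      rw [← map_add, ← add_mul, ← mul_add, ← map_add]; rfl)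
  have hsm : ∀ (c : ℂ) x, L (c • x) = c • L x := fun c x =>
    tendsto_nhds_unique (hL' (c • x)) (((hL' x).const_smul c).congr fun n => by
      rw [← map_smul, ← smul_mul_assoc, ← mul_smul_comm, ← map_smul]; rfl)
  have hz : ∀ x, π x = 0 → L x = 0 := fun x hx => by
    obtain ⟨a, ha⟩ := hb.mem k
    obtain ⟨a', ha'⟩ := hα.surj g a
    refine tendsto_nhds_unique (hL' x) (tr_nul (fun n => (hφ n).2.1) ?_)
    refine ((((h.isF.2 x).1 hx a').map (α g : M →⋆ₐ[ℂ] M)).const_mul (b k)).congr fun n => ?_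
    rw [map_mul, mul_assoc]
    congr 2
    rw [← ha, ha']; rfl
  have heq : ∀ x y, π x = π y → L x = L y := fun x y e => by
    have h1 := hadd (x - y) y
    rwa [sub_add_cancel, hz (x - y) (by rw [map_sub, e, sub_self]), zero_add] at h1
  choose σ hσ hσ' using exists_lift_le π h.isF.1
  let τ₀ : D →ₗ[ℂ] ℂ :=
    { toFun := fun d => L (σ d)
      map_add' := fun d e => by rw [← hadd]; exact heq _ _ (by rw [map_add, hσ, hσ, hσ])
      map_smul' := fun c d => by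
        rw [RingHom.id_apply, ← hsm]; exact heq _ _ (by rw [map_smul, hσ, hσ]) }
  let τ : D →L[ℂ] ℂ := τ₀.mkContinuous (m k) fun d =>
    (hL _).trans (mul_le_mul_of_nonneg_left (hσ' d) hm)
  have hτ : ∀ x : cenSeq i ω, Tendsto (fun n => φ n (b k * α g (x.1 n) * b k)) (ω : Filter ℕ)
      (𝓝 (τ (π x))) := fun x => by
    have : τ (π x) = L x := heq _ _ (hσ _)
    rw [this]; exact hL' x
  exact ⟨τ, ⟨k, g, φ, hφ, hτ⟩, hτ⟩

theorem Ctx.tt_ts (h : Ctx i ω π hα γ) (hb : AU i b m) : TS γ (TT π α b m) := by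
  refine ⟨?_, ?_⟩
  · rintro τ ⟨k, g, φ, hφ, hτ⟩
    refine Tr.of_pos ?_ (fun d => ?_) fun d => ?_
    · rw [← map_one π]
      refine tendsto_nhds_unique (hτ 1) (tendsto_const_nhds.congr fun n => ?_)
      have e : (1 : cenSeq i ω).1 n = 1 := rfl
      rw [e, map_one, mul_one, (hφ n).2.2.2]
    · obtain ⟨x, rfl⟩ := h.isF.1 d
      have h1 : 0 ≤ τ (π (star x * x)) := ge_of_tendsto' (hτ _) fun n => by
        have e : (star x * x).1 n = star (x.1 n) * x.1 n := rfl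
        have h2 := (hφ n).1 (α g (x.1 n) * b k)
        rwa [star_mul, (hb.ps k).sa.star_eq, ← map_star, mul_assoc, ← mul_assoc (α g _), ← map_mul,
          ← mul_assoc, ← e] at h2
      rw [map_mul, map_star] at h1
      exact ⟨(Complex.nonneg_iff.1 h1).1, (Complex.nonneg_iff.1 h1).2.symm⟩
    · obtain ⟨x, rfl⟩ := h.isF.1 d
      obtain ⟨r, r1, r2, -, r3, -⟩ := ps_sqrt (hb.ps k)
      have r4 : r ∈ Set.range i := sqrt_mem_range h.inj h.idl r1 (r2 ▸ hb.mem k)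
      have r5 : r * b (k + 1) = r := r3 _ (by
        have := congrArg star (hb.nest k)
        rwa [star_mul, (hb.ps k).sa.star_eq, (hb.ps (k + 1)).sa.star_eq] at this)
      have r6 : b (k + 1) * r = r := by
        have := congrArg star r5
        rwa [star_mul, r1.sa.star_eq, (hb.ps (k + 1)).sa.star_eq] at this
      let y := seqAct hα ω g x
      have hy : ∀ n, y.1 n = α g (x.1 n) := fun n => rfl
      have hy' : ∀ n, (star y).1 n = star (α g (x.1 n)) := fun n => rfl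
      have t1 := (hτ (star x * x)).add (tr_nul (fun n => (hφ n).2.1) (tr_conj r4 (star y) y))
      have t2 := (hτ (x * star x)).add (tr_nul (fun n => (hφ n).2.1) (tr_conj r4 y (star y)))
      rw [add_zero, map_mul, map_star] at t1 t2
      refine tendsto_nhds_unique t1 (t2.congr fun n => ?_)
      have e1 : (star x * x).1 n = star (x.1 n) * x.1 n := rfl
      have e2 : (x * star x).1 n = x.1 n * star (x.1 n) := rfl
      have e3 := (hφ n).2.2.1 (r * α g (x.1 n) * r) (by rw [← mul_assoc, ← mul_assoc, r6])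
        (by rw [mul_assoc, r5])
      rw [star_mul, star_mul, r1.sa.star_eq, ← mul_assoc r] at e3
      rw [← map_add, ← map_add, e1, e2, hy, hy', r2, map_mul, map_mul, map_star, add_sub_cancel,
        add_sub_cancel, e3]
  · rintro τ ⟨k, g, φ, hφ, hτ⟩ g'
    obtain ⟨τ', h1, h2⟩ := h.tt_ex hb k (g * g') φ hφ
    refine ⟨τ', h1, fun d => ?_⟩
    obtain ⟨x, rfl⟩ := h.isF.1 d
    rw [h.act g' x]
    refine tendsto_nhds_unique (h2 x) ((hτ _).congr fun n => ?_)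
    rw [seqAct_apply, act_mul]

theorem Ctx.tt_ev (h : Ctx i ω π hα γ) (hb : AU i b m) {x : cenSeq i ω} {c c' : ℝ}
    (hx : ∀ τ ∈ TT π α b m, (τ (π x)).re ≤ c) (hc : c < c') (k : ℕ) (g : G) :
    ∀ᶠ n in (ω : Filter ℕ), ∀ φ ∈ TA (b k) (b (k + 1)) (m k),
      (φ (b k * α g (x.1 n) * b k)).re < c' := by
  classical
  by_contra hn
  have h1 : ∀ᶠ n in (ω : Filter ℕ), ∃ φ ∈ TA (b k) (b (k + 1)) (m k),
      c' ≤ (φ (b k * α g (x.1 n) * b k)).re := by
    filter_upwards [Ultrafilter.eventually_not.2 hn] with n h2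
    push Not at h2
    exact h2
  obtain ⟨-, φ₀, h0, -⟩ := h1.exists
  have h3 : ∀ n, ∃ φ ∈ TA (b k) (b (k + 1)) (m k), (∃ φ ∈ TA (b k) (b (k + 1)) (m k),
      c' ≤ (φ (b k * α g (x.1 n) * b k)).re) → c' ≤ (φ (b k * α g (x.1 n) * b k)).re := fun n => by
    by_cases h4 : ∃ φ ∈ TA (b k) (b (k + 1)) (m k), c' ≤ (φ (b k * α g (x.1 n) * b k)).re
    · obtain ⟨φ, h5, h6⟩ := h4
      exact ⟨φ, h5, fun _ => h6⟩
    · exact ⟨φ₀, h0, fun h5 => absurd h5 h4⟩
  choose φ hφ hφ' using h3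
  obtain ⟨τ, h4, h5⟩ := h.tt_ex hb k g φ hφ
  have h6 : c' ≤ (τ (π x)).re :=
    ge_of_tendsto ((Complex.continuous_re.tendsto _).comp (h5 x)) (h1.mono fun n => hφ' n)
  linarith [hx τ h4]

theorem tt_le {x : cenSeq i ω} {c : ℝ} (hx : ∀ k g, ∀ ε > 0, ∀ᶠ n in (ω : Filter ℕ),
    ∀ φ ∈ TA (b k) (b (k + 1)) (m k), (φ (b k * α g (x.1 n) * b k)).re ≤ c + ε) :
    ∀ τ ∈ TT π α b m, (τ (π x)).re ≤ c := by
  rintro τ ⟨k, g, φ, hφ, hτ⟩
  refine le_of_forall_pos_le_add fun ε hε => ?_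
  exact le_of_tendsto ((Complex.continuous_re.tendsto _).comp (hτ x))
    ((hx k g ε hε).mono fun n hn => hn _ (hφ n))

end Vale.Agent.P095.S
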