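import Vale.Agent.P095.S.Norm
import Vale.Agent.P095.S.Trace

/-! The epsilon test and saturation of `D`. -/

open Filter Topology TopologicalSpace
open scoped BoundedContinuousFunction ComplexOrder Matrix Kronecker

namespace Vale.Agent.P095.S

open H P101

variable {A M D G : Type} [NonUnitalCStarAlgebra A] [CStarAlgebra M] [CStarAlgebra D] [Group G]
  {i : A →⋆ₙₐ[ℂ] M} {ω : Ultrafilter ℕ} {π : cenSeq i ω →⋆ₐ[ℂ] D} {α : G →* (M ≃⋆ₐ[ℂ] M)}
  {hα : Inv i α} {γ : G →* (D ≃⋆ₐ[ℂ] D)} {b : ℕ → M} {m : ℕ → ℝ}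

/-- `L k = {n ≥ k | ∀ j ≤ k, P j n (s k n)} ∩ L (k-1)`, `t n = s (k n) n` for the largest
`k ≤ n` with `n ∈ L k` -/
theorem eps_test (hω : (ω : Filter ℕ) ≤ cofinite) {X : Type} (P : ℕ → ℕ → X → Prop)
    (h : ∀ k, ∃ s : ℕ → X, ∀ᶠ n in (ω : Filter ℕ), ∀ j ≤ k, P j n (s n)) :
    ∃ t : ℕ → X, ∀ j, ∀ᶠ n in (ω : Filter ℕ), P j n (t n) := by
  classical
  choose s hs using h
  have hω' : (ω : Filter ℕ) ≤ atTop := by rwa [← Nat.cofinite_eq_atTop]
  refine ⟨fun n => s (Nat.findGreatest (fun k => ∀ j ≤ k, P j n (s k n)) n) n, fun j => ?_⟩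
  filter_upwards [hs j, hω' (eventually_ge_atTop j)] with n h1 h2
  exact Nat.findGreatest_spec (P := fun k => ∀ j ≤ k, P j n (s k n)) h2 h1 j
    (Nat.le_findGreatest (P := fun k => ∀ j ≤ k, P j n (s k n)) h2 h1)

theorem eps_test' (hω : (ω : Filter ℕ) ≤ cofinite) {X J : Type} [Countable J]
    (P : J → ℕ → X → Prop)
    (h : ∀ s : Finset J, ∃ u : ℕ → X, ∀ j ∈ s, ∀ᶠ n in (ω : Filter ℕ), P j n (u n)) :
    ∃ t : ℕ → X, ∀ j, ∀ᶠ n in (ω : Filter ℕ), P j n (t n) := by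
  obtain ⟨e, he⟩ := exists_injective_nat J
  obtain ⟨t, ht⟩ := eps_test hω (fun k n x => ∀ j, e j = k → P j n x) fun k => by
    have h1 : (e ⁻¹' Set.Iic k).Finite := (Set.finite_Iic k).preimage he.injOn
    obtain ⟨u, hu⟩ := h h1.toFinset
    refine ⟨u, ((eventually_all_finset _).2 hu).mono fun n hn k' hk' j hj => hn j ?_⟩
    rw [Set.Finite.mem_toFinset, Set.mem_preimage, hj]
    exact hk'
  exact ⟨t, fun j => (ht (e j)).mono fun n hn => hn j rfl⟩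

namespace Itn

variable {ι : Type} {p q : (ι → D) → D}

theorem var (l : ι) : Itn π fun x : ι → D => x l :=
  ⟨fun _ x => x l, fun x => ⟨x l, fun _ => rfl, rfl⟩⟩
theorem const (h : IsF i ω π) (d : D) : Itn π fun _ : ι → D => d := by
  obtain ⟨y, hy⟩ := h.1 d
  exact ⟨fun n _ => y.1 n, fun _ => ⟨y, fun _ => rfl, hy⟩⟩
theorem add (hp : Itn π p) (hq : Itn π q) : Itn π fun x => p x + q x := by
  obtain ⟨p', hp⟩ := hp
  obtain ⟨q', hq⟩ := hq
  refine ⟨fun n x => p' n x + q' n x, fun x => ?_⟩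
  obtain ⟨y, hy, hy'⟩ := hp x
  obtain ⟨z, hz, hz'⟩ := hq x
  refine ⟨y + z, fun n => ?_, by rw [map_add, hy', hz']⟩
  change y.1 n + z.1 n = _
  rw [hy, hz]
theorem sub (hp : Itn π p) (hq : Itn π q) : Itn π fun x => p x - q x := by
  obtain ⟨p', hp⟩ := hp
  obtain ⟨q', hq⟩ := hq
  refine ⟨fun n x => p' n x - q' n x, fun x => ?_⟩
  obtain ⟨y, hy, hy'⟩ := hp x
  obtain ⟨z, hz, hz'⟩ := hq x
  refine ⟨y - z, fun n => ?_, by rw [map_sub, hy', hz']⟩
  change y.1 n - z.1 n = _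
  rw [hy, hz]
theorem mul (hp : Itn π p) (hq : Itn π q) : Itn π fun x => p x * q x := by
  obtain ⟨p', hp⟩ := hp
  obtain ⟨q', hq⟩ := hq
  refine ⟨fun n x => p' n x * q' n x, fun x => ?_⟩
  obtain ⟨y, hy, hy'⟩ := hp x
  obtain ⟨z, hz, hz'⟩ := hq x
  refine ⟨y * z, fun n => ?_, by rw [map_mul, hy', hz']⟩
  change y.1 n * z.1 n = _
  rw [hy, hz]
theorem star (hp : Itn π p) : Itn π fun x => star (p x) := by
  obtain ⟨p', hp⟩ := hp
  refine ⟨fun n x => Star.star (p' n x), fun x => ?_⟩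
  obtain ⟨y, hy, hy'⟩ := hp x
  refine ⟨Star.star y, fun n => ?_, by rw [map_star, hy']⟩
  change Star.star (y.1 n) = _
  rw [hy]
theorem act (h : IsAct hα π γ) (hp : Itn π p) (g : G) : Itn π fun x => γ g (p x) := by
  obtain ⟨p', hp⟩ := hp
  refine ⟨fun n x => α g (p' n x), fun x => ?_⟩
  obtain ⟨y, hy, hy'⟩ := hp x
  exact ⟨seqAct hα ω g y, fun n => by rw [seqAct_apply, hy], by rw [← h g y, hy']⟩

end Itn

/-- `eps_test` with `X = ι → closedBall 0 C`; enumerate `κ`, `G`, a dense sequence of `A`; condition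
number `j` at `n`: commutators with the first `j` elements `≤ 1/(j+1)`, `‖p' x * i a₀‖ ≤ 2/(j+1)`,
`‖r' x * i a₀‖ ≥ d - 1/(j+1)` (`tendsto_norm`, `‖a₀‖ = 1`), and the trace conditions of `tt_ev`
for `star (q' x) * q' x`, all `k, g` among the first `j`. -/
theorem Ctx.sat [SeparableSpace A] [Countable G] (h : Ctx i ω π hα γ) (hb : AU i b m) {ι κ : Type}
    [Fintype ι] [Countable κ] {p r q : κ → (ι → D) → D} (hp : ∀ j, Itn π (p j))
    (hr : ∀ j, Itn π (r j)) (hq : ∀ j, Itn π (q j)) (d : κ → ℝ) {C : ℝ}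
    (H : ∀ (s : Finset κ) (ε : ℝ), 0 < ε → ∃ x : ι → D, (∀ l, ‖x l‖ ≤ C) ∧
      ∀ j ∈ s, ‖p j x‖ ≤ ε ∧ d j ≤ ‖r j x‖ ∧ Sm (TT π α b m) (q j x) ε) :
    ∃ x : ι → D, (∀ l, ‖x l‖ ≤ C) ∧
      ∀ j, p j x = 0 ∧ d j ≤ ‖r j x‖ ∧ Sm (TT π α b m) (q j x) 0 := by
  classical
  choose p' hp' using hp
  choose r' hr' using hr
  choose q' hq' using hq
  have := h.smp.1
  obtain ⟨a₀, ha₀⟩ := exists_norm_eq A zero_le_one
  have hN : ∀ x : cenSeq i ω,
      Tendsto (fun n => ‖x.1 n * i a₀‖) (ω : Filter ℕ) (𝓝 ‖π x‖) := fun x => by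
    have h1 := h.tendsto_norm x a₀
    rwa [ha₀, mul_one] at h1
  obtain ⟨t, ht⟩ := eps_test' h.free (X := {x : ι → M // ∀ l, ‖x l‖ ≤ C})
    (J := ℕ × (ℕ ⊕ κ × ℕ × G)) (fun j n x => Sum.elim
      (fun a => ∀ l, ‖x.1 l * i (denseSeq A a) - i (denseSeq A a) * x.1 l‖ ≤ 1 / ((j.1 : ℝ) + 1))
      (fun c => ‖p' c.1 n x.1 * i a₀‖ ≤ 1 / ((j.1 : ℝ) + 1) ∧
        d c.1 - 1 / ((j.1 : ℝ) + 1) ≤ ‖r' c.1 n x.1 * i a₀‖ ∧
        ∀ φ ∈ TA (b c.2.1) (b (c.2.1 + 1)) (m c.2.1), (φ (b c.2.1 *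
          α c.2.2 (star (q' c.1 n x.1) * q' c.1 n x.1) * b c.2.1)).re ≤ 1 / ((j.1 : ℝ) + 1)) j.2)
    (by
      intro s
      obtain ⟨N, hNs⟩ : ∃ N : ℕ, ∀ j ∈ s, j.1 ≤ N :=
        ⟨s.sup Prod.fst, fun j hj => Finset.le_sup (f := Prod.fst) hj⟩
      have he : (0 : ℝ) < 1 / ((N : ℝ) + 1) := by positivity
      have he1 : 1 / ((N : ℝ) + 1) ≤ 1 := by
        rw [div_le_one (by positivity)]
        linarith [Nat.cast_nonneg (α := ℝ) N]
      obtain ⟨x, hx, hx'⟩ := H ((s.image Prod.snd).toRight.image Prod.fst) _ (half_pos he)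
      choose y hy hy' using fun l => exists_lift_le π h.isF.1 (x l)
      have ey : (fun l => π (y l)) = x := funext hy
      refine ⟨fun n => ⟨fun l => (y l).1 n,
        fun l => ((y l).1.norm_coe_le_norm n).trans ((hy' l).trans (hx l))⟩, ?_⟩
      rintro ⟨N', a | c⟩ hj
      · exact eventually_all.2 fun l =>
          (nul_iff'.1 ((y l).2 (denseSeq A a)) _ (by positivity)).mono fun n hn => hn.le
      · have h1 : 1 / ((N : ℝ) + 1) ≤ 1 / ((N' : ℝ) + 1) := Nat.one_div_le_one_div (hNs _ hj)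
        obtain ⟨h2, h3, h4⟩ := hx' c.1 (Finset.mem_image_of_mem _
          (Finset.mem_toRight.2 (Finset.mem_image_of_mem Prod.snd hj)))
        obtain ⟨zp, hzp, hzp'⟩ := hp' c.1 y
        obtain ⟨zr, hzr, hzr'⟩ := hr' c.1 y
        obtain ⟨zq, hzq, hzq'⟩ := hq' c.1 y
        rw [ey] at hzp' hzr' hzq'
        have e1 := (hN zp).eventually (gt_mem_nhds (show ‖π zp‖ < 1 / ((N' : ℝ) + 1) by
          rw [hzp']; linarith))
        have e2 := (hN zr).eventually (lt_mem_nhds (show d c.1 - 1 / ((N' : ℝ) + 1) < ‖π zr‖ by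
          rw [hzr']; linarith))
        have e3 := h.tt_ev hb (x := star zq * zq) (c := (1 / ((N : ℝ) + 1) / 2) ^ 2)
          (c' := 1 / ((N' : ℝ) + 1)) (fun τ hτ => by
            rw [map_mul, map_star, hzq', ← ((h.tt_ts hb).tr τ hτ).n2_sq]
            exact pow_le_pow_left₀ (Tr.n2_nonneg _ _) (h4 τ hτ) 2) (by nlinarith) c.2.1 c.2.2
        filter_upwards [e1, e2, e3] with n h5 h6 h7
        refine ⟨?_, ?_, fun φ hφ => ?_⟩
        · rw [hzp] at h5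
          exact h5.le
        · rw [hzr] at h6
          exact h6.le
        · have h8 := h7 φ hφ
          change (φ (b c.2.1 * α c.2.2 (star (zq.1 n) * zq.1 n) * b c.2.1)).re < _ at h8
          rw [hzq] at h8
          exact h8.le)
  let y : ι → cenSeq i ω := fun l =>
    ⟨BoundedContinuousFunction.ofNormedAddCommGroupDiscrete (fun n => (t n).1 l) C
      fun n => (t n).2 l, mem_cenSeq_of_dense (denseRange_denseSeq A) _ (by
        rintro _ ⟨a, rfl⟩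
        refine nul_iff'.2 fun ε hε => ?_
        obtain ⟨N, hN'⟩ := exists_nat_one_div_lt hε
        exact (ht (N, Sum.inl a)).mono fun n hn => (hn l).trans_lt hN')⟩
  have ey : ∀ n, (fun l => (y l).1 n) = (t n).1 := fun n => rfl
  refine ⟨fun l => π (y l), fun l => (NonUnitalStarAlgHom.norm_apply_le π _).trans
    (BoundedContinuousFunction.norm_le_of_nonempty.2 fun n => (t n).2 l), fun j => ⟨?_, ?_, ?_⟩⟩
  · obtain ⟨z, hz, hz'⟩ := hp' j y
    rw [← hz', ← norm_le_zero_iff]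
    refine le_of_forall_pos_le_add fun ε hε => ?_
    obtain ⟨N, hN'⟩ := exists_nat_one_div_lt hε
    rw [zero_add]
    refine le_of_tendsto (hN z) ((ht (N, Sum.inr (j, 0, 1))).mono fun n hn => ?_)
    rw [hz, ey]
    exact hn.1.trans hN'.le
  · obtain ⟨z, hz, hz'⟩ := hr' j y
    rw [← hz']
    refine le_of_forall_pos_le_add fun ε hε => ?_
    obtain ⟨N, hN'⟩ := exists_nat_one_div_lt hε
    rw [← sub_le_iff_le_add]
    refine ge_of_tendsto (hN z) ((ht (N, Sum.inr (j, 0, 1))).mono fun n hn => ?_)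
    rw [hz, ey]
    exact (sub_le_sub_left hN'.le _).trans hn.2.1
  · obtain ⟨z, hz, hz'⟩ := hq' j y
    rw [← hz']
    intro τ hτ
    have h1 := tt_le (x := star z * z) (c := 0) (fun k g ε hε => by
      obtain ⟨N, hN'⟩ := exists_nat_one_div_lt hε
      refine (ht (N, Sum.inr (j, k, g))).mono fun n hn φ hφ => ?_
      change (φ (b k * α g (star (z.1 n) * z.1 n) * b k)).re ≤ _
      rw [hz, ey, zero_add]
      exact (hn.2.2 φ hφ).trans hN'.le) τ hτ
    rw [map_mul, map_star] at h1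
    exact (Real.sqrt_eq_zero'.2 h1).le

end Vale.Agent.P095.S
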