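import Vale.Agent.P095.S.Defs

/-! Folner averaging in `D`. -/

open Filter Topology TopologicalSpace
open scoped BoundedContinuousFunction ComplexOrder Matrix Kronecker

namespace Vale.Agent.P095.S

open H P101

variable {A M D G : Type} [NonUnitalCStarAlgebra A] [CStarAlgebra M] [CStarAlgebra D] [Group G]
  {i : A →⋆ₙₐ[ℂ] M} {ω : Ultrafilter ℕ} {π : cenSeq i ω →⋆ₐ[ℂ] D} {α : G →* (M ≃⋆ₐ[ℂ] M)}
  {hα : Inv i α} {γ : G →* (D ≃⋆ₐ[ℂ] D)} {b : ℕ → M} {m : ℕ → ℝ}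

theorem fol_of [DecidableEq G] (h : ∀ (K : Finset G) (η : ℝ), 0 < η → ∃ F : Finset G, F.Nonempty ∧
    ∀ k ∈ K, (((F.image fun g => k * g) \ F).card : ℝ) ≤ η * F.card) : Fol G := by
  intro F₀ η hη
  obtain ⟨F, hF, hF'⟩ := h (F₀.image fun g => g⁻¹) η hη
  refine ⟨F, hF, fun k hk => le_trans ?_ (hF' k⁻¹ (Finset.mem_image_of_mem _ hk))⟩
  unfold bd
  refine Nat.cast_le.2 (Finset.card_le_card_of_injOn (fun g => k⁻¹ * g) (fun g hg => ?_)
    fun g _ g' _ hg => mul_left_cancel hg)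
  simp only [Finset.mem_coe, Finset.mem_filter] at hg
  exact Finset.mem_coe.2 (Finset.mem_sdiff.2 ⟨Finset.mem_image_of_mem _ hg.1, hg.2⟩)

theorem avg_card [DecidableEq G] (F : Finset G) (k : G) :
    (F \ F.image fun g => k * g).card ≤ bd F k ∧ ((F.image fun g => k * g) \ F).card ≤ bd F k := by
  have h1 : (F \ F.image fun g => k * g).card ≤ bd F k := by
    unfold bd
    refine Finset.card_le_card fun g hg => ?_
    obtain ⟨h1, h2⟩ := Finset.mem_sdiff.1 hg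
    simp only [Finset.mem_filter]
    exact ⟨h1, fun h3 => h2 (Finset.mem_image.2 ⟨_, h3, mul_inv_cancel_left k g⟩)⟩
  refine ⟨h1, le_trans (le_of_eq ?_) h1⟩
  exact Finset.card_sdiff_comm (Finset.card_image_of_injective F (mul_right_injective k))

theorem avg_orth {x y : D} (h1 : ∀ g, γ g (star x * y) = star x * y)
    (h3 : ∀ g, γ g ≠ 1 → star x * γ g y = 0) (Θ : Finset (D ≃⋆ₐ[ℂ] D))
    (hΘ : ∀ θ ∈ Θ, θ ∈ Set.range γ) (a a' : (D ≃⋆ₐ[ℂ] D) → ℝ) :
    star (∑ θ ∈ Θ, (a θ : ℂ) • θ x) * ∑ θ ∈ Θ, (a' θ : ℂ) • θ y =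
      ((∑ θ ∈ Θ, a θ * a' θ : ℝ) : ℂ) • (star x * y) := by
  rw [star_sum, Finset.sum_mul, Complex.ofReal_sum, Finset.sum_smul]
  refine Finset.sum_congr rfl fun θ hθ => ?_
  obtain ⟨g, rfl⟩ := hΘ θ hθ
  rw [Finset.mul_sum, Finset.sum_eq_single_of_mem (γ g) hθ]
  · rw [star_smul, smul_mul_smul_comm, ← map_star, ← map_mul, h1, Complex.star_def,
      Complex.conj_ofReal, Complex.ofReal_mul]
  · intro θ' hθ' hne
    obtain ⟨g', rfl⟩ := hΘ θ' hθ'
    have h4 : γ (g⁻¹ * g') ≠ 1 := fun h => hne (by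
      rw [← mul_inv_cancel_left g g', map_mul, h, mul_one])
    have h5 : star (γ g x) * γ g' y = γ g (star x * γ (g⁻¹ * g') y) := by
      rw [map_mul, map_star, ← act_mul, mul_inv_cancel_left]
    rw [star_smul, smul_mul_smul_comm, h5, h3 _ h4, map_zero, smul_zero]

open Classical in
/-- the number of elements of `F` acting as `θ` -/
noncomputable def avgC (γ : G →* (D ≃⋆ₐ[ℂ] D)) (F : Finset G) (θ : D ≃⋆ₐ[ℂ] D) : ℕ :=
  (F.filter fun g => γ g = θ).card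

theorem avgC_sum {F : Finset G} {Θ : Finset (D ≃⋆ₐ[ℂ] D)} (h : ∀ g ∈ F, γ g ∈ Θ) :
    ∑ θ ∈ Θ, (avgC γ F θ : ℝ) = F.card := by
  classical
  unfold avgC
  rw [← Nat.cast_sum, Nat.cast_inj]
  exact (Finset.card_eq_sum_card_fiberwise (f := fun g => γ g) fun g hg => h g hg).symm

theorem avgC_zero {F : Finset G} {θ : D ≃⋆ₐ[ℂ] D} (h : ∀ g ∈ F, γ g ≠ θ) : avgC γ F θ = 0 := by
  classical
  unfold avgC
  rw [Finset.card_eq_zero, Finset.filter_eq_empty_iff]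
  exact h

theorem avgC_le [DecidableEq G] (F F' : Finset G) (θ : D ≃⋆ₐ[ℂ] D) :
    avgC γ F' θ ≤ avgC γ F θ + avgC γ (F' \ F) θ := by
  classical
  unfold avgC
  refine le_trans (Finset.card_le_card fun g hg => ?_) (Finset.card_union_le _ _)
  obtain ⟨h1, h2⟩ := Finset.mem_filter.1 hg
  by_cases h3 : g ∈ F
  · exact Finset.mem_union_left _ (Finset.mem_filter.2 ⟨h3, h2⟩)
  · exact Finset.mem_union_right _ (Finset.mem_filter.2 ⟨Finset.mem_sdiff.2 ⟨h1, h3⟩, h2⟩)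

theorem avgC_image [DecidableEq G] (F : Finset G) (k : G) (θ : D ≃⋆ₐ[ℂ] D) :
    avgC γ (F.image fun g => k * g) (γ k * θ) = avgC γ F θ := by
  classical
  unfold avgC
  rw [Finset.filter_image, Finset.card_image_of_injective _ (mul_right_injective k)]
  congr 1
  refine Finset.filter_congr fun g _ => ?_
  rw [map_mul, mul_right_inj]

theorem avg_sqrt {a b : ℝ} (ha : 0 ≤ a) (hb : 0 ≤ b) : (√a - √b) * (√a - √b) ≤ |a - b| := by
  have h1 := Real.mul_self_sqrt ha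
  have h2 := Real.mul_self_sqrt hb
  have h3 := Real.sqrt_nonneg a
  have h4 := Real.sqrt_nonneg b
  rcases le_total (√a) (√b) with h | h
  · refine le_trans ?_ (neg_le_abs _)
    nlinarith [mul_nonneg h3 (sub_nonneg.2 h)]
  · refine le_trans ?_ (le_abs_self _)
    nlinarith [mul_nonneg h4 (sub_nonneg.2 h)]

/-- `μ θ = card {g ∈ F | γ g = θ} / card F` on `Aut D`, `s' β = ∑ θ ∈ image γ F, √(μ θ) • θ (s β)`;
the `θ (s β)`, `θ ∈ range γ`, have orthogonal ranges; `γ h s' - s' = ∑ (√μ' - √μ) θ s` over a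
common finite set, norm squared `≤ ∑ |μ' - μ| ≤ 2 bd F h / card F`. -/
theorem avg_s (hG : Fol G) {e : D} (he : ∀ g, γ g e = e) (h1 : ‖e‖ ≤ 1) {s : Bool → D}
    (hs : ∀ β, star (s β) * s β = e) (h2 : star (s true) * s false = 0)
    (h3 : ∀ β β' g, γ g ≠ 1 → star (s β) * γ g (s β') = 0) (F₀ : Finset G) {ε : ℝ} (hε : 0 < ε) :
    ∃ s' : Bool → D, (∀ β, star (s' β) * s' β = e) ∧ star (s' true) * s' false = 0 ∧
      ∀ β, ∀ g ∈ F₀, ‖γ g (s' β) - s' β‖ ≤ ε := by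
  classical
  obtain ⟨F, hF, hF'⟩ := hG F₀ (ε ^ 2 / 2) (by positivity)
  have hn : (0 : ℝ) < F.card := by exact_mod_cast hF.card_pos
  have hr : ∀ X : Finset G, ∀ θ ∈ X.image γ, θ ∈ Set.range γ := fun X θ hθ => by
    obtain ⟨g, -, rfl⟩ := Finset.mem_image.1 hθ
    exact ⟨g, rfl⟩
  have hsum : ∑ θ ∈ F.image γ, √(avgC γ F θ / (F.card : ℝ)) * √(avgC γ F θ / (F.card : ℝ)) = 1 := by
    rw [Finset.sum_congr rfl fun θ _ => Real.mul_self_sqrt (by positivity), ← Finset.sum_div,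
      avgC_sum fun g hg => Finset.mem_image_of_mem _ hg, div_self hn.ne']
  have hfix : ∀ β g, γ g (star (s β) * s β) = star (s β) * s β := fun β g => by rw [hs, he]
  refine ⟨fun β => ∑ θ ∈ F.image γ, ((√(avgC γ F θ / (F.card : ℝ)) : ℝ) : ℂ) • θ (s β),
    fun β => ?_, ?_, fun β k hk => ?_⟩
  · rw [avg_orth (hfix β) (h3 β β) _ (hr F), hsum, hs, Complex.ofReal_one, one_smul]
  · rw [avg_orth (fun g => by rw [h2, map_zero]) (h3 true false) _ (hr F), h2, smul_zero]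
  · obtain ⟨F', hF'def⟩ : ∃ F' : Finset G, F' = F.image fun g => k * g := ⟨_, rfl⟩
    have hext : ∀ X : Finset G, X ⊆ F ∪ F' →
        ∑ θ ∈ X.image γ, ((√(avgC γ X θ / (F.card : ℝ)) : ℝ) : ℂ) • θ (s β) =
        ∑ θ ∈ (F ∪ F').image γ, ((√(avgC γ X θ / (F.card : ℝ)) : ℝ) : ℂ) • θ (s β) := by
      intro X hX
      refine Finset.sum_subset (Finset.image_subset_image hX) fun θ _ hθ => ?_
      rw [avgC_zero fun g hg h => hθ (Finset.mem_image.2 ⟨g, hg, h⟩), Nat.cast_zero, zero_div,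
        Real.sqrt_zero, Complex.ofReal_zero, zero_smul]
    have e1 : γ k (∑ θ ∈ F.image γ, ((√(avgC γ F θ / (F.card : ℝ)) : ℝ) : ℂ) • θ (s β)) =
        ∑ θ ∈ F'.image γ, ((√(avgC γ F' θ / (F.card : ℝ)) : ℝ) : ℂ) • θ (s β) := by
      have e2 : F'.image γ = (F.image γ).image fun θ => γ k * θ := by
        rw [hF'def, Finset.image_image, Finset.image_image]
        exact Finset.image_congr fun g _ => map_mul γ k g
      rw [e2, Finset.sum_image fun θ _ θ' _ h => mul_left_cancel h, map_sum]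
      refine Finset.sum_congr rfl fun θ _ => ?_
      rw [map_smul, hF'def, avgC_image, StarAlgEquiv.mul_apply]
    beta_reduce
    rw [e1, hext F' Finset.subset_union_right, hext F Finset.subset_union_left,
      ← Finset.sum_sub_distrib]
    simp only [← sub_smul, ← Complex.ofReal_sub]
    refine (pow_le_pow_iff_left₀ (norm_nonneg _) hε.le two_ne_zero).1 ?_
    rw [sq, ← CStarRing.norm_star_mul_self, avg_orth (hfix β) (h3 β β) _ (hr _), hs, norm_smul,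
      Complex.norm_real, Real.norm_of_nonneg (Finset.sum_nonneg fun θ _ => mul_self_nonneg _)]
    refine (mul_le_of_le_one_right (Finset.sum_nonneg fun θ _ => mul_self_nonneg _) h1).trans ?_
    have h4 : ∀ θ, (√(avgC γ F' θ / (F.card : ℝ)) - √(avgC γ F θ / (F.card : ℝ))) *
        (√(avgC γ F' θ / (F.card : ℝ)) - √(avgC γ F θ / (F.card : ℝ))) ≤
        (avgC γ (F' \ F) θ + avgC γ (F \ F') θ) / (F.card : ℝ) := by
      intro θ
      refine (avg_sqrt (by positivity) (by positivity)).trans ?_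
      rw [← sub_div, abs_div, abs_of_pos hn]
      refine div_le_div_of_nonneg_right ?_ hn.le
      have h5 : (avgC γ F' θ : ℝ) ≤ avgC γ F θ + avgC γ (F' \ F) θ := by
        exact_mod_cast avgC_le F F' θ
      have h6 : (avgC γ F θ : ℝ) ≤ avgC γ F' θ + avgC γ (F \ F') θ := by
        exact_mod_cast avgC_le F' F θ
      have h7 := Nat.cast_nonneg (α := ℝ) (avgC γ (F' \ F) θ)
      have h8 := Nat.cast_nonneg (α := ℝ) (avgC γ (F \ F') θ)
      rw [abs_le]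
      constructor <;> linarith
    refine (Finset.sum_le_sum fun θ _ => h4 θ).trans ?_
    rw [← Finset.sum_div, Finset.sum_add_distrib,
      avgC_sum fun g hg => Finset.mem_image_of_mem _
        (Finset.mem_union_right _ (Finset.mem_sdiff.1 hg).1),
      avgC_sum fun g hg => Finset.mem_image_of_mem _
        (Finset.mem_union_left _ (Finset.mem_sdiff.1 hg).1), div_le_iff₀ hn]
    obtain ⟨h5, h6⟩ := avg_card F k
    rw [← hF'def] at h5 h6
    have h7 : ((F \ F').card : ℝ) ≤ bd F k := by exact_mod_cast h5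
    have h8 : ((F' \ F).card : ℝ) ≤ bd F k := by exact_mod_cast h6
    linarith [hF' k hk]

theorem avg_one [DecidableEq G] {T : Set (D →L[ℂ] ℂ)} (hT : TS γ T) {F : Finset G}
    (hF : F.Nonempty) {a : D} (ha : ‖a‖ ≤ 1) {δ : ℝ} (h : ∀ g ∈ F, Sm T (γ g a - a) δ) :
    ∃ x : D, ‖x‖ ≤ 1 ∧ Sm T (x - a) δ ∧ ∀ k, ‖γ k x - x‖ * F.card ≤ 2 * bd F k := by
  have hn : (0 : ℝ) < F.card := by exact_mod_cast hF.card_pos
  have hn' : (F.card : ℂ) ≠ 0 := by exact_mod_cast hF.card_pos.ne'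
  have hc : ‖(F.card : ℂ)⁻¹‖ = (F.card : ℝ)⁻¹ := by rw [norm_inv, Complex.norm_natCast]
  have hb : ∀ X : Finset G, ‖∑ g ∈ X, γ g a‖ ≤ X.card := fun X => by
    refine (norm_sum_le _ _).trans ((Finset.sum_le_sum (g := fun _ => (1 : ℝ)) fun g _ =>
      (NonUnitalStarAlgHom.norm_apply_le (γ g) a).trans ha).trans ?_)
    rw [Finset.sum_const, nsmul_eq_mul, mul_one]
  refine ⟨(F.card : ℂ)⁻¹ • ∑ g ∈ F, γ g a, ?_, fun τ hτ => ?_, fun k => ?_⟩
  · rw [norm_smul, hc, inv_mul_le_iff₀ hn, mul_one]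
    exact hb F
  · have e : (F.card : ℂ)⁻¹ • ∑ g ∈ F, γ g a - a = (F.card : ℂ)⁻¹ • ∑ g ∈ F, (γ g a - a) := by
      rw [Finset.sum_sub_distrib, Finset.sum_const, smul_sub, ← Nat.cast_smul_eq_nsmul ℂ,
        inv_smul_smul₀ hn']
    rw [e, (hT.tr τ hτ).n2_smul, hc, inv_mul_le_iff₀ hn]
    refine ((hT.tr τ hτ).n2_sum _ _).trans ((Finset.sum_le_sum fun g hg => h g hg τ hτ).trans ?_)
    rw [Finset.sum_const, nsmul_eq_mul]
  · have e : γ k (∑ g ∈ F, γ g a) = ∑ g ∈ F.image fun g => k * g, γ g a := by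
      rw [Finset.sum_image fun g _ g' _ hg => mul_left_cancel hg, map_sum]
      exact Finset.sum_congr rfl fun g _ => (act_mul γ k g a).symm
    rw [map_smul, ← smul_sub, e, ← Finset.sum_sdiff_sub_sum_sdiff, norm_smul, hc, mul_comm,
      ← mul_assoc, mul_inv_cancel₀ hn.ne', one_mul]
    obtain ⟨h5, h6⟩ := avg_card F k
    have h7 : ((F \ F.image fun g => k * g).card : ℝ) ≤ bd F k := by exact_mod_cast h5
    have h8 : (((F.image fun g => k * g) \ F).card : ℝ) ≤ bd F k := by exact_mod_cast h6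
    refine (norm_sub_le _ _).trans ?_
    linarith [hb (F \ F.image fun g => k * g), hb ((F.image fun g => k * g) \ F)]

theorem avg_prod {τ : D →L[ℂ] ℂ} (h : Tr τ) {x y a b : D} (hy : ‖y‖ ≤ 1) (ha : ‖a‖ ≤ 1) {δ : ℝ}
    (h1 : n2 τ (x - a) ≤ δ) (h2 : n2 τ (y - b) ≤ δ) : n2 τ (x * y - a * b) ≤ 2 * δ := by
  have e : x * y - a * b = (x - a) * y + a * (y - b) := by noncomm_ring
  have h3 := (h.n2_mul_right (x - a) y).trans (mul_le_of_le_one_right (Tr.n2_nonneg _ _) hy)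
  have h4 := (h.n2_mul_left a (y - b)).trans (mul_le_of_le_one_left (Tr.n2_nonneg _ _) ha)
  rw [e]
  linarith [h.n2_add ((x - a) * y) (a * (y - b))]

/-- average the output for `(F, ε/8)` over a Folner set `F` -/
theorem avg_out (hG : Fol G) {T : Set (D →L[ℂ] ℂ)} (hT : TS γ T)
    (h : ∀ (F : Finset G) (ε : ℝ), 0 < ε → Out γ T F ε) (F₀ : Finset G) {ε : ℝ} (hε : 0 < ε) :
    ∃ x : Fin 2 → D, (∀ l, ‖x l‖ ≤ 1) ∧ Sm T (x 0 * x 0 - 1) ε ∧ Sm T (x 1 * x 1 - 1) ε ∧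
      Sm T (x 0 * x 1 + x 1 * x 0) ε ∧ ∀ l, ∀ g ∈ F₀, ‖γ g (x l) - x l‖ ≤ ε := by
  classical
  obtain ⟨F, hF, hF'⟩ := hG F₀ (ε / 2) (half_pos hε)
  have hn : (0 : ℝ) < F.card := by exact_mod_cast hF.card_pos
  obtain ⟨a, b, -, -, ha, hb, haa, hbb, hab, hinv⟩ := h F (ε / 8) (by positivity)
  obtain ⟨x, hx, hxa, hx'⟩ := avg_one hT hF ha fun g hg => (hinv g hg).1
  obtain ⟨y, hy, hyb, hy'⟩ := avg_one hT hF hb fun g hg => (hinv g hg).2
  refine ⟨![x, y], Fin.forall_fin_two.2 ⟨hx, hy⟩, fun τ hτ => ?_, fun τ hτ => ?_, fun τ hτ => ?_,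
    Fin.forall_fin_two.2 ⟨fun g hg => ?_, fun g hg => ?_⟩⟩
  · have h1 := (hT.tr τ hτ).n2_add (x * x - a * a) (a * a - 1)
    rw [sub_add_sub_cancel] at h1
    change n2 τ (x * x - 1) ≤ ε
    linarith [avg_prod (hT.tr τ hτ) hx ha (hxa τ hτ) (hxa τ hτ), haa τ hτ]
  · have h1 := (hT.tr τ hτ).n2_add (y * y - b * b) (b * b - 1)
    rw [sub_add_sub_cancel] at h1
    change n2 τ (y * y - 1) ≤ ε
    linarith [avg_prod (hT.tr τ hτ) hy hb (hyb τ hτ) (hyb τ hτ), hbb τ hτ]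
  · have h1 := (hT.tr τ hτ).n2_add (x * y - a * b + (y * x - b * a)) (a * b + b * a)
    have h2 := (hT.tr τ hτ).n2_add (x * y - a * b) (y * x - b * a)
    rw [show x * y - a * b + (y * x - b * a) + (a * b + b * a) = x * y + y * x by abel] at h1
    change n2 τ (x * y + y * x) ≤ ε
    linarith [avg_prod (hT.tr τ hτ) hy ha (hxa τ hτ) (hyb τ hτ),
      avg_prod (hT.tr τ hτ) hx hb (hyb τ hτ) (hxa τ hτ), hab τ hτ]
  · change ‖γ g x - x‖ ≤ ε
    exact le_of_mul_le_mul_right (by linarith [hx' g, hF' g hg]) hn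
  · change ‖γ g y - y‖ ≤ ε
    exact le_of_mul_le_mul_right (by linarith [hy' g, hF' g hg]) hn

end Vale.Agent.P095.S
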