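import Vale.Agent.P095.S.Dich
import Vale.Agent.P095.S.FG
import Vale.Agent.P095.S.Trans
import Vale.Agent.P095.S.Cp

/-! Comparison. -/

open Filter Topology TopologicalSpace
open scoped BoundedContinuousFunction ComplexOrder Matrix Kronecker

namespace Vale.Agent.P095.S

open H P101

variable {A M D G : Type} [NonUnitalCStarAlgebra A] [CStarAlgebra M] [CStarAlgebra D] [Group G]
  {i : A →⋆ₙₐ[ℂ] M} {ω : Ultrafilter ℕ} {π : cenSeq i ω →⋆ₐ[ℂ] D} {α : G →* (M ≃⋆ₐ[ℂ] M)}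
  {hα : Inv i α} {γ : G →* (D ≃⋆ₐ[ℂ] D)} {b : ℕ → M} {m : ℕ → ℝ}

/-- the star idealizer of the left ideal of sequences annihilating the range of `i` -/
def nrmSeq (i : A →⋆ₙₐ[ℂ] M) (ω : Ultrafilter ℕ) : StarSubalgebra ℂ (ℕ →ᵇ M) where
  carrier := {y | ∀ x : ℕ →ᵇ M, (∀ a, Nul ω fun n => x n * i a) →
    (∀ a, Nul ω fun n => (x * y) n * i a) ∧ ∀ a, Nul ω fun n => (x * star y) n * i a}
  mul_mem' {y z} hy hz x hx := ⟨by rw [← mul_assoc]; exact (hz _ (hy x hx).1).1,
    by rw [star_mul, ← mul_assoc]; exact (hy _ (hz x hx).2).2⟩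
  add_mem' {y z} hy hz x hx :=
    ⟨fun a => (((hy x hx).1 a).add ((hz x hx).1 a)).congr fun n => by simp [mul_add, add_mul],
    fun a => (((hy x hx).2 a).add ((hz x hx).2 a)).congr fun n => by simp [mul_add, add_mul]⟩
  algebraMap_mem' c x hx :=
    ⟨fun a => (hx (c • a)).congr fun n => by simp [Algebra.algebraMap_eq_smul_one],
    fun a => (hx (star c • a)).congr fun n => by simp [Algebra.algebraMap_eq_smul_one]⟩
  star_mem' {y} hy x hx := ⟨(hy x hx).2, by rw [star_star]; exact (hy x hx).1⟩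

theorem isClosed_nrmSeq : IsClosed (nrmSeq i ω : Set (ℕ →ᵇ M)) := by
  have : (nrmSeq i ω : Set (ℕ →ᵇ M)) = ⋂ x : ℕ →ᵇ M, ⋂ _ : ∀ a, Nul ω fun n => x n * i a,
      (⋂ a, (fun y => x * y) ⁻¹' {x : ℕ →ᵇ M | Nul ω fun n => x n * i a}) ∩
      ⋂ a, (fun y => x * star y) ⁻¹' {x : ℕ →ᵇ M | Nul ω fun n => x n * i a} := by
    ext y
    simp only [Set.mem_iInter, Set.mem_inter_iff]
    rfl
  rw [this]
  exact isClosed_iInter fun x => isClosed_iInter fun _ =>
    (isClosed_iInter fun a => (isClosed_ann a).preimage (by fun_prop)).inter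
      (isClosed_iInter fun a => (isClosed_ann a).preimage (by fun_prop))

theorem const_mem_nrmSeq (hi : IsIdl i) (c : M) :
    BoundedContinuousFunction.const ℕ c ∈ nrmSeq i ω := fun x hx =>
  ⟨fun a => by
    obtain ⟨a', h⟩ := hi c a
    exact (hx a').congr fun n => by simp [← h, mul_assoc],
  fun a => by
    obtain ⟨a', h⟩ := hi (star c) a
    exact (hx a').congr fun n => by simp [← h, mul_assoc]⟩

theorem cenSeq_le_nrmSeq : cenSeq i ω ≤ nrmSeq i ω := by
  have H : ∀ y ∈ cenSeq i ω, ∀ x : ℕ →ᵇ M, (∀ a, Nul ω fun n => x n * i a) →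
      ∀ a, Nul ω fun n => (x * y) n * i a := fun y hy x hx a =>
    (((hx a).mul_right y).add ((hy a).mul_left x)).congr fun n => by
      simp only [BoundedContinuousFunction.mul_apply]; noncomm_ring
  exact fun y hy x hx => ⟨H y hy x hx, H _ (star_mem hy) x hx⟩

theorem Ctx.exists_E (h : Ctx i ω π hα γ) : ∃ (E : Type) (_ : CStarAlgebra E) (j : M →⋆ₐ[ℂ] E)
    (κ : D →⋆ₐ[ℂ] E), (∀ a d, Commute (j (i a)) (κ d)) ∧ ∀ (t : E) (y u a : M) (u' : A),
      ‖u'‖ ≤ 1 → u * i u' = u → a * i u' = a → ∀ ε > 0, ∃ t' : M,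
        ‖star (y * t' * u) * (y * t' * u) - a‖ ≤
          ‖star (j y * t * j u) * (j y * t * j u) - j a‖ + ε := by
  have := isClosed_nrmSeq (i := i) (ω := ω)
  let J : TwoSidedIdeal (nrmSeq i ω) := .mk' {x | ∀ a, Nul ω fun n => x.1 n * i a}
    (fun a => Nul.zero.congr fun n => by simp)
    (fun {x y} hx hy a => ((hx a).add (hy a)).congr fun n => (add_mul _ _ _).symm)
    (fun {x} hx a => (hx a).neg.congr fun n => (neg_mul _ _).symm)
    (fun {x y} hy a => ((hy a).mul_left x.1).congr fun n => (mul_assoc _ _ _).symm)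
    (fun {x y} hx => (y.2 x.1 hx).1)
  have hJ : ∀ x, x ∈ J ↔ ∀ a, Nul ω fun n => x.1 n * i a := fun x => by simp [J]
  obtain ⟨q, h1, h2, h3⟩ := P133.exists_quot J
  let c : M →⋆ₐ[ℂ] nrmSeq i ω :=
    { toFun := fun x => ⟨.const ℕ x, const_mem_nrmSeq h.idl x⟩
      map_one' := rfl, map_mul' := fun _ _ => rfl, map_zero' := rfl, map_add' := fun _ _ => rfl
      commutes' := fun _ => rfl, map_star' := fun _ => rfl }
  obtain ⟨κ, hκ⟩ := exists_factor π h.isF.1 (q.π.comp (StarSubalgebra.inclusion cenSeq_le_nrmSeq))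
    fun x hx => h2 _ ((hJ _).2 ((h.isF.2 x).1 hx))
  refine ⟨q.V, inferInstance, q.π.comp c, κ, fun a d => ?_, fun t y u a u' hu e1 e2 ε hε => ?_⟩
  · obtain ⟨x, rfl⟩ := h.isF.1 d
    rw [hκ, Commute, SemiconjBy, eq_comm, ← sub_eq_zero]
    simp only [StarAlgHom.comp_apply, ← map_mul, ← map_sub]
    exact h2 _ ((hJ _).2 fun a' => (x.2 a).mul_const _)
  · obtain ⟨s, rfl⟩ := h1 t
    obtain ⟨z, hz, h4⟩ := h3 (star (c y * s * c u) * (c y * s * c u) - c a) _ (half_pos hε)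
    obtain ⟨n, hn⟩ := (nul_iff'.1 ((hJ z).1 hz u') _ (half_pos hε)).exists
    refine ⟨s.1 n, ?_⟩
    set X := star (c y * s * c u) * (c y * s * c u) - c a with hX
    have e3 : star (y * s.1 n * u) * (y * s.1 n * u) - a = (X - z).1 n * i u' + z.1 n * i u' := by
      change _ = (star (y * s.1 n * u) * (y * s.1 n * u) - a - z.1 n) * i u' + _
      rw [← add_mul, sub_add_cancel, sub_mul, e2, mul_assoc _ _ (i u'), mul_assoc _ u, e1]
    have h5 : ‖(X - z).1 n * i u'‖ ≤ ‖X - z‖ :=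
      (norm_mul_le _ _).trans ((mul_le_of_le_one_right (norm_nonneg _)
        ((h.norm_i u').trans_le hu)).trans ((X - z).1.norm_coe_le_norm n))
    have h6 : q.π X = star (q.π.comp c y * q.π s * q.π.comp c u) *
        (q.π.comp c y * q.π s * q.π.comp c u) - q.π.comp c a := by
      simp only [hX, map_sub, map_mul, map_star, StarAlgHom.comp_apply]
    rw [e3, ← h6]
    linarith [norm_add_le ((X - z).1 n * i u') (z.1 n * i u')]

theorem Ctx.cmp (h : Ctx i ω π hα γ) (hb : AU i b m) (hC : Cp A) (hz : OZ D) : Cmp i b m := by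
  classical
  intro k z hz1 ps h1 η₀ hη₀
  obtain ⟨η, hη, hη1, hη2⟩ : ∃ η : ℝ, 0 < η ∧ η ≤ 1 ∧ η ≤ η₀ :=
    ⟨min 1 η₀, by positivity, min_le_left _ _, min_le_right _ _⟩
  obtain ⟨y, hy, e1, e2, hzy⟩ := exists_plateau h.inj h.idl hz1 ps h1 (half_pos hη)
  obtain ⟨δ, hδ, H⟩ := dich h.smp h.inj h.idl hb k (hy 0).1 (hy 0).2.1 (hy 0).2.2 (hy 1).2.1.sa e1
    (η := η / 4) (δ' := (η / 200) ^ 2) (by positivity) (by positivity)
  refine ⟨δ, hδ, fun x hx hx1 hφ => ?_⟩
  obtain ⟨d, w, hw, n1, n2, n3⟩ := H x hx hx1 hφ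
  choose w' hw' using fun l => (hw l).1 ▸ mul_mem_right h.idl (w l) (hy 1).1
  obtain ⟨u, hu⟩ := hb.mem (k + 1)
  obtain ⟨u', hu'⟩ := hb.mem (k + 2)
  obtain ⟨ε, hε, hε'⟩ := exists_pos_mul_lt (show 0 < η / 16 by positivity) (5 * d ^ 2)
  obtain ⟨r, φ, c, hφ, n4, n5⟩ := hC (Finset.univ.image fun p : Fin d × Fin d =>
    star (w' p.1) * w' p.2) ε hε
  have hG := hφ.gram (z := w') (h := u) (h.inj (by rw [map_star, hu, (hb.ps _).sa.star_eq]))
    (by rw [← h.norm_i, hu]; exact hb.le _)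
    (fun l => h.inj (by rw [map_mul, hw', hu, (hw l).2])) (δ := (η / 200) ^ 2) (by positivity)
    (by rw [← h.norm_i]; simpa only [map_sum, map_mul, map_star, hw'] using n1)
    (by rw [← h.norm_i]; simpa only [map_sum, map_mul, map_star, hw'] using n2)
  obtain ⟨p, U, ρ, hU⟩ := fg (by positivity) hG
  obtain ⟨a, v, e, pc, he, hv, hv', -⟩ := hz p ∅ Set.countable_empty
  obtain ⟨E, _, j, κ, hc, hd⟩ := h.exists_E
  have hj : ∀ a, ‖j (i a)‖ ≤ ‖a‖ := fun a =>
    (NonUnitalStarAlgHom.norm_apply_le j _).trans (h.norm_i a).le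
  obtain ⟨t, ht⟩ := transport (by positivity) hU (z := fun l => j (i (w' l)))
    (c := fun s s' => j (i (c s s'))) (pc.map κ) (he.map κ) (v := κ v)
    (by rw [← map_star, ← map_mul, hv, map_mul, map_sub, map_one]) (by rw [← map_mul, hv'])
    (S := Set.range fun a => j (i a))
    (by rintro _ ⟨a, rfl⟩; exact ⟨hc _ _, map_star κ v ▸ hc _ _, fun _ _ => hc _ _⟩)
    (fun l => ⟨⟨_, rfl⟩, ⟨star (w' l), by simp only [map_star]⟩⟩)
    (fun s s' => ⟨⟨_, rfl⟩, ⟨star (c s s'), by simp only [map_star]⟩⟩)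
    (by simpa only [map_sum, map_mul, map_star] using (hj _).trans n4) hε.le fun l l' => by
      simpa only [map_sub, map_sum, map_mul, map_star, map_smul] using (hj _).trans
        (n5 _ (Finset.mem_image_of_mem _ (Finset.mem_univ (l, l'))))
  simp only [hw'] at ht
  have e3 : b (k + 1) * b (k + 2) = b (k + 1) := by
    simpa only [star_mul, (hb.ps _).sa.star_eq] using congrArg star (hb.nest (k + 1))
  have e4 : (∑ l, star (w l) * w l) * b (k + 1) = ∑ l, star (w l) * w l := by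
    simp only [Finset.sum_mul, mul_assoc, (hw _).2]
  have e5 : b (k + 1) * ∑ l, star (w l) * w l = ∑ l, star (w l) * w l := by
    simpa only [star_mul, (hb.ps _).sa.star_eq, star_sum, star_star] using congrArg star e4
  obtain ⟨t', ht'⟩ := hd (∑ l, j (w l) * t l) (y 1) (b (k + 1)) (∑ l, star (w l) * w l) u'
    (by rw [← h.norm_i, hu']; exact hb.le _) (by rw [hu', e3])
    (by rw [hu', ← e4, mul_assoc, e3]) (η / 8) (by positivity)
  have e6 : j (y 1) * ∑ l, j (w l) * t l = ∑ l, j (w l) * t l := by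
    simp only [Finset.mul_sum, ← mul_assoc, ← map_mul, (hw _).1]
  have e7 : ∑ l, star (j (w l)) * j (w l) = j (∑ l, star (w l) * w l) := by
    simp only [map_sum, map_mul, map_star]
  rw [e7] at ht
  rw [e6] at ht'
  set T := ∑ l, j (w l) * t l
  set Z := ∑ l, star (w l) * w l
  have hB : ‖j (b (k + 1))‖ ≤ 1 := (NonUnitalStarAlgHom.norm_apply_le j _).trans (hb.le _)
  have n6 : ‖star (T * j (b (k + 1))) * (T * j (b (k + 1))) - j Z‖ ≤ ‖star T * T - j Z‖ := by
    rw [show star (T * j (b (k + 1))) * (T * j (b (k + 1))) - j Z =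
      j (b (k + 1)) * (star T * T - j Z) * j (b (k + 1)) by
        rw [mul_sub, sub_mul, ← map_mul, ← map_mul, e5, e4, star_mul, ← map_star,
          (hb.ps _).sa.star_eq]
        simp only [mul_assoc]]
    exact (norm_mul_le _ _).trans ((mul_le_of_le_one_right (norm_nonneg _) hB).trans
      ((norm_mul_le _ _).trans (mul_le_of_le_one_left (norm_nonneg _) hB)))
  rw [Real.sqrt_sq (by positivity)] at ht
  set R := y 1 * t' * b (k + 1) with hR
  have n7 : ‖star R * R - Z‖ ≤ η / 2 := by nlinarith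
  have n8 : ‖R‖ ≤ 2 := by
    have := norm_add_le (star R * R - Z) Z
    rw [sub_add_cancel, CStarRing.norm_star_mul_self] at this
    nlinarith [norm_nonneg R]
  refine ⟨R, n8, ?_, ?_⟩
  · rw [show z * R - R = (z * y 2 - y 2) * R by
      rw [sub_mul, mul_assoc z, hR, ← mul_assoc (y 2), ← mul_assoc (y 2), e2]]
    refine (norm_mul_le _ _).trans ?_
    nlinarith [norm_nonneg R, norm_nonneg (z * y 2 - y 2)]
  · linarith [norm_sub_le_norm_sub_add_norm_sub (star R * R) Z (b k * x * b k)]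

end Vale.Agent.P095.S
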