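import Vale.Agent.P095.S.Ideal
import Vale.Agent.P101.Spatial

/-! Excision without pure states. -/

open Filter Topology TopologicalSpace
open scoped BoundedContinuousFunction ComplexOrder Matrix Kronecker

namespace Vale.Agent.P095.S

open H P101

variable {A M D G : Type} [NonUnitalCStarAlgebra A] [CStarAlgebra M] [CStarAlgebra D] [Group G]
  {i : A →⋆ₙₐ[ℂ] M} {ω : Ultrafilter ℕ} {π : cenSeq i ω →⋆ₐ[ℂ] D} {α : G →* (M ≃⋆ₐ[ℂ] M)}
  {hα : Inv i α} {γ : G →* (D ≃⋆ₐ[ℂ] D)} {b : ℕ → M} {m : ℕ → ℝ}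

theorem exc_cmp {x x' : M} (sx : IsSelfAdjoint x) (sx' : IsSelfAdjoint x') (hx : ‖x‖ ≤ 1)
    (hx' : ‖x'‖ ≤ 1) {δ : ℝ} (h : ‖x' * x - x‖ ≤ δ) (u : M) :
    ‖x * u * x - x * (x' * u * x') * x‖ ≤ 2 * δ * ‖u‖ := by
  have h0 : 0 ≤ δ := (norm_nonneg _).trans h
  have h1 : ‖x * x' - x‖ ≤ δ := by
    rw [← norm_star, star_sub, star_mul, sx.star_eq, sx'.star_eq]
    exact h
  have h2 : ‖x * x'‖ ≤ 1 := (norm_mul_le _ _).trans (mul_le_one₀ hx (norm_nonneg _) hx')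
  have e : x * u * x - x * (x' * u * x') * x =
      -((x * x' - x) * u * x) - x * x' * u * (x' * x - x) := by noncomm_ring
  rw [e]
  refine (norm_sub_le _ _).trans ?_
  rw [norm_neg]
  have h3 : ‖(x * x' - x) * u * x‖ ≤ δ * ‖u‖ * 1 :=
    (norm_mul₃_le).trans (by gcongr)
  have h4 : ‖x * x' * u * (x' * x - x)‖ ≤ 1 * ‖u‖ * δ :=
    (norm_mul₃_le).trans (by gcongr)
  linarith

theorem exc_conj {x : M} (hx : ‖x‖ ≤ 1) (u : M) : ‖x * u * x‖ ≤ ‖u‖ := by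
  have h : ‖x * u * x‖ ≤ 1 * ‖u‖ * 1 := (norm_mul₃_le).trans (by gcongr)
  linarith

section Ord

variable [PartialOrder M] [StarOrderedRing M]

theorem exc_sq {a d x : M} (h0 : 0 ≤ a) (h1 : a ≤ 1) (hd : a ≤ d) (sx : IsSelfAdjoint x) :
    ‖a * x‖ ^ 2 ≤ ‖x * d * x‖ := by
  have h2 : a ^ 2 ≤ a ^ 1 := CStarAlgebra.pow_antitone h0 h1 one_le_two
  rw [pow_one, sq] at h2
  have h3 := star_left_conjugate_le_conjugate (h2.trans hd) x
  have e : star x * (a * a) * x = star (a * x) * (a * x) := by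
    rw [star_mul, (IsSelfAdjoint.of_nonneg h0).star_eq]
    noncomm_ring
  rw [e] at h3
  rw [sq, ← CStarRing.norm_star_mul_self]
  simpa only [sx.star_eq] using
    CStarAlgebra.norm_le_norm_of_nonneg_of_le (star_mul_self_nonneg _) h3

theorem exc_core {p w x : M} (sp : IsSelfAdjoint p) (hp : ‖p‖ ≤ 1) (sx : IsSelfAdjoint x)
    (hx : ‖x‖ ≤ 1) (sw : IsSelfAdjoint w) {l η : ℝ} (hl : 1 ≤ l) (hη : 0 ≤ η)
    (h1 : ‖p * w * p‖ ≤ l + η) (h2 : ‖x * (p * p * w * (p * p)) * x - l • (x * x)‖ ≤ η * l) :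
    ‖x * (1 - p * p) * x‖ ≤ 2 * η := by
  have hpp : ‖p * p‖ ≤ 1 := (norm_mul_le _ _).trans (mul_le_one₀ hp (norm_nonneg _) hp)
  have hP : 0 ≤ x * (p * p) * x := sx.conjugate_nonneg sp.mul_self_nonneg
  have h3 : x * (p * p * w * (p * p)) * x ≤ (l + η) • (x * (p * p) * x) := by
    have h4 := CStarAlgebra.star_left_conjugate_le_norm_smul (a := p * x) (b := p * w * p)
      (sw.conjugate_self sp)
    rw [star_mul, sp.star_eq, sx.star_eq] at h4
    have e1 : x * p * (p * w * p) * (p * x) = x * (p * p * w * (p * p)) * x := by noncomm_ring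
    have e2 : x * p * (p * x) = x * (p * p) * x := by noncomm_ring
    rw [e1, e2] at h4
    exact h4.trans (smul_le_smul_of_nonneg_right h1 hP)
  have h5 : l • (x * x) - x * (p * p * w * (p * p)) * x ≤ algebraMap ℝ M (η * l) := by
    have sa : IsSelfAdjoint (l • (x * x) - x * (p * p * w * (p * p)) * x) :=
      ((IsSelfAdjoint.all l).smul (.of_nonneg sx.mul_self_nonneg)).sub
        ((sw.conjugate_self (.of_nonneg sp.mul_self_nonneg)).conjugate_self sx)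
    refine sa.le_algebraMap_norm_self.trans ?_
    rw [norm_sub_rev] at h2
    rw [Algebra.algebraMap_eq_smul_one, Algebra.algebraMap_eq_smul_one]
    exact smul_le_smul_of_nonneg_right h2 zero_le_one
  have h6 : η • (x * (p * p) * x) ≤ algebraMap ℝ M η := by
    rw [Algebra.algebraMap_eq_smul_one]
    exact smul_le_smul_of_nonneg_left
      ((CStarAlgebra.norm_le_one_iff_of_nonneg _ hP).1 ((exc_conj hx _).trans hpp)) hη
  have h7 : 0 ≤ x * (1 - p * p) * x := sx.conjugate_nonneg (sub_nonneg.2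
    ((CStarAlgebra.norm_le_one_iff_of_nonneg _ sp.mul_self_nonneg).1 hpp))
  have h8 : l • (x * (1 - p * p) * x) ≤ algebraMap ℝ M (η * l + η) := by
    have e : l • (x * (1 - p * p) * x) = (l • (x * x) - (l + η) • (x * (p * p) * x)) +
        η • (x * (p * p) * x) := by
      rw [mul_sub, sub_mul, mul_one, smul_sub, add_smul]
      abel
    rw [e, map_add]
    exact add_le_add ((sub_le_sub_left h3 _).trans h5) h6
  have h9 := (CStarAlgebra.norm_le_iff_le_algebraMap _ (by positivity)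
    (smul_nonneg (by linarith) h7)).2 h8
  rw [norm_smul, Real.norm_of_nonneg (by linarith)] at h9
  refine le_of_mul_le_mul_left (h9.trans ?_) (by linarith : 0 < l)
  nlinarith

end Ord

/-- `r = ‖v‖ + 1`, `c k = ‖y ^ k (v + r) y ^ k‖ ≥ 1` decreases to `μ`; `c k ≤ μ + η`, `k ≥ 1`;
`z = y ^ (2k) (v + r) y ^ (2k)`, `x = g(z)` for a bump `g` on `[‖z‖ - η, ∞)`.
`(μ - η) x² ≤ x z x ≤ (μ + η) x y ^ (2k) x` gives `‖x (1 - y ^ (2k)) x‖ ≤ 2 η`, so
`‖(1 - y) x‖², ‖(1 - y ^ (2k)) x‖² ≤ 2 η`; `‖x z x - ‖z‖ x²‖ ≤ η`. -/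
theorem cut (hi : Function.Injective i) (hi' : IsIdl i) {y v : M} (hy : y ∈ Set.range i)
    (ps : Ps y) (h1 : ‖y‖ = 1) (sa : IsSelfAdjoint v) {ε : ℝ} (hε : 0 < ε) :
    ∃ x ∈ Set.range i, Ps x ∧ ‖x‖ = 1 ∧ ‖y * x - x‖ ≤ ε ∧
      ∃ μ : ℝ, ‖x * v * x - (μ : ℂ) • (x * x)‖ ≤ ε := by
  let _ := CStarAlgebra.spectralOrder M
  have := CStarAlgebra.spectralOrderedRing M
  have y0 : 0 ≤ y := ps_iff.1 ps
  have y1 : y ≤ 1 := (CStarAlgebra.norm_le_one_iff_of_nonneg _ y0).1 h1.le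
  obtain ⟨w, hw⟩ : ∃ w, w = v + algebraMap ℝ M (‖v‖ + 1) := ⟨_, rfl⟩
  have w1 : 1 ≤ w := by
    have h := sa.neg.le_algebraMap_norm_self
    rw [norm_neg, neg_le_iff_add_nonneg'] at h
    rw [hw, map_add, map_one, ← add_assoc]
    exact le_add_of_nonneg_left h
  have sw : IsSelfAdjoint w := .of_nonneg (zero_le_one.trans w1)
  have hn : ∀ k, ‖y ^ 2 ^ k‖ = 1 := fun k => by rw [ps.sa.norm_pow_two_pow, h1, one_pow]
  have hsq : ∀ k, y ^ 2 ^ (k + 1) = y ^ 2 ^ k * y ^ 2 ^ k := fun k => by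
    rw [pow_succ, pow_mul, sq]
  have hW : 0 < 3 * (‖w‖ + 1) := by positivity
  obtain ⟨δ, hδ, hδ1, hδ2⟩ : ∃ δ : ℝ, 0 < δ ∧ δ ≤ 1 ∧ 3 * (‖w‖ + 1) * δ ≤ ε :=
    ⟨min 1 (ε / (3 * (‖w‖ + 1))), lt_min one_pos (by positivity), min_le_left _ _, by
      rw [← le_div_iff₀' hW]
      exact min_le_right _ _⟩
  have hη : 0 < δ ^ 2 / 2 := by positivity
  obtain ⟨k, hk⟩ := exists_lt_of_ciInf_lt (f := fun k : ℕ => ‖y ^ 2 ^ k * w * y ^ 2 ^ k‖)
    (lt_add_of_pos_right _ hη)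
  have hk' : ‖y ^ 2 ^ k * w * y ^ 2 ^ k‖ ≤ ‖y ^ 2 ^ (k + 1) * w * y ^ 2 ^ (k + 1)‖ + δ ^ 2 / 2 :=
    hk.le.trans (add_le_add_left (ciInf_le (f := fun k : ℕ => ‖y ^ 2 ^ k * w * y ^ 2 ^ k‖)
      ⟨0, by rintro _ ⟨_, rfl⟩; exact norm_nonneg _⟩ (k + 1)) _)
  have hq0 : 0 ≤ y ^ 2 ^ (k + 1) := CStarAlgebra.pow_nonneg y0 _
  have hqy : y ^ 2 ^ (k + 1) ≤ y := by
    simpa only [pow_one] using CStarAlgebra.pow_antitone y0 y1 (Nat.one_le_two_pow (n := k + 1))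
  have hqi : y ^ 2 ^ (k + 1) ∈ Set.range i := by
    rw [← Nat.sub_add_cancel (Nat.one_le_two_pow (n := k + 1)), pow_succ]
    exact mul_mem_left hi' _ hy
  have hp1 := hn k
  have hq1 := hn (k + 1)
  have hqq := hn (k + 2)
  have sp : IsSelfAdjoint (y ^ 2 ^ k) := ps.sa.pow _
  rw [hsq (k + 1)] at hqq
  rw [hsq k] at hk' hq0 hqy hqi hq1 hqq
  generalize y ^ 2 ^ k = p at hk' hq0 hqy hqi hp1 hq1 hqq sp
  have sq' : IsSelfAdjoint (p * p) := .of_nonneg hq0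
  obtain ⟨z, hz⟩ : ∃ z, z = p * p * w * (p * p) := ⟨_, rfl⟩
  have z0 : 0 ≤ z := hz ▸ sq'.conjugate_nonneg (zero_le_one.trans w1)
  have z1 : 1 ≤ ‖z‖ := by
    have h := sq'.conjugate_le_conjugate w1
    rw [mul_one, ← hz] at h
    exact hqq ▸ CStarAlgebra.norm_le_norm_of_nonneg_of_le sq'.mul_self_nonneg h
  have zw : ‖z‖ ≤ ‖w‖ := hz ▸ exc_conj hq1.le w
  have zn : ‖z‖ ≠ 0 := by positivity
  obtain ⟨t, ht, -, -, ht'⟩ := exists_plateau hi hi' (z := ‖z‖⁻¹ • z)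
    (by
      rw [← smul_one_mul]
      exact mul_mem_left hi' _ (hz ▸ mul_mem_left hi' _ hqi))
    (ps_iff.2 (smul_nonneg (by positivity) z0))
    (by rw [norm_smul, norm_inv, norm_norm, inv_mul_cancel₀ zn]) hη
  obtain ⟨xi, xp, x1⟩ := ht 2
  generalize t 2 = x at xi xp x1 ht'
  have h2 : ‖x * z * x - ‖z‖ • (x * x)‖ ≤ δ ^ 2 / 2 * ‖z‖ := by
    have e : x * z * x - ‖z‖ • (x * x) = ‖z‖ • (x * (‖z‖⁻¹ • z * x - x)) := by
      rw [mul_sub, smul_mul_assoc, mul_smul_comm, smul_sub, smul_inv_smul₀ zn, mul_assoc]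
    rw [e, norm_smul, norm_norm, mul_comm]
    refine mul_le_mul_of_nonneg_right ((norm_mul_le _ _).trans ?_) (norm_nonneg _)
    rwa [x1, one_mul]
  have h3 := exc_core sp hp1.le xp.sa x1.le sw z1 hη.le (hz ▸ hk') (hz ▸ h2)
  have h4 : ∀ a : M, 0 ≤ a → a ≤ y → p * p ≤ a → ‖a * x - x‖ ≤ δ := fun a a0 a1 a2 => by
    have h := exc_sq (sub_nonneg.2 (a1.trans y1)) (sub_le_self _ a0) (sub_le_sub_left a2 1) xp.sa
    rw [sub_mul, one_mul, norm_sub_rev] at h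
    exact (abs_le_of_sq_le_sq' (by linarith) hδ.le).2
  have h5 := exc_cmp xp.sa sq' x1.le hq1.le (h4 _ hq0 hqy le_rfl) w
  have hw0 := norm_nonneg w
  refine ⟨x, xi, xp, x1, (h4 y y0 le_rfl hqy).trans (by nlinarith), ‖z‖ - (‖v‖ + 1), ?_⟩
  have e : x * v * x - ((‖z‖ - (‖v‖ + 1) : ℝ) : ℂ) • (x * x) =
      (x * w * x - x * z * x) + (x * z * x - ‖z‖ • (x * x)) := by
    rw [hw, Complex.coe_smul, Algebra.algebraMap_eq_smul_one, mul_add, add_mul, mul_smul_comm,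
      smul_mul_assoc, mul_one, sub_smul]
    abel
  rw [e]
  refine (norm_add_le _ _).trans ((add_le_add (hz ▸ h5) h2).trans ?_)
  have h6 : δ ^ 2 / 2 * ‖z‖ ≤ δ * ‖w‖ :=
    mul_le_mul (by nlinarith) zw (norm_nonneg _) hδ.le
  nlinarith

theorem exc_lim (ψ : ℕ → M →L[ℂ] ℂ) (h : ∀ k, ‖ψ k‖ ≤ 1) : ∃ f : M →L[ℂ] ℂ,
    ∀ u, Tendsto (fun k => ψ k u) (hyperfilter ℕ) (𝓝 (f u)) := by
  obtain ⟨f, -, hf⟩ := (WeakDual.isCompact_closedBall (0 : StrongDual ℂ M) 1).ultrafilter_le_nhds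
    ((hyperfilter ℕ).map fun k => StrongDual.toWeakDual (ψ k)) (by
      rw [Ultrafilter.coe_map, le_principal_iff, mem_map]
      exact Eventually.of_forall fun k => mem_closedBall_zero_iff.2 (h k))
  exact ⟨WeakDual.toStrongDual f, fun u => ((WeakDual.eval_continuous u).tendsto f).comp hf⟩

theorem exc_state {x : M} (sx : IsSelfAdjoint x) (hx : ‖x‖ = 1) : ∃ φ : M →L[ℂ] ℂ,
    PosF φ ∧ φ 1 = 1 ∧ ∀ u, ‖φ u‖ ≤ ‖x * u * x‖ := by
  let _ := CStarAlgebra.spectralOrder M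
  have := CStarAlgebra.spectralOrderedRing M
  obtain ⟨ψ, h1, h2, h3⟩ := spa_state sx.mul_self_nonneg
  refine ⟨ψ ∘L ContinuousLinearMap.mulLeftRight ℂ M x x, fun u => ?_, ?_, fun u => h1 _⟩
  · exact h2 _ (sx.conjugate_nonneg (star_mul_self_nonneg u))
  · have h4 := h1 (x * x)
    have h5 := Complex.nonneg_iff.1 (h2 _ sx.mul_self_nonneg)
    have h6 := Complex.re_le_norm (ψ (x * x))
    rw [sx.norm_mul_self, hx, one_pow] at h3 h4
    change ψ (x * 1 * x) = 1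
    rw [mul_one]
    exact Complex.ext (le_antisymm (h6.trans h4) h3) h5.2.symm

theorem exc_seq [Nontrivial A] (hi : Function.Injective i) (hi' : IsIdl i) (v : ℕ → M)
    (hv : ∀ n, IsSelfAdjoint (v n)) : ∃ x : ℕ → M,
      (∀ n, x n ∈ Set.range i ∧ Ps (x n) ∧ ‖x n‖ = 1) ∧
      (∀ n k, n < k → ‖x n * x k - x k‖ ≤ (1 / 2) ^ (n + 1)) ∧
      ∀ n, ∃ μ : ℝ, ‖x (n + 1) * v n * x (n + 1) - (μ : ℂ) • (x (n + 1) * x (n + 1))‖ ≤
        (1 / 2) ^ (n + 3) := by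
  obtain ⟨a, ha⟩ := exists_ne (0 : A)
  have h0 : ‖i (star a * a)‖ ≠ 0 := by
    rw [norm_ne_zero_iff, map_ne_zero_iff _ hi, CStarRing.star_mul_self_ne_zero_iff]
    exact ha
  let S := {x : M // x ∈ Set.range i ∧ Ps x ∧ ‖x‖ = 1}
  let x₀ : S := ⟨((‖i (star a * a)‖⁻¹ : ℝ) : ℂ) • i (star a * a), ⟨_, map_smul i _ _⟩,
    Ps.smul ⟨i a, by rw [map_mul, map_star]⟩ (by positivity), by
      rw [norm_smul, Complex.norm_real, norm_inv, norm_norm, inv_mul_cancel₀ h0]⟩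
  have h1 : ∀ (n : ℕ) (y : S), ∃ x : S, ‖y.1 * x.1 - x.1‖ ≤ (1 / 2) ^ (n + 3) ∧
      ∃ μ : ℝ, ‖x.1 * v n * x.1 - (μ : ℂ) • (x.1 * x.1)‖ ≤ (1 / 2) ^ (n + 3) := fun n y => by
    obtain ⟨x, h2, h3, h4, h5⟩ := cut hi hi' y.2.1 y.2.2.1 y.2.2.2 (hv n)
      (ε := (1 / 2) ^ (n + 3)) (by positivity)
    exact ⟨⟨x, h2, h3, h4⟩, h5⟩
  choose nx h2 h3 using h1
  let x : ℕ → S := fun n => Nat.rec x₀ nx n
  refine ⟨fun n => (x n).1, fun n => (x n).2, fun n k hk => ?_, fun n => h3 n (x n)⟩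
  suffices h : ‖(x n).1 * (x k).1 - (x k).1‖ ≤ (1 / 2) ^ (n + 1) - (1 / 2) ^ (k + 1) from
    h.trans (sub_le_self _ (by positivity))
  induction k, hk using Nat.le_induction with
  | base =>
    refine (h2 n (x n)).trans ?_
    have : (0 : ℝ) ≤ (1 / 2) ^ n := by positivity
    simp only [pow_succ, Nat.succ_eq_add_one]
    linarith
  | succ k hk ih =>
    have h4 : ‖(x k).1 * (x (k + 1)).1 - (x (k + 1)).1‖ ≤ (1 / 2) ^ (k + 3) := h2 k (x k)
    have e : (x n).1 * (x (k + 1)).1 - (x (k + 1)).1 =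
        ((x n).1 * (x k).1 - (x k).1) * (x (k + 1)).1 +
          (((x k).1 * (x (k + 1)).1 - (x (k + 1)).1) -
            (x n).1 * ((x k).1 * (x (k + 1)).1 - (x (k + 1)).1)) := by noncomm_ring
    have h5 := norm_mul_le ((x n).1 * (x k).1 - (x k).1) (x (k + 1)).1
    have h6 := norm_mul_le (x n).1 ((x k).1 * (x (k + 1)).1 - (x (k + 1)).1)
    rw [(x (k + 1)).2.2.2, mul_one] at h5
    rw [(x n).2.2.2, one_mul] at h6
    rw [e]
    refine (norm_add_le _ _).trans ((add_le_add_right (norm_sub_le _ _) _).trans ?_)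
    simp only [pow_succ] at ih h4 ⊢
    linarith

/-- Enumerate with infinite repetition the real and imaginary parts `v n` of a dense sequence;
`x (n+1) = cut (x n) (v n) (4⁻ⁿ/16)`; `‖x n x k - x k‖ ≤ 4⁻ⁿ / 8` for `k > n`; states `ψ k` with
`ψ k (x k) = 1` (`P101.spa_state` for `x k`, or for `1 + x k`), so `ψ k (x k u x k) = ψ k u`
(Cauchy-Schwarz); `f` = limit along `hyperfilter ℕ`; `|μ n| ≤ ‖v n‖ + 1`. -/
theorem exists_exc [SeparableSpace A] [Nontrivial A] (hi : Function.Injective i) (hi' : IsIdl i) :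
    ∃ f, Exc i f := by
  have : SecondCountableTopology A := UniformSpace.secondCountable_of_separable A
  obtain ⟨s, hs⟩ := exists_dense_seq (selfAdjoint A)
  have hv : ∀ a : selfAdjoint A, IsSelfAdjoint (i a) := fun a => a.2.map i
  obtain ⟨x, hx, hn, hc⟩ := exc_seq hi hi' (fun n => i (s n.unpair.1)) fun _ => hv _
  choose φ p1 p2 p3 using fun k => exc_state (hx k).2.1.sa (hx k).2.2
  have p4 : ∀ k u, ‖φ k u‖ ≤ ‖u‖ := fun k u => (p3 k u).trans (exc_conj (hx k).2.2.le u)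
  obtain ⟨f, hf⟩ := exc_lim φ fun k =>
    (φ k).opNorm_le_bound zero_le_one fun u => by simpa using p4 k u
  have hle : ∀ (u : M) (c : ℝ) (n : ℕ), (∀ k, n < k → ‖φ k u‖ ≤ c) → ‖f u‖ ≤ c := fun u c n h =>
    le_of_tendsto (hf u).norm (((eventually_gt_atTop n).filter_mono
      (Nat.hyperfilter_le_atTop)).mono h)
  have f1 : f 1 = 1 := tendsto_nhds_unique (hf 1) (by simpa only [p2] using tendsto_const_nhds)
  have hxx : ∀ k, ‖x k * x k‖ = 1 := fun k => by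
    rw [(hx k).2.1.sa.norm_mul_self, (hx k).2.2, one_pow]
  have hT : ∀ (u : M) (c : ℝ) (n : ℕ), (∀ k, n < k → ‖x k * u * x k‖ ≤ c) →
      ∀ k, n < k → ‖x k * u * x k - f u • (x k * x k)‖ ≤ 2 * c := fun u c n h k hk => by
    have h1 := hle u c n fun k hk => (p3 k u).trans (h k hk)
    refine (norm_sub_le _ _).trans ?_
    rw [norm_smul, hxx]
    linarith [h k hk]
  have key : ∀ a : selfAdjoint A, ∀ ε > (0 : ℝ), ∀ᶠ k in atTop,
      ‖x k * i a * x k - f (i a) • (x k * x k)‖ ≤ ε := fun a ε hε => by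
    obtain ⟨t, ht⟩ := hs.exists_dist_lt a (show 0 < ε / 4 by positivity)
    have h1 : Tendsto (fun N : ℕ => (1 / 2 : ℝ) ^ N * (2 + ‖i (s t)‖)) atTop (𝓝 0) := by
      simpa using (tendsto_pow_atTop_nhds_zero_of_lt_one (r := (1 / 2 : ℝ)) (by norm_num)
        (by norm_num)).mul_const (2 + ‖i (s t)‖)
    obtain ⟨N, hN⟩ := (h1.eventually (gt_mem_nhds (show 0 < ε / 4 by positivity))).exists
    obtain ⟨μ, hμ⟩ := hc (Nat.pair t N)
    have h2 : (1 / 2 : ℝ) ^ Nat.pair t N ≤ (1 / 2) ^ N :=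
      pow_le_pow_of_le_one (by norm_num) (by norm_num) (Nat.right_le_pair t N)
    have h3 : (1 / 2 : ℝ) ^ Nat.pair t N ≤ 1 := pow_le_one₀ (by norm_num) (by norm_num)
    have h3' : (0 : ℝ) ≤ (1 / 2 : ℝ) ^ Nat.pair t N := by positivity
    simp only [Nat.unpair_pair] at hμ
    generalize Nat.pair t N = n at hμ h2 h3 h3'
    have e : ∀ k, x k * (i (s t) - (μ : ℂ) • 1) * x k =
        x k * i (s t) * x k - (μ : ℂ) • (x k * x k) := fun k => by
      rw [mul_sub, sub_mul, mul_smul_comm, smul_mul_assoc, mul_one]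
    have h4 : ‖i (s t) - (μ : ℂ) • (1 : M)‖ ≤ 2 * ‖i (s t)‖ + 1 := by
      have h5 := norm_sub_norm_le ((μ : ℂ) • (x (n + 1) * x (n + 1)))
        (x (n + 1) * i (s t) * x (n + 1))
      have h6 := exc_conj (hx (n + 1)).2.2.le (i (s t))
      have h7 : ‖(μ : ℂ) • (1 : M)‖ ≤ ‖(μ : ℂ)‖ := by
        rw [norm_smul]
        exact mul_le_of_le_one_right (norm_nonneg _) (norm_le_of_unitary (one_mem _))
      rw [norm_sub_rev, norm_smul, hxx] at h5
      simp only [pow_succ] at hμ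
      linarith [norm_sub_le (i (s t)) ((μ : ℂ) • (1 : M))]
    have h8 := hT (i (s t) - (μ : ℂ) • 1) (ε / 4) (n + 1) fun k hk => by
      have h5 := exc_cmp (hx k).2.1.sa (hx (n + 1)).2.1.sa (hx k).2.2.le (hx (n + 1)).2.2.le
        (hn (n + 1) k hk) (i (s t) - (μ : ℂ) • 1)
      have h6 := exc_conj (hx k).2.2.le (x (n + 1) * (i (s t) - (μ : ℂ) • 1) * x (n + 1))
      have h7 := norm_sub_norm_le (x k * (i (s t) - (μ : ℂ) • 1) * x k)
        (x k * (x (n + 1) * (i (s t) - (μ : ℂ) • 1) * x (n + 1)) * x k)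
      rw [← e] at hμ
      simp only [pow_succ] at hμ h5
      have h9 := mul_le_mul_of_nonneg_left h4 h3'
      have h10 := mul_le_mul_of_nonneg_right h2 (show 0 ≤ 2 + ‖i (s t)‖ by positivity)
      have h11 := mul_nonneg h3' (norm_nonneg (i (s t)))
      linarith
    have h9 := hT (i a - i (s t)) (ε / 4) 0 fun k _ => (exc_conj (hx k).2.2.le _).trans (by
      rw [← map_sub]
      exact (NonUnitalStarAlgHom.norm_apply_le i _).trans ((dist_eq_norm _ _).ge.trans ht.le))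
    filter_upwards [eventually_gt_atTop (n + 1)] with k hk
    have e' : x k * i a * x k - f (i a) • (x k * x k) =
        (x k * (i a - i (s t)) * x k - f (i a - i (s t)) • (x k * x k)) +
          (x k * (i (s t) - (μ : ℂ) • 1) * x k - f (i (s t) - (μ : ℂ) • 1) • (x k * x k)) := by
      rw [e, map_sub, map_sub, map_smul, f1, smul_eq_mul, mul_one, mul_sub, sub_mul, sub_smul,
        sub_smul]
      abel
    rw [e']
    linarith [norm_add_le (x k * (i a - i (s t)) * x k - f (i a - i (s t)) • (x k * x k))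
      (x k * (i (s t) - (μ : ℂ) • 1) * x k - f (i (s t) - (μ : ℂ) • 1) • (x k * x k)),
      h8 k hk, h9 k (by omega)]
  refine ⟨f, fun u => ge_of_tendsto' (hf _) fun k => p1 k u, ?_, fun F ε hε => ?_⟩
  · obtain ⟨a, ha⟩ := (hx 0).1
    refine ⟨a, fun h => ?_⟩
    have h1 := hle (x 0 - 1) (1 / 2) 0 fun k hk => (p3 k _).trans (by
      rw [mul_assoc, sub_mul, one_mul]
      refine (norm_mul_le _ _).trans ?_
      rw [(hx k).2.2, one_mul]
      simpa using hn 0 k hk)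
    rw [map_sub, ← ha, h, f1] at h1
    norm_num at h1
  · have h1 : ∀ a : A, ∀ᶠ k in atTop, ‖x k * i a * x k - f (i a) • (x k * x k)‖ ≤ ε := fun a => by
      filter_upwards [key (realPart a) _ (half_pos hε), key (imaginaryPart a) _ (half_pos hε)]
        with k h2 h3
      have e : x k * i a * x k - f (i a) • (x k * x k) =
          (x k * i (realPart a) * x k - f (i (realPart a)) • (x k * x k)) + Complex.I •
            (x k * i (imaginaryPart a) * x k - f (i (imaginaryPart a)) • (x k * x k)) := by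
        conv_lhs => rw [← realPart_add_I_smul_imaginaryPart a]
        rw [map_add, map_smul, map_add, map_smul, mul_add, add_mul, mul_smul_comm, smul_mul_assoc,
          add_smul, smul_sub, smul_assoc]
        abel
      rw [e]
      refine (norm_add_le _ _).trans ?_
      rw [norm_smul, Complex.norm_I]
      linarith
    obtain ⟨k, hk⟩ := ((eventually_all_finset F).2 fun a _ => h1 a).exists
    exact ⟨x k, (hx k).1, (hx k).2.1, (hx k).2.2, hk⟩

end Vale.Agent.P095.S
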