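import Vale.Agent.P095.S.Sat

/-! Outer elements. -/

open Filter Topology TopologicalSpace
open scoped BoundedContinuousFunction ComplexOrder Matrix Kronecker

namespace Vale.Agent.P095.S

open H P101

variable {A M D G : Type} [NonUnitalCStarAlgebra A] [CStarAlgebra M] [CStarAlgebra D] [Group G]
  {i : A →⋆ₙₐ[ℂ] M} {ω : Ultrafilter ℕ} {π : cenSeq i ω →⋆ₐ[ℂ] D} {α : G →* (M ≃⋆ₐ[ℂ] M)}
  {hα : Inv i α} {γ : G →* (D ≃⋆ₐ[ℂ] D)} {b : ℕ → M} {m : ℕ → ℝ}

theorem out_cut {E : Type} [CStarAlgebra E] {d : E} (sa : IsSelfAdjoint d) {t : ℝ} (ht : 0 < t)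
    (hs : t ∈ spectrum ℝ d) :
    ∃ a : E, a ≠ 0 ∧ Ps (star a * (d - ((t / 2 : ℝ) : ℂ) • (1 : E)) * a) := by
  let _ := CStarAlgebra.spectralOrder E
  have _ := CStarAlgebra.spectralOrderedRing E
  let f : ℝ → ℝ := fun s => max (s - t / 2) 0
  have hf : Continuous f := by fun_prop
  refine ⟨cfc f d, fun h0 => ?_, ps_iff.2 ?_⟩
  · have e := norm_apply_le_norm_cfc f d hs
    rw [h0, norm_zero, norm_le_zero_iff] at e
    have e2 : t - t / 2 ≤ f t := le_max_left _ _
    linarith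
  · have e : star (cfc f d) * (d - ((t / 2 : ℝ) : ℂ) • (1 : E)) * cfc f d
        = cfc (fun s => f s * (s - t / 2) * f s) d := by
      rw [cfc_mul _ _ d, cfc_mul _ _ d, cfc_sub _ _ d, cfc_id' ℝ d, cfc_const _ d,
        (cfc_predicate f d).star_eq, Algebra.algebraMap_eq_smul_one, Complex.coe_smul]
    rw [e]
    refine cfc_nonneg fun s _ => ?_
    rcases le_total (s - t / 2) 0 with h | h
    · simp [f, max_eq_right h]
    · have : 0 ≤ f s := le_max_right _ _
      positivity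

theorem out_sa {E : Type} [CStarAlgebra E] (φ : E ≃⋆ₐ[ℂ] E) {e : E} (he : φ e ≠ e) :
    ∃ y : E, IsSelfAdjoint y ∧ ‖y‖ ≤ 1 ∧ ∃ c : ℝ, 0 < c ∧ ∃ a : E, a ≠ 0 ∧
      Ps (star a * (y - φ y - (c : ℂ) • (1 : E)) * a) := by
  have _ : Nontrivial E := ⟨_, _, he⟩
  obtain ⟨z, sa, hz⟩ : ∃ z : E, IsSelfAdjoint z ∧ φ z ≠ z := by
    by_contra! H
    apply he
    rw [← realPart_add_I_smul_imaginaryPart e, map_add, map_smul, H _ (realPart e).2,
      H _ (imaginaryPart e).2]
  have z0 : z ≠ 0 := by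
    rintro rfl
    exact hz (map_zero φ)
  have n0 : ‖z‖ ≠ 0 := norm_ne_zero_iff.2 z0
  obtain ⟨y, sy, ny, hy⟩ : ∃ y : E, IsSelfAdjoint y ∧ ‖y‖ ≤ 1 ∧ y - φ y ≠ 0 := by
    refine ⟨((‖z‖⁻¹ : ℝ) : ℂ) • z, ?_, ?_, ?_⟩
    · rw [Complex.coe_smul]
      exact (IsSelfAdjoint.all _).smul sa
    · rw [norm_smul, Complex.norm_real, norm_inv, norm_norm, inv_mul_cancel₀ n0]
    · rw [map_smul, ← smul_sub]
      exact smul_ne_zero (by simpa using z0) (sub_ne_zero.2 hz.symm)
  have sd : IsSelfAdjoint (y - φ y) := sy.sub (sy.map φ)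
  rcases CStarAlgebra.norm_or_neg_norm_mem_spectrum sd with h | h
  · obtain ⟨a, a0, ha⟩ := out_cut sd (norm_pos_iff.2 hy) h
    exact ⟨y, sy, ny, _, half_pos (norm_pos_iff.2 hy), a, a0, ha⟩
  · have h' : ‖y - φ y‖ ∈ spectrum ℝ (-(y - φ y)) := by
      rw [← spectrum.neg_eq]
      exact h
    obtain ⟨a, a0, ha⟩ := out_cut sd.neg (norm_pos_iff.2 hy) h'
    refine ⟨-y, sy.neg, by rwa [norm_neg], _, half_pos (norm_pos_iff.2 hy), a, a0, ?_⟩
    rwa [map_neg, ← neg_sub']

/-- sums of independent copies of `y` almost commute with their translates -/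
theorem outer_approx (h : CP γ) {g : G} (hg : γ g ≠ 1) : ∃ δ > 0, ∀ ε > 0, ∃ Y : D,
    IsSelfAdjoint Y ∧ ‖Y‖ ≤ 1 ∧ ‖Y * γ g Y - γ g Y * Y‖ ≤ ε ∧ δ ≤ ‖Y - γ g Y‖ := by
  obtain ⟨x, hx⟩ : ∃ x, γ g x ≠ x := by
    by_contra! H
    exact hg (StarAlgEquiv.ext H)
  have _ : Nontrivial D := ⟨_, _, hx⟩
  obtain ⟨E, _, δ, e, ψ, -, he, hψ, H⟩ := h x
  obtain ⟨y, sy, ny, c, c0, a, a0, ha⟩ := out_sa (δ g) (e := e) fun h' => hx (by
    rw [← he, ← hψ, h'])
  have key : ∀ n : ℕ, ∃ Z w : D, IsSelfAdjoint Z ∧ ‖Z‖ ≤ n ∧ ‖Z * γ g Z - γ g Z * Z‖ ≤ 2 * n ∧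
      w ≠ 0 ∧ Ps (star w * (Z - γ g Z - ((n * c : ℝ) : ℂ) • (1 : D)) * w) := by
    intro n
    induction n with
    | zero => exact ⟨0, 1, .zero D, by simp, by simp, one_ne_zero, by simpa using Ps.zero⟩
    | succ n ih =>
      obtain ⟨Z, w, sZ, nZ, cZ, w0, hw⟩ := ih
      obtain ⟨σ, h1, h2, h3⟩ := H {Z, γ g Z, w} (Set.toFinite _).countable w a
      have n1 : ‖σ y‖ ≤ 1 := (NonUnitalStarAlgHom.norm_apply_le σ y).trans ny
      have n2 : ‖γ g (σ y)‖ ≤ 1 := by rwa [StarAlgEquiv.norm_map]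
      refine ⟨Z + σ y, w * σ a, sZ.add (sy.map σ), ?_, ?_, fun h0 => ?_, ?_⟩
      · push_cast
        linarith [norm_add_le Z (σ y)]
      · have c1 : σ y * γ g Z = γ g Z * σ y := h2 y _ (by simp)
        have c2 : γ g (σ y) * Z = Z * γ g (σ y) := h1 g y ▸ h2 _ _ (by simp)
        have e1 : (Z + σ y) * γ g (Z + σ y) - γ g (Z + σ y) * (Z + σ y) =
            (Z * γ g Z - γ g Z * Z) + (σ y * γ g (σ y) - γ g (σ y) * σ y) := by
          rw [map_add, add_mul, add_mul, mul_add, mul_add, mul_add, mul_add, c1, c2]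
          abel
        have b1 := (norm_mul_le _ _).trans (mul_le_one₀ n1 (norm_nonneg _) n2)
        have b2 := (norm_mul_le _ _).trans (mul_le_one₀ n2 (norm_nonneg _) n1)
        rw [e1]
        push_cast
        linarith [norm_add_le (Z * γ g Z - γ g Z * Z) (σ y * γ g (σ y) - γ g (σ y) * σ y),
          norm_sub_le (σ y * γ g (σ y)) (γ g (σ y) * σ y)]
      · rw [h0, norm_zero] at h3
        exact absurd h3 (not_le.2 (mul_pos (norm_pos_iff.2 w0) (norm_pos_iff.2 a0)))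
      · have p1 := hw.conj (σ a)
        have p2 := (ha.map σ).conj w
        have c1 : w * σ a = σ a * w := (h2 a w (by simp)).eq.symm
        simp only [map_mul, map_sub, map_star, map_smul, map_one, h1] at p2
        have e1 : star (w * σ a) * (Z + σ y - γ g (Z + σ y) - ((((n + 1 : ℕ) : ℝ) * c : ℝ) : ℂ) •
            (1 : D)) * (w * σ a) = star (w * σ a) * (Z - γ g Z - ((n * c : ℝ) : ℂ) • (1 : D)) *
              (w * σ a) + star (σ a * w) * (σ y - γ g (σ y) - (c : ℂ) • (1 : D)) * (σ a * w) := by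
          rw [← c1, ← add_mul, ← mul_add, map_add]
          congr 2
          push_cast
          module
        rw [e1]
        simpa only [star_mul, mul_assoc] using p1.add p2
  refine ⟨c, c0, fun ε ε0 => ?_⟩
  obtain ⟨n, hn⟩ := exists_nat_gt (2 / ε)
  have n0 : (0 : ℝ) < n := (div_pos two_pos ε0).trans hn
  obtain ⟨Z, w, sZ, nZ, cZ, w0, hw⟩ := key n
  have hi : ‖(((n : ℝ)⁻¹ : ℝ) : ℂ)‖ = (n : ℝ)⁻¹ := by
    rw [Complex.norm_real, Real.norm_of_nonneg (inv_nonneg.2 n0.le)]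
  refine ⟨(((n : ℝ)⁻¹ : ℝ) : ℂ) • Z, ?_, ?_, ?_, ?_⟩
  · rw [Complex.coe_smul]
    exact (IsSelfAdjoint.all _).smul sZ
  · rw [norm_smul, hi, inv_mul_le_iff₀ n0, mul_one]
    exact nZ
  · rw [map_smul, smul_mul_smul_comm, smul_mul_smul_comm, ← smul_sub, norm_smul, norm_mul, hi,
      mul_assoc, inv_mul_le_iff₀ n0, inv_mul_le_iff₀ n0]
    rw [div_lt_iff₀ ε0] at hn
    nlinarith
  · rw [map_smul, ← smul_sub, norm_smul, hi, le_inv_mul_iff₀ n0]
    rw [mul_sub, sub_mul, mul_smul_comm, smul_mul_assoc, mul_one] at hw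
    have e1 := ((Ps.sq w).smul (mul_pos n0 c0).le).norm_le hw
    rw [norm_smul, Complex.norm_real, Real.norm_of_nonneg (mul_pos n0 c0).le,
      CStarRing.norm_star_mul_self] at e1
    have e2 := e1.trans (norm_mul₃_le)
    rw [norm_star] at e2
    have w1 := norm_pos_iff.2 w0
    exact le_of_mul_le_mul_right (by linarith) (mul_pos w1 w1)

/-- `N = Y + i Y'` is normal, `x = f(Y) k(Y')` with `k f = 0` -/
theorem outer_exact (φ : D ≃⋆ₐ[ℂ] D) {Y : D} (sa : IsSelfAdjoint Y) (hc : Commute Y (φ Y))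
    (hne : φ Y ≠ Y) : ∃ x : D, Ps x ∧ x ≠ 0 ∧ x * φ x = 0 := by
  let _ := CStarAlgebra.spectralOrder D
  have _ := CStarAlgebra.spectralOrderedRing D
  have sa' := sa.map φ
  have hre : (realPart (Y + Complex.I • φ Y) : D) = Y := by
    simp [sa.coe_realPart, sa'.imaginaryPart]
  have him : (imaginaryPart (Y + Complex.I • φ Y) : D) = φ Y := by
    simp [sa'.coe_realPart, sa.imaginaryPart]
  have hN : IsStarNormal (Y + Complex.I • φ Y) := by
    constructor
    rw [star_add, star_smul, sa.star_eq, sa'.star_eq]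
    exact ((Commute.refl Y).add_right (hc.smul_right _)).add_left
      ((hc.symm.smul_left _).add_right (((Commute.refl _).smul_left _).smul_right _))
  obtain ⟨z, hz, hz'⟩ : ∃ z ∈ spectrum ℂ (Y + Complex.I • φ Y), z.re ≠ z.im := by
    by_contra! H
    apply hne
    rw [← him, ← cfc_im_id _ hN, eq_comm]
    refine hre.symm.trans ((cfc_re_id _ hN).symm.trans (cfc_congr fun z hz => ?_))
    simp only [H z hz]
  let f : ℝ → ℝ := fun t => max ((z.re - z.im) * (t - (z.re + z.im) / 2)) 0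
  let k : ℝ → ℝ := fun t => max ((z.re - z.im) * ((z.re + z.im) / 2 - t)) 0
  have hf : Continuous f := by fun_prop
  have hk : Continuous k := by fun_prop
  have hφ : Continuous (φ : D →⋆ₐ[ℂ] D) := (StarAlgEquiv.isometry φ).continuous
  refine ⟨cfc f Y * cfc k (φ Y), ?_, fun h0 => ?_, ?_⟩
  · exact (ps_iff.2 (cfc_nonneg fun t _ => le_max_right _ _)).mul
      (ps_iff.2 (cfc_nonneg fun t _ => le_max_right _ _)) ((hc.cfc_real f).symm.cfc_real k).symm
  · have e1 := cfc_comp_re f _ hf.continuousOn hN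
    have e2 := cfc_comp_im k _ hk.continuousOn hN
    rw [hre] at e1
    rw [him] at e2
    rw [← e1, ← e2, ← cfc_mul _ _ _ (by fun_prop) (by fun_prop)] at h0
    have e3 := norm_apply_le_norm_cfc (fun x : ℂ => (f x.re : ℂ) * (k x.im : ℂ)) _ hz
      (by fun_prop) hN
    rw [h0, norm_zero, norm_le_zero_iff, ← Complex.ofReal_mul, Complex.ofReal_eq_zero] at e3
    have p := mul_self_pos.2 (sub_ne_zero.2 hz')
    have p1 : 0 < f z.re := lt_max_of_lt_left (by linarith)
    have p2 : 0 < k z.im := lt_max_of_lt_left (by linarith)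
    exact (mul_pos p1 p2).ne' e3
  · have e1 : φ (cfc f Y) = cfc f (φ Y) :=
      (φ : D →⋆ₐ[ℂ] D).map_cfc f Y hf.continuousOn hφ sa sa'
    have e2 : cfc k (φ Y) * cfc f (φ Y) = 0 := by
      rw [← cfc_mul _ _ _ hk.continuousOn hf.continuousOn, ← cfc_const_zero ℝ (φ Y)]
      refine cfc_congr fun t _ => ?_
      rcases le_total ((z.re - z.im) * (t - (z.re + z.im) / 2)) 0 with h | h
      · simp only [f, max_eq_right h, mul_zero]
      · have h' : (z.re - z.im) * ((z.re + z.im) / 2 - t) ≤ 0 := by linarith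
        simp only [k, max_eq_right h', zero_mul]
    rw [map_mul, e1, mul_assoc, ← mul_assoc (cfc k _), e2, zero_mul, mul_zero]

/-- induction on `P`: `x' = x σ (e* e)` with `σ` commuting with the orbit of `x` -/
theorem outer_fin [Countable G] [Nontrivial D] (h : CP γ)
    (h1 : ∀ g, γ g ≠ 1 → ∃ x : D, Ps x ∧ x ≠ 0 ∧ x * γ g x = 0) (P : Finset G)
    (hP : ∀ g ∈ P, γ g ≠ 1) : ∃ x : D, Ps x ∧ x ≠ 0 ∧ ∀ g ∈ P, x * γ g x = 0 := by
  classical
  induction P using Finset.induction_on with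
  | empty => exact ⟨1, Ps.one, one_ne_zero, by simp⟩
  | insert g P _ ih =>
    obtain ⟨x, px, x0, hx⟩ := ih fun k hk => hP k (Finset.mem_insert_of_mem hk)
    obtain ⟨y, py, y0, hy⟩ := h1 g (hP g (Finset.mem_insert_self _ _))
    obtain ⟨E, _, δ, e, ψ, hi, he, hψ, H⟩ := h y
    have e0 : star e * e ≠ 0 := fun h0 => y0 (by
      rw [← he, (CStarRing.star_mul_self_eq_zero_iff e).1 h0, map_zero])
    have e1 : star e * e * δ g (star e * e) = 0 := hi (by
      rw [map_mul, hψ, map_mul, map_star, he, py.sa.star_eq, map_mul, map_zero, mul_assoc,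
        ← mul_assoc y (γ g y), hy, zero_mul, mul_zero])
    obtain ⟨σ, s1, s2, s3⟩ := H (insert x (Set.range fun k => γ k x))
      ((Set.countable_range _).insert _) x (star e * e)
    have key : ∀ k, x * σ (star e * e) * γ k (x * σ (star e * e)) =
        x * γ k x * σ (star e * e * δ k (star e * e)) := fun k => by
      rw [map_mul (γ k), ← s1, map_mul σ (star e * e),
        (s2 _ _ (Set.mem_insert_of_mem _ ⟨k, rfl⟩)).mul_mul_mul_comm]
    refine ⟨x * σ (star e * e), px.mul ((Ps.sq e).map σ) (s2 _ _ (Set.mem_insert _ _)).symm,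
      fun h0 => ?_, fun k hk => ?_⟩
    · rw [h0, norm_zero] at s3
      exact absurd s3 (not_le.2 (mul_pos (norm_pos_iff.2 x0) (norm_pos_iff.2 e0)))
    · rw [key]
      rcases Finset.mem_insert.1 hk with rfl | hk
      · rw [e1, map_zero, mul_zero]
      · rw [hx k hk, zero_mul]

theorem out_sq {x a : D} (sx : IsSelfAdjoint x) (hc : Commute x (star a))
    (h : x * (star a * a) = 0) : x * a = 0 := by
  rw [← CStarRing.star_mul_self_eq_zero_iff, star_mul, sx.star_eq, ← hc.eq, mul_assoc,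
    ← mul_assoc (star a), ← hc.eq, mul_assoc, h, mul_zero]

/-- `y l = x E_ll²` normalized, `E` commuting with the orbit of `x` -/
theorem outer_fam [Countable G] (hz : OZ D) {x : D} (ps : Ps x) (h0 : x ≠ 0) {P : Finset G}
    (hP : ∀ g ∈ P, x * γ g x = 0) (κ : Type) [Fintype κ] : ∃ y : κ → D,
      (∀ l, Ps (y l) ∧ ‖y l‖ = 1) ∧ (∀ l l', l ≠ l' → y l * y l' = 0) ∧
      ∀ g ∈ P, ∀ l l', y l * γ g (y l') = 0 := by
  obtain ⟨c, v, E, -, hE, hv, hv', H⟩ := hz (Fintype.card κ) (insert x (Set.range fun k => γ k x))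
    ((Set.countable_range _).insert _)
  obtain ⟨-, c2, c3⟩ := H x (Set.mem_insert _ _)
  have nz : ∀ l, x * (E l l * E l l) ≠ 0 := by
    intro l hl
    have a1 : x * E l l = 0 := out_sq ps.sa (by rw [hE.star]; exact c3 l l) (by rwa [hE.star])
    have a2 : ∀ j, x * E j l = 0 := fun j => out_sq ps.sa (by rw [hE.star]; exact c3 l j) (by
      rw [hE.star, hE.mul_same, (hE.comm l l).eq, ← mul_assoc, a1, zero_mul])
    have a3 : ∀ j, x * E j j = 0 := fun j => out_sq ps.sa (by rw [hE.star]; exact c3 j j) (by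
      rw [hE.star, hE.mul_same, ← hE.mul_same j l j, ← mul_assoc, a2, zero_mul])
    have a4 : x * c = 0 := by
      rw [← hE.sum, Finset.mul_sum]
      exact Finset.sum_eq_zero fun j _ => a3 j
    have a5 : x * (star v * v) = 0 := by
      rw [← mul_assoc, c2.eq, mul_assoc, ← hv', ← mul_assoc x, a3, zero_mul, mul_zero]
    rw [hv, ← mul_assoc, mul_sub x, a4, mul_one, sub_zero, mul_sub, a4, mul_one, sub_zero] at a5
    exact h0 a5
  let j : κ → Fin (Fintype.card κ + 1) := fun l => (Fintype.equivFin κ l).castSucc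
  have hj : Function.Injective j := (Fin.castSucc_injective _).comp (Fintype.equivFin κ).injective
  refine ⟨fun l => ((‖x * (E (j l) (j l) * E (j l) (j l))‖⁻¹ : ℝ) : ℂ) •
    (x * (E (j l) (j l) * E (j l) (j l))), fun l => ⟨?_, ?_⟩, fun l l' hl => ?_,
    fun g hg l l' => ?_⟩
  · refine (ps.mul ⟨E (j l) (j l), by rw [hE.star]⟩ ((c3 _ _).mul_right (c3 _ _))).smul ?_
    positivity
  · rw [norm_smul, Complex.norm_real, norm_inv, norm_norm,
      inv_mul_cancel₀ (norm_ne_zero_iff.2 (nz _))]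
  · rw [smul_mul_smul_comm, ((c3 _ _).mul_right (c3 _ _)).symm.mul_mul_mul_comm, mul_assoc (E _ _),
      ← mul_assoc (E (j l) (j l)) (E (j l') (j l')), hE.mul_ne (hj.ne hl), zero_mul, mul_zero,
      mul_zero, smul_zero]
  · have c4 := (H _ (Set.mem_insert_of_mem _ ⟨g, rfl⟩)).2.2 (j l) (j l)
    rw [map_smul, smul_mul_smul_comm, map_mul, (c4.mul_right c4).symm.mul_mul_mul_comm, hP g hg,
      zero_mul, smul_zero]

/-- `D` is nontrivial by `tendsto_norm` for `x = 1`; `sat` makes `outer_approx` exact -/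
theorem Ctx.outer [SeparableSpace A] [Countable G] (h : Ctx i ω π hα γ) (hb : AU i b m)
    (hz : OZ D) : Outer γ := by
  have _ : Nontrivial D := by
    by_contra hD
    rw [not_nontrivial_iff_subsingleton] at hD
    have _ := h.smp.1
    obtain ⟨a, ha⟩ := exists_ne (0 : A)
    have e := h.tendsto_norm 1 a
    rw [Subsingleton.elim (π 1) 0, norm_zero, zero_mul] at e
    have e1 : (fun n => ‖(1 : cenSeq i ω).1 n * i a‖) = fun _ => ‖i a‖ := by
      funext n
      simp
    rw [e1, tendsto_const_nhds_iff, norm_eq_zero] at e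
    exact ha (h.inj (e.trans (map_zero i).symm))
  intro P hP κ _
  refine (outer_fin h.cp (fun g hg => ?_) P hP).elim fun x hx => outer_fam hz hx.1 hx.2.1 hx.2.2 κ
  obtain ⟨δ, δ0, H⟩ := outer_approx h.cp hg
  have v : Itn π fun x : Unit → D => x () := Itn.var ()
  have v' := Itn.act h.act v g
  obtain ⟨Y, -, hY⟩ := h.sat hb (ι := Unit) (κ := Bool)
    (p := fun j x => cond j (x () - star (x ())) (x () * γ g (x ()) - γ g (x ()) * x ()))
    (r := fun _ x => x () - γ g (x ())) (q := fun _ _ => 0)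
    (fun j => by
      cases j
      · exact (v.mul v').sub (v'.mul v)
      · exact v.sub v.star)
    (fun _ => v.sub v') (fun _ => Itn.const h.isF 0) (fun _ => δ) (C := 1) fun s ε ε0 => by
      obtain ⟨Y, sa, n1, n2, n3⟩ := H ε ε0
      refine ⟨fun _ => Y, fun _ => n1, fun j _ => ⟨?_, n3, fun τ _ => (Tr.n2_zero τ).trans_le ε0.le⟩⟩
      cases j
      · exact n2
      · simpa [sa.star_eq] using ε0.le
  refine outer_exact (γ g) (Y := Y ()) (sub_eq_zero.1 (hY true).1).symm (sub_eq_zero.1 (hY false).1)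
    fun e => ?_
  have := (hY true).2.1
  rw [e, sub_self, norm_zero] at this
  exact absurd this (not_le.2 δ0)

end Vale.Agent.P095.S
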