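import Vale.Agent.P095.S.Defs
import Vale.Agent.P101.Core
import Vale.Agent.P101.Sep

/-! Order zero matrix units in `D`. -/

open Filter Topology TopologicalSpace
open scoped BoundedContinuousFunction ComplexOrder Matrix Kronecker

namespace Vale.Agent.P095.S

open H P101

variable {A M D G : Type} [NonUnitalCStarAlgebra A] [CStarAlgebra M] [CStarAlgebra D] [Group G]
  {i : A →⋆ₙₐ[ℂ] M} {ω : Ultrafilter ℕ} {π : cenSeq i ω →⋆ₐ[ℂ] D} {α : G →* (M ≃⋆ₐ[ℂ] M)}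
  {hα : Inv i α} {γ : G →* (D ≃⋆ₐ[ℂ] D)} {b : ℕ → M} {m : ℕ → ℝ}

/-- the first half of the proof of `P101.exists_pair` (up to `St.final`) gives the data in a
separable algebra `E` mapping to `D`; move it with `Rich`. -/
theorem exists_oz (hR : Rich D) (hF : ∀ χ : D →⋆ₙₐ[ℂ] ℂ, χ = 0) : OZ D := by
  intro n S hS
  obtain ⟨D₁, _, a, e, hD, he, hf⟩ := exists_units hR hF n
  obtain ⟨k, hk⟩ := St.init (o := 0) he (Ideal.span_mono (by
    rintro _ ⟨_, rfl, t, rfl⟩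
    exact ⟨t, rfl⟩) (one_mem_span (S := {e 0 0}) fun J hJ => ⟨_, rfl, hf 0 J hJ⟩))
  obtain ⟨E, _, ⟨hsep, ⟨ψ⟩⟩, hE⟩ := reduce (F := D) (fun k D _ => St (0 : Fin (n + 1)) k D)
    (fun k D _ hD h => by
      obtain ⟨E, _, i1, i2, hE, hc, -⟩ := double hR hD hD
      exact ⟨E, inferInstance, hE, h.merge i1 i2 hc⟩) k D₁ hD hk
  obtain ⟨c, v, U, h1, h2, h3, h4⟩ := hE.final
  obtain ⟨ψ', h5⟩ := hR E ψ S hS.isSeparable
  refine ⟨ψ' c, ψ' v, fun j l => ψ' (U j l), h1.map ψ', h2.map ψ', ?_, ?_, fun s hs =>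
    ⟨(h5 _ s hs).symm, ?_, fun j l => (h5 _ s hs).symm⟩⟩
  · rw [← map_star, ← map_mul, h3, map_mul, map_sub, map_one]
  · rw [← map_mul, h4]
  · rw [← map_star]
    exact (h5 _ s hs).symm

theorem oz_norm_le {x c : D} (hc : ‖c‖ ≤ 1) (h : star x * x = c * c) : ‖x‖ ≤ 1 := by
  have h1 := CStarRing.norm_star_mul_self (x := x)
  rw [h] at h1
  have h2 := norm_mul_le c c
  nlinarith [norm_nonneg x, norm_nonneg c]

theorem oz_small {n : ℕ} {c v : D} {E : Fin (n + 1) → Fin (n + 1) → D} (hc : PC c)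
    (hE : Units c E) (hv : star v * v = (1 - c) * (1 - c)) (h0 : E 0 0 * v = v)
    {τ : D →L[ℂ] ℂ} (hτ : Tr τ) : (n + 1) * n2 τ (c * c - 1) ^ 2 ≤ 4 := by
  have h1 : ∀ j, τ (c * E j j) = τ (c * E 0 0) := fun j => by
    rw [← hE.mul_same j 0 j, hτ.tr, hE.mul_same]
  have h2 : τ (c * c) = (n + 1 : ℕ) * τ (c * E 0 0) := by
    conv_lhs => rw [← hE.sum, Finset.mul_sum, hE.sum, map_sum]
    simp [h1]
  have h3 : (n + 1) * n2 τ (E 0 0) ^ 2 ≤ 1 := by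
    rw [hτ.n2_sq, hE.star, hE.mul_same]
    have h4 : (τ (c * c)).re ≤ 1 :=
      (Complex.re_le_norm _).trans ((hτ.le _).trans ((norm_mul_le _ _).trans
        (mul_le_one₀ hc.le (norm_nonneg _) hc.le)))
    rw [h2] at h4
    simpa using h4
  have h5 : n2 τ v ≤ n2 τ (E 0 0) := by
    have := hτ.n2_mul_right (E 0 0) v
    rw [h0] at this
    exact this.trans (mul_le_of_le_one_right (Tr.n2_nonneg _ _) (oz_norm_le hc.le' hv))
  have h6 : n2 τ (1 - c) = n2 τ v := by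
    rw [n2, n2, hv, star_sub, star_one, hc.sa.star_eq]
  have h7 : n2 τ (c * c - 1) ≤ 2 * n2 τ (E 0 0) := by
    have e : c * c - 1 = -((1 - c) + c * (1 - c)) := by noncomm_ring
    rw [e, Tr.n2_neg]
    have h8 := hτ.n2_add (1 - c) (c * (1 - c))
    have h9 := hτ.n2_mul_left c (1 - c)
    have h10 := mul_le_of_le_one_left (Tr.n2_nonneg τ (1 - c)) hc.le
    linarith
  have h8 := pow_le_pow_left₀ (Tr.n2_nonneg _ _) h7 2
  have h9 : (0 : ℝ) ≤ n + 1 := by positivity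
  nlinarith [mul_le_mul_of_nonneg_left h8 h9]

/-- `n + 1 = 2 (k+1)`, reindex by `Fin (k+1) × Fin 2`; `a = ∑ (E (j,0) (j,0) - E (j,1) (j,1))`,
`b = ∑ (E (j,0) (j,1) + E (j,1) (j,0))`, `a² = b² = c²`, `a b = - b a`;
`τ ((1-c²)²) ≤ 4 τ (v* v) = 4 τ (v v*) ≤ 4 τ (E₀₀²) ≤ 4 / (n+1)`. -/
theorem OZ.m2 (h : OZ D) {T : Set (D →L[ℂ] ℂ)} (hT : ∀ τ ∈ T, Tr τ) : M2 T := by
  intro S hS ε hε
  obtain ⟨k, hk⟩ := exists_nat_ge (4 / ε ^ 2)
  obtain ⟨c, v, E, hc, hE, hv, h0, hcomm⟩ := h (2 * k + 1) S hS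
  let σ : Fin (k + 1) × Fin 2 ≃ Fin (2 * k + 1 + 1) :=
    finProdFinEquiv.trans (finCongr (by ring))
  have hf := (hE.reindex σ).right
  set f : Fin 2 → Fin 2 → D := fun i j => ∑ r, E (σ (r, i)) (σ (r, j)) with hfd
  have hs : f 0 0 + f 1 1 = c := by rw [← hf.sum, Fin.sum_univ_two]
  have m := hf.mul
  have ha : IsSelfAdjoint (f 0 0 - f 1 1) := by
    rw [IsSelfAdjoint, star_sub, hf.star, hf.star]
  have hb : IsSelfAdjoint (f 0 1 + f 1 0) := by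
    rw [IsSelfAdjoint, star_add, hf.star, hf.star, add_comm]
  have haa : (f 0 0 - f 1 1) * (f 0 0 - f 1 1) = c * c := by
    simp only [sub_mul, mul_sub, m]
    simp [← mul_add, hs]
  have hbb : (f 0 1 + f 1 0) * (f 0 1 + f 1 0) = c * c := by
    simp only [add_mul, mul_add, m]
    simp [← mul_add, add_comm (f 1 1), hs]
  have hab : (f 0 0 - f 1 1) * (f 0 1 + f 1 0) + (f 0 1 + f 1 0) * (f 0 0 - f 1 1) = 0 := by
    simp only [add_mul, mul_add, sub_mul, mul_sub, m]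
    simp [← sub_eq_add_neg]
  have hsm : Sm T (c * c - 1) ε := fun τ hτ => by
    have h1 := oz_small hc hE hv h0 (hT τ hτ)
    rw [div_le_iff₀ (by positivity)] at hk
    refine (pow_le_pow_iff_left₀ (Tr.n2_nonneg _ _) hε.le two_ne_zero).1 ?_
    by_contra hn
    push_cast at h1
    have h2 : (0 : ℝ) ≤ k := Nat.cast_nonneg k
    nlinarith [sq_nonneg (n2 τ (c * c - 1)), pow_pos hε 2]
  have hcf : ∀ x ∈ S, ∀ i j, Commute (f i j) x := fun x hx i j =>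
    (Commute.sum_right _ _ _ fun r _ => (hcomm x hx).2.2 _ _).symm
  refine ⟨f 0 0 - f 1 1, f 0 1 + f 1 0, ha, hb, oz_norm_le hc.le (by rw [ha.star_eq, haa]),
    oz_norm_le hc.le (by rw [hb.star_eq, hbb]), haa ▸ hsm, hbb ▸ hsm, fun τ _ => ?_,
    fun x hx => ⟨(hcf x hx _ _).sub_left (hcf x hx _ _), (hcf x hx _ _).add_left (hcf x hx _ _)⟩⟩
  rw [hab, Tr.n2_zero]
  exact hε.le

end Vale.Agent.P095.S
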