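import Vale.Agent.P095.S.SOne
import Vale.Agent.P095.S.Avg
import Vale.Agent.P095.S.Outer
import Vale.Agent.P095.S.Compare
import Vale.Agent.P095.S.Exc
import Vale.Agent.P095.S.Oz
import Vale.Agent.P095.H.StageC

/-! No characters on the fixed point algebra. -/

open Filter Topology TopologicalSpace
open scoped BoundedContinuousFunction ComplexOrder Matrix Kronecker

namespace Vale.Agent.P095.S

open H P101

variable {A M D G : Type} [NonUnitalCStarAlgebra A] [CStarAlgebra M] [CStarAlgebra D] [Group G]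
  {i : A →⋆ₙₐ[ℂ] M} {ω : Ultrafilter ℕ} {π : cenSeq i ω →⋆ₐ[ℂ] D} {α : G →* (M ≃⋆ₐ[ℂ] M)}
  {hα : Inv i α} {γ : G →* (D ≃⋆ₐ[ℂ] D)} {b : ℕ → M} {m : ℕ → ℝ}

theorem sm_zero (T : Set (D →L[ℂ] ℂ)) {ε : ℝ} (hε : 0 ≤ ε) : Sm T 0 ε := fun τ _ => by
  rw [Tr.n2_zero]; exact hε

theorem Ctx.kill_ps [SeparableSpace A] [Countable G] (h : Ctx i ω π hα γ) (hb : AU i b m)
    (hC : Cp A) (hz : OZ D) (hG : Fol G) (χ : fixed γ →⋆ₙₐ[ℂ] ℂ) (e : fixed γ) (ps : Ps e.1)
    (h1 : ‖e.1‖ ≤ 1) (h0 : Sm (TT π α b m) e.1 0) : χ e = 0 := by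
  classical
  have := h.smp.1
  obtain ⟨f, hf⟩ := exists_exc h.inj h.idl
  obtain ⟨s, s1, s2, s3⟩ := h.s1 hb hC (h.cmp hb hC hz) (h.outer hb hz) hf ps h1 h0
  let p : Option (Bool × Option G) → (Bool → D) → D := fun j x =>
    match j with
    | none => star (x true) * x false
    | some (β, none) => star (x β) * x β - e.1
    | some (β, some g) => γ g (x β) - x β
  obtain ⟨x, -, hx⟩ := h.sat hb (p := p) (r := fun _ _ => 0) (q := fun _ _ => 0)
    (fun j => match j with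
      | none => (Itn.var true).star.mul (Itn.var false)
      | some (β, none) => ((Itn.var β).star.mul (Itn.var β)).sub (Itn.const h.isF _)
      | some (β, some g) => (Itn.act h.act (Itn.var β) g).sub (Itn.var β))
    (fun _ => Itn.const h.isF 0) (fun _ => Itn.const h.isF 0) (fun _ => 0) (C := 1)
    fun t ε hε => by
      obtain ⟨s', t1, t2, t3⟩ := avg_s hG e.2 h1 s1 s2 s3
        (t.image fun j => (j.bind fun y => y.2).getD 1) hε
      refine ⟨s', fun β => ?_, fun j hj => ⟨?_, norm_nonneg _, sm_zero _ hε.le⟩⟩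
      · have := CStarRing.norm_star_mul_self (x := s' β)
        rw [t1] at this
        nlinarith [norm_nonneg (s' β)]
      · match j, hj with
        | none, _ => simpa [p, t2] using hε.le
        | some (β, none), _ => simpa [p, t1] using hε.le
        | some (β, some g), hj => exact t3 β g (Finset.mem_image_of_mem _ hj)
  let y : Bool → fixed γ := fun β => ⟨x β, fun g => sub_eq_zero.1 (hx (some (β, some g))).1⟩
  have y1 : ∀ β, star (y β) * y β = e := fun β =>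
    Subtype.ext (sub_eq_zero.1 (hx (some (β, none))).1)
  have y2 : star (y true) * y false = 0 := Subtype.ext (hx none).1
  have h3 : χ (star (y true)) * χ (y false) = 0 := by rw [← map_mul, y2, map_zero]
  have h4 : χ e * χ e = 0 := by
    conv_lhs => rw [← y1 true]; arg 2; rw [y1 true, ← y1 false]
    rw [map_mul, map_mul]
    linear_combination χ (y true) * χ (star (y false)) * h3
  exact mul_self_eq_zero.1 h4

theorem Ctx.kill [SeparableSpace A] [Countable G] (h : Ctx i ω π hα γ) (hb : AU i b m) (hC : Cp A)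
    (hz : OZ D) (hG : Fol G) (χ : fixed γ →⋆ₙₐ[ℂ] ℂ) (x : fixed γ)
    (hx : Sm (TT π α b m) x.1 0) : χ x = 0 := by
  have hc : (0 : ℝ) < ‖x.1‖ + 1 := by positivity
  set c : ℂ := ((‖x.1‖ + 1 : ℝ) : ℂ)⁻¹ with hc'
  have hn : ‖c‖ = (‖x.1‖ + 1)⁻¹ := by
    rw [hc', norm_inv, Complex.norm_real, Real.norm_of_nonneg hc.le]
  have h1 : ‖c • x.1‖ ≤ 1 := by
    rw [norm_smul, hn, inv_mul_le_iff₀ hc]; linarith
  have h2 := h.kill_ps hb hC hz hG χ (star (c • x) * (c • x)) ⟨c • x.1, rfl⟩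
    ((norm_mul_le _ _).trans (by
      change ‖star (c • x.1)‖ * ‖c • x.1‖ ≤ 1
      rw [norm_star]; exact mul_le_one₀ h1 (norm_nonneg _) h1)) fun τ hτ => by
      have ht := (h.tt_ts hb).tr τ hτ
      refine (ht.n2_mul_left _ _).trans ?_
      change _ * n2 τ (c • x.1) ≤ 0
      rw [ht.n2_smul, le_antisymm (hx τ hτ) (Tr.n2_nonneg _ _), mul_zero, mul_zero]
  rw [map_mul, map_star, CStarRing.star_mul_self_eq_zero_iff, map_smul, smul_eq_zero] at h2
  refine h2.resolve_left fun h3 => ?_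
  rw [h3, norm_zero] at hn
  exact (inv_pos.2 hc).ne hn

theorem Ctx.noChar [SeparableSpace A] [Countable G] (h : Ctx i ω π hα γ) (hC : Cp A)
    (hD : ∀ χ : D →⋆ₙₐ[ℂ] ℂ, χ = 0) (hG : Fol G) (χ : fixed γ →⋆ₙₐ[ℂ] ℂ) : χ = 0 := by
  classical
  obtain ⟨b, m, hb⟩ := exists_au h.smp h.inj h.idl
  have hz := exists_oz (h.isF.rich h.idl h.free) hD
  have hT := h.tt_ts hb
  let q : Fin 3 → (Fin 2 → D) → D :=
    ![fun x => x 0 * x 0 - 1, fun x => x 1 * x 1 - 1, fun x => x 0 * x 1 + x 1 * x 0]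
  obtain ⟨x, -, hx⟩ := h.sat hb (κ := Fin 3 × Fin 2 × G)
    (p := fun j x => γ j.2.2 (x j.2.1) - x j.2.1) (r := fun _ _ => 0) (q := fun j => q j.1)
    (fun j => (Itn.act h.act (Itn.var _) _).sub (Itn.var _)) (fun _ => Itn.const h.isF 0)
    (fun j => by
      rcases j with ⟨j, -⟩
      fin_cases j
      · exact ((Itn.var 0).mul (Itn.var 0)).sub (Itn.const h.isF 1)
      · exact ((Itn.var 1).mul (Itn.var 1)).sub (Itn.const h.isF 1)
      · exact ((Itn.var 0).mul (Itn.var 1)).add ((Itn.var 1).mul (Itn.var 0)))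
    (fun _ => 0) (C := 1) fun t ε hε => by
      obtain ⟨x, x0, x1, x2, x3, x4⟩ := avg_out hG hT
        (fun F ε hε => exists_out hT (hz.m2 hT.tr) hG F hε) (t.image fun j => j.2.2) hε
      refine ⟨x, x0, fun j hj => ⟨x4 _ _ (Finset.mem_image_of_mem _ hj), norm_nonneg _, ?_⟩⟩
      rcases j with ⟨j, -⟩
      fin_cases j
      exacts [x1, x2, x3]
  let y : Fin 2 → fixed γ := fun l => ⟨x l, fun g => sub_eq_zero.1 (hx (0, l, g)).1⟩
  have h1 := h.kill hb hC hz hG χ (y 0 * y 0 - 1) (hx (0, 0, 1)).2.2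
  have h2 := h.kill hb hC hz hG χ (y 1 * y 1 - 1) (hx (1, 0, 1)).2.2
  have h3 := h.kill hb hC hz hG χ (y 0 * y 1 + y 1 * y 0) (hx (2, 0, 1)).2.2
  simp only [map_sub, map_mul, map_add] at h1 h2 h3
  have h4 : χ 1 * χ 1 = 0 := by
    linear_combination (-χ 1) * h1 - χ (y 0) * χ (y 0) * h2 + χ (y 0) * χ (y 1) / 2 * h3
  ext z
  rw [← one_mul z, map_mul, mul_self_eq_zero.1 h4, zero_mul, one_mul]
  rfl

end Vale.Agent.P095.S
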