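import Vale.Agent.P095.S.Defs

/-! Finite groups of large girth. Let `Bl` be the finite set of elements of `FreeGroup ι` of norm
`≤ L = 4 R + 2`. The injection `x ↦ of j * x` on `{x ∈ Bl | of j * x ∈ Bl}` extends to a permutation
`s j` of `Bl` (`Equiv.Perm.exists_extending_pair` or `Equiv.extendSubtype`); `Γ = Perm Bl`,
`θ = FreeGroup.lift s`; `θ w 1 = w` when `norm w ≤ L` (induction on the reduced word), so `θ` is
injective on `Bl`. `B r = θ '' {norm ≤ 2 r}`, `lab x = some j` iff the word `x 1` starts with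
`(j, false)`. If `w` does not start with `(j, false)` then `of j * w` starts with `(j, true)`. -/

open Filter Topology TopologicalSpace
open scoped BoundedContinuousFunction ComplexOrder Matrix Kronecker

namespace Vale.Agent.P095.S

open H P101

theorem girth_aux (ι : Type) [Fintype ι] [DecidableEq ι] (L : ℕ) :
    ∃ (X : Type) (_ : Finite X) (θ : FreeGroup ι →* Equiv.Perm X) (v : Equiv.Perm X → FreeGroup ι),
      ∀ w : FreeGroup ι, w.norm ≤ L → v (θ w) = w := by
  let X := {w : FreeGroup ι // w.norm ≤ L}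
  have hX : Finite X := by
    have := (List.finite_length_le (ι × Bool) L).to_subtype
    exact Finite.of_injective (β := {l : List (ι × Bool) | l.length ≤ L})
      (fun w => ⟨w.1.toWord, w.2⟩) fun w w' h =>
        Subtype.ext (FreeGroup.toWord_injective (congrArg Subtype.val h))
  choose s hs using fun j : ι => Equiv.Perm.exists_extending_pair
    (α := {x : X // (FreeGroup.of j * x.1).norm ≤ L}) (β := X) Subtype.val
    (fun x => ⟨_, x.2⟩) Subtype.val_injective fun x y h =>
      Subtype.ext (Subtype.ext (mul_left_cancel (congrArg Subtype.val h)))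
  let o : X := ⟨1, Nat.zero_le L⟩
  have key : ∀ (l : List (ι × Bool)) (h : l.length ≤ L), FreeGroup.lift s (FreeGroup.mk l) o =
      ⟨FreeGroup.mk l, FreeGroup.norm_mk_le.trans h⟩ := by
    intro l
    induction l with
    | nil => exact fun _ => rfl
    | cons a l ih =>
      intro h
      have h1 : l.length ≤ L := (Nat.le_succ _).trans h
      have h2 := FreeGroup.norm_mk_le.trans h
      obtain ⟨j, _ | _⟩ := a
      · have e : FreeGroup.mk ((j, false) :: l) = (FreeGroup.of j)⁻¹ * FreeGroup.mk l := rfl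
        have h3 := hs j ⟨⟨_, h2⟩, by
          dsimp only
          rw [e, mul_inv_cancel_left]
          exact FreeGroup.norm_mk_le.trans h1⟩
        conv_lhs => rw [e, map_mul, map_inv, FreeGroup.lift_apply_of, Equiv.Perm.mul_apply, ih h1]
        rw [Equiv.Perm.inv_eq_iff_eq, h3]
        exact Subtype.ext (mul_inv_cancel_left _ _).symm
      · have e : FreeGroup.mk ((j, true) :: l) = FreeGroup.of j * FreeGroup.mk l := rfl
        conv_lhs => rw [e, map_mul, FreeGroup.lift_apply_of, Equiv.Perm.mul_apply, ih h1]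
        exact hs j ⟨⟨_, FreeGroup.norm_mk_le.trans h1⟩, h2⟩
  refine ⟨X, hX, FreeGroup.lift s, fun x => (x o).1, fun w hw => ?_⟩
  have h : (FreeGroup.lift s (FreeGroup.mk w.toWord) o).1 = FreeGroup.mk w.toWord :=
    congrArg Subtype.val (key w.toWord hw)
  rwa [FreeGroup.mk_toWord] at h

theorem exists_girth (ι : Type) [Fintype ι] [DecidableEq ι] (R : ℕ) :
    ∃ (Γ : Type) (_ : Group Γ) (_ : Fintype Γ) (_ : DecidableEq Γ) (g : ι → Γ)
      (lab : Γ → Option ι) (B : ℕ → Set Γ), Fintype.card ι ≤ Fintype.card Γ ∧ 1 ∈ B 0 ∧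
      Monotone B ∧ (∀ r j l, ∀ x ∈ B r, (g j)⁻¹ * (g l * x) ∈ B (r + 1)) ∧
      Tree (fun j => Equiv.mulLeft (g j)) lab (B R) := by
  classical
  obtain ⟨X, _, θ, v, hv⟩ := girth_aux ι (2 * R + 1)
  have hn : ∀ j (w : FreeGroup ι), (FreeGroup.of j * w).norm ≤ w.norm + 1 := fun j w =>
    (FreeGroup.norm_mul_le _ _).trans_eq (by rw [FreeGroup.norm_of, add_comm])
  let _ : Fintype (Equiv.Perm X) := Fintype.ofFinite _
  refine ⟨Equiv.Perm X, inferInstance, inferInstance, inferInstance,
    fun j => θ (FreeGroup.of j),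
    fun x => (v x).toWord[0]?.bind fun a => if a.2 then none else some a.1,
    fun r => θ '' {w | w.norm ≤ 2 * r}, ?_, ⟨1, Nat.zero_le _, map_one θ⟩,
    fun r r' h => Set.image_mono fun w (hw : w.norm ≤ 2 * r) => hw.trans (by omega), ?_, ?_⟩
  · refine Fintype.card_le_of_injective (fun j => θ (FreeGroup.of j)) fun j l h => ?_
    have h1 := congrArg v h
    rw [hv _ (by simp), hv _ (by simp)] at h1
    exact FreeGroup.of_injective h1
  · rintro r j l _ ⟨w, hw : w.norm ≤ 2 * r, rfl⟩
    refine ⟨(FreeGroup.of j)⁻¹ * (FreeGroup.of l * w), ?_, by simp only [map_mul, map_inv]⟩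
    have h1 := FreeGroup.norm_mul_le (FreeGroup.of j)⁻¹ (FreeGroup.of l * w)
    have h2 := hn l w
    rw [FreeGroup.norm_inv_eq, FreeGroup.norm_of] at h1
    change FreeGroup.norm _ ≤ _
    omega
  · have key : ∀ j (w : FreeGroup ι), w.norm ≤ 2 * R →
        ((v (θ w)).toWord[0]?.bind fun a => if a.2 then none else some a.1) ≠ some j →
        FreeGroup.of j * w ∈ FreeGroup.startsWith (j, true) := fun j w hw h =>
      FreeGroup.startsWith_mk_mul (w := (j, true)) w fun h1 => h (by
        rw [hv w (by omega), show w.toWord[0]? = some (j, false) from h1]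
        rfl)
    rintro _ ⟨w, hw : w.norm ≤ 2 * R, rfl⟩ _ ⟨w', hw' : w'.norm ≤ 2 * R, rfl⟩ j l hjl h1 h2 h
    have h3 : v (θ (FreeGroup.of j) * θ w) = v (θ (FreeGroup.of l) * θ w') := congrArg v h
    rw [← map_mul, ← map_mul,
      hv _ ((hn j w).trans (by omega)), hv _ ((hn l w').trans (by omega))] at h3
    have h4 : _ = _ := key j w hw h1
    have h5 : _ = _ := key l w' hw' h2
    rw [h3, h5] at h4
    exact hjl (congrArg Prod.fst (Option.some.inj h4)).symm

end Vale.Agent.P095.S
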