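import Vale.Agent.P095.S.Ideal
import Vale.Agent.P101.Ultra

/-! The norm of `D` is computed against any fixed element of the simple algebra `A`. -/

open Filter Topology TopologicalSpace
open scoped BoundedContinuousFunction ComplexOrder Matrix Kronecker

namespace Vale.Agent.P095.S

open H P101

variable {A M D G : Type} [NonUnitalCStarAlgebra A] [CStarAlgebra M] [CStarAlgebra D] [Group G]
  {i : A →⋆ₙₐ[ℂ] M} {ω : Ultrafilter ℕ} {π : cenSeq i ω →⋆ₐ[ℂ] D} {α : G →* (M ≃⋆ₐ[ℂ] M)}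
  {hα : Inv i α} {γ : G →* (D ≃⋆ₐ[ℂ] D)} {b : ℕ → M} {m : ℕ → ℝ}

/-- `{a | Nul (x n * i a)}` is a closed two-sided ideal of `A` -/
theorem Ctx.nz (h : Ctx i ω π hα γ) {x : cenSeq i ω} (hx : π x ≠ 0) {a : A} (ha : a ≠ 0) :
    ¬ Nul ω fun n => x.1 n * i a := by
  intro h0
  let J : TwoSidedIdeal A := .mk' {a | Nul ω fun n => x.1 n * i a}
    (Nul.zero.congr fun n => by simp)
    (fun {a c} ha hc => (ha.add hc).congr fun n => by rw [map_add, mul_add])
    (fun {a} ha => ha.neg.congr fun n => by rw [map_neg, mul_neg])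
    (fun {c a} ha => (((x.2 c).mul_const (i a)).add (ha.const_mul (i c))).congr fun n => by
      rw [map_mul]; noncomm_ring)
    (fun {a c} ha => (ha.mul_const (i c)).congr fun n => by rw [map_mul, mul_assoc])
  have hJ : ∀ a, a ∈ J ↔ Nul ω fun n => x.1 n * i a := fun a => by simp [J]
  have h1 : IsClosed (J : Set A) := by
    rw [show (J : Set A) = {a | Nul ω fun n => x.1 n * i a} from Set.ext hJ]
    refine isClosed_of_closure_subset fun a ha => ?_
    exact (isClosed_nul (fun a n => x.1 n * i a) ‖x.1‖ fun a c n => by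
      rw [← mul_sub]
      exact (norm_mul_le _ _).trans (mul_le_mul (x.1.norm_coe_le_norm n) (norm_map_sub a c)
        (norm_nonneg _) (norm_nonneg _))).closure_subset ha
  rcases h.smp.2 J h1 with h2 | h2
  · exact ha (by simpa [h2] using (hJ a).2 h0)
  · exact hx ((h.isF.2 x).2 fun c => (hJ c).1 (h2 ▸ TwoSidedIdeal.mem_top _))

theorem exists_bump_nrm {Q : Type} [CStarAlgebra Q] (y : Q) {c : ℝ} (hc : 0 < c) :
    ∃ H : Q, ‖H‖ ≤ 1 ∧ H * (star y * y) * cfc (fun r => max (r - c) 0) (star y * y) =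
      (c : ℂ) • cfc (fun r => max (r - c) 0) (star y * y) ∧
      ‖star y * y - cfc (fun r => max (r - c) 0) (star y * y)‖ ≤ c := by
  have hX : IsSelfAdjoint (star y * y) := .star_mul_self y
  have hp : ∀ r : ℝ, 0 < max r c := fun r => lt_max_of_lt_right hc
  have hg : Continuous fun r : ℝ => c / max r c :=
    continuous_const.div (by fun_prop) fun r => (hp r).ne'
  let _ := CStarAlgebra.spectralOrder Q
  have := CStarAlgebra.spectralOrderedRing Q
  refine ⟨cfc (fun r => c / max r c) (star y * y), norm_cfc_le zero_le_one fun r _ => ?_, ?_, ?_⟩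
  · rw [Real.norm_of_nonneg (div_pos hc (hp r)).le]
    exact (div_le_one (hp r)).2 (le_max_right _ _)
  · nth_rw 2 [← cfc_id' ℝ (star y * y)]
    rw [← cfc_mul _ _ _ hg.continuousOn (by fun_prop),
      ← cfc_mul (fun r => c / max r c * r) (fun r => max (r - c) 0) _
        (hg.mul continuous_id').continuousOn (by fun_prop), Complex.coe_smul,
      ← cfc_smul c _ _ (by fun_prop)]
    refine cfc_congr fun r _ => ?_
    rcases le_total r c with h1 | h1
    · simp only [max_eq_right (sub_nonpos.2 h1), mul_zero, smul_zero]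
    · simp only [max_eq_left h1, smul_eq_mul, div_mul_cancel₀ c (hc.trans_le h1).ne']
  · nth_rw 1 [← cfc_id' ℝ (star y * y)]
    rw [← cfc_sub _ _ _ (by fun_prop) (by fun_prop)]
    refine norm_cfc_le hc.le fun r hr => ?_
    have h2 : 0 ≤ r := spectrum_nonneg_of_nonneg (star_mul_self_nonneg y) hr
    rw [Real.norm_eq_abs, abs_le]
    rcases le_total r c with h1 | h1
    · rw [max_eq_right (sub_nonpos.2 h1)]
      constructor <;> linarith
    · rw [max_eq_left (sub_nonneg.2 h1)]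
      constructor <;> linarith

theorem mul_le_nrm {U : Type} [CStarAlgebra U] {X k F₁ F₂ H₁ H₂ : U} {s t : ℝ} (hs : 0 ≤ s)
    (ht : 0 ≤ t) (h1 : ‖H₁‖ ≤ 1) (h2 : ‖H₂‖ ≤ 1) (e1 : H₁ * X * F₁ = (s : ℂ) • F₁)
    (e2 : H₂ * k * F₂ = (t : ℂ) • F₂) (c1 : k * F₁ = F₁ * k) (c2 : F₁ * F₂ = F₂ * F₁)
    (h0 : F₁ * F₂ ≠ 0) : s * t ≤ ‖X * k‖ := by
  have e : H₂ * (H₁ * (X * k * (F₁ * F₂))) = ((s * t : ℝ) : ℂ) • (F₁ * F₂) := by
    calc _ = H₂ * (H₁ * X * (k * F₁) * F₂) := by simp only [mul_assoc]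
      _ = (s : ℂ) • (H₂ * (F₁ * k * F₂)) := by
        rw [c1, ← mul_assoc (H₁ * X), e1, smul_mul_assoc, smul_mul_assoc, mul_smul_comm]
      _ = _ := by
        rw [← c1, mul_assoc, c2, ← mul_assoc, ← mul_assoc, e2, smul_mul_assoc,
          smul_smul, Complex.ofReal_mul]
  have h3 := congrArg norm e
  rw [norm_smul, Complex.norm_real, Real.norm_of_nonneg (mul_nonneg hs ht)] at h3
  refine le_of_mul_le_mul_right ?_ (norm_pos_iff.2 h0)
  rw [← h3]
  exact (norm_mul_le _ _).trans ((mul_le_of_le_one_left (norm_nonneg _) h2).trans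
    ((norm_mul_le _ _).trans ((mul_le_of_le_one_left (norm_nonneg _) h1).trans (norm_mul_le _ _))))

/-- `≤`: `exists_lift_le`. `≥`: in the norm ultrapower `ρ` of `M` (`P101.exists_ultrapower'`),
`X = ρ (x* x)` and `k = ρ (const (a a*))` commute, the limit squared is `‖X k‖`; for bumps `f`
supported in `[‖π x‖² - ε, ∞)` and `g` in `[‖a‖² - ε, ∞)`, `w = f(X) g(k) ≠ 0` by `nz`, and
`‖X k w‖ ≥ (‖π x‖² - ε) (‖a‖² - ε) ‖w‖`. -/
theorem Ctx.tendsto_norm (h : Ctx i ω π hα γ) (x : cenSeq i ω) (a : A) :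
    Tendsto (fun n => ‖x.1 n * i a‖) (ω : Filter ℕ) (𝓝 (‖π x‖ * ‖a‖)) := by
  obtain ⟨U, _, ρ, -, hρ⟩ := exists_ultrapower' M ω
  have z0 : ∀ y : ℕ →ᵇ M, ρ y = 0 ↔ Nul ω y := fun y =>
    ⟨fun h0 => nul_iff.2 (by simpa [h0] using hρ y),
      fun h0 => norm_eq_zero.1 (tendsto_nhds_unique (hρ y) (nul_iff.1 h0))⟩
  let c : M →⋆ₐ[ℂ] U := ρ.comp (cst M)
  let r : cenSeq i ω →⋆ₐ[ℂ] U := ρ.comp (cenSeq i ω).subtype
  have z1 : ∀ (y : cenSeq i ω) a, r y * c (i a) = 0 ↔ Nul ω fun n => y.1 n * i a := fun y a =>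
    (congrArg (· = 0) (map_mul ρ y.1 (cst M (i a)))).symm.to_iff.trans (z0 _)
  have cm : ∀ (y : cenSeq i ω) a, r y * c (i a) = c (i a) * r y := fun y a => by
    have := (z0 (y.1 * cst M (i a) - cst M (i a) * y.1)).2 (y.2 a)
    rwa [map_sub, map_mul, map_mul, sub_eq_zero] at this
  have h1 := hρ (x.1 * cst M (i a))
  rw [map_mul] at h1
  suffices e : ‖r x * c (i a)‖ = ‖π x‖ * ‖a‖ from e ▸ h1
  apply le_antisymm
  · obtain ⟨L, h2, h3⟩ := exists_lift_le π h.isF.1 (π x)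
    have h4 := (z1 (x - L) a).2 (h.isF.eq_iff.1 h2.symm a)
    rw [map_sub, sub_mul, sub_eq_zero] at h4
    rw [h4]
    exact (norm_mul_le _ _).trans (mul_le_mul ((NonUnitalStarAlgHom.norm_apply_le r L).trans h3)
      ((NonUnitalStarAlgHom.norm_apply_le c _).trans (h.norm_i a).le) (norm_nonneg _)
      (norm_nonneg _))
  refine (pow_le_pow_iff_left₀ (by positivity) (norm_nonneg _) two_ne_zero).1 ?_
  have e : star (r x * c (i a)) * (r x * c (i a)) =
      r (star x * x) * c (star (i a) * i a) := by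
    rw [map_mul c, ← mul_assoc (r (star x * x)), ← map_star i, cm (star x * x), star_mul,
      ← map_star c, ← map_star i, map_mul r, map_star r]
    simp only [mul_assoc]
  rw [mul_pow, sq ‖r x * _‖, ← CStarRing.norm_star_mul_self, e]
  refine mul_le_of_forall_lt_of_nonneg (by positivity) (norm_nonneg _) fun s hs h2 t ht h3 => ?_
  rcases hs.eq_or_lt with rfl | hs
  · rw [zero_mul]
    exact norm_nonneg _
  rcases ht.eq_or_lt with rfl | ht
  · rw [mul_zero]
    exact norm_nonneg _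
  obtain ⟨H₁, a1, a2, a3⟩ := exists_bump_nrm x hs
  obtain ⟨H₂, b1, b2, b3⟩ := exists_bump_nrm (i a) ht
  obtain ⟨a', ha'⟩ := cfc_mem_range h.inj h.idl (x := star (i a) * i a)
    ⟨star a * a, by rw [map_mul, map_star]⟩ (f := fun r => max (r - t) 0) (by fun_prop)
    (by simpa using ht.le)
  rw [← ha'] at b2 b3
  generalize cfc (fun r => max (r - s) 0) (star x * x) = F at a2 a3
  have c1 : π F ≠ 0 := fun h0 => by
    have := (NonUnitalStarAlgHom.norm_apply_le π _).trans a3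
    rw [map_sub, h0, sub_zero, map_mul, map_star, CStarRing.norm_star_mul_self, ← sq] at this
    exact h2.not_ge this
  have c2 : a' ≠ 0 := fun h0 => by
    rw [h0, map_zero, sub_zero, CStarRing.norm_star_mul_self, ← sq, h.norm_i] at b3
    exact h3.not_ge b3
  refine mul_le_nrm (F₁ := r F) (F₂ := c (i a')) (H₁ := r H₁) (H₂ := c H₂) hs.le ht.le
    ((NonUnitalStarAlgHom.norm_apply_le r _).trans a1)
    ((NonUnitalStarAlgHom.norm_apply_le c _).trans b1) ?_ ?_ ?_ (cm F a')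
    fun h0 => h.nz c1 c2 ((z1 F a').1 h0)
  · rw [← map_mul, ← map_mul, a2, map_smul]
  · rw [← map_mul, ← map_mul, b2, map_smul]
  · rw [← map_star, ← map_mul, cm]

theorem Ctx.tendsto_norm' (h : Ctx i ω π hα γ) (x : cenSeq i ω) (a : A) :
    Tendsto (fun n => ‖i a * x.1 n‖) (ω : Filter ℕ) (𝓝 (‖a‖ * ‖π x‖)) := by
  have h1 := h.tendsto_norm (star x) (star a)
  rw [map_star π, norm_star, norm_star, mul_comm] at h1
  refine h1.congr fun n => ?_
  rw [← norm_star (i a * _), star_mul, map_star]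
  rfl

theorem Ctx.lift_ps (h : Ctx i ω π hα γ) {d : D} (hd : Ps d) :
    ∃ x : cenSeq i ω, π x = d ∧ ∀ n, Ps (x.1 n) ∧ ‖x.1 n‖ ≤ ‖d‖ := by
  obtain ⟨y, rfl⟩ := hd
  obtain ⟨z, h1, h2⟩ := exists_lift_le π h.isF.1 y
  refine ⟨star z * z, by rw [map_mul, map_star, h1], fun n => ⟨⟨z.1 n, rfl⟩, ?_⟩⟩
  have h3 := (z.1.norm_coe_le_norm n).trans h2
  rw [CStarRing.norm_star_mul_self]
  exact (CStarRing.norm_star_mul_self (x := z.1 n)).trans_le
    (mul_le_mul h3 h3 (norm_nonneg _) (norm_nonneg _))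

theorem exists_restrict_nrm (γ : G →* (D ≃⋆ₐ[ℂ] D)) (B : StarSubalgebra ℂ D)
    (hB : ∀ g, ∀ b ∈ B, γ g b ∈ B) : ∃ β : G →* (B ≃⋆ₐ[ℂ] B), ∀ g b, (β g b).1 = γ g b.1 := by
  let J : G → B →⋆ₐ[ℂ] B := fun g =>
    ((γ g : D →⋆ₐ[ℂ] D).comp B.subtype).codRestrict B fun b => hB g _ b.2
  exact ⟨MonoidHom.mk' (fun g => StarAlgEquiv.ofStarAlgHom (J g) (J g⁻¹)
    (StarAlgHom.ext fun d => Subtype.ext
      ((congrArg (fun k => γ g⁻¹ (γ k d.1)) (inv_inv g).symm).trans (act_inv γ g⁻¹ _)))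
    (StarAlgHom.ext fun d => Subtype.ext (act_inv γ g _)))
    fun g k => StarAlgEquiv.ext fun d => Subtype.ext (act_mul γ g k _), fun _ _ => rfl⟩

theorem Ctx.sr_nrm [SeparableSpace A] [Countable G] (h : Ctx i ω π hα γ) {E : Type}
    [CStarAlgebra E] [SeparableSpace E] (δ : G →* (E ≃⋆ₐ[ℂ] E)) (ψ : E →⋆ₐ[ℂ] D)
    (inj : Function.Injective ψ) (hψ : ∀ g e, ψ (δ g e) = γ g (ψ e)) {T : Set D}
    (hT : T.Countable) (u : D) (e₀ : E) : ∃ σ : E →⋆ₐ[ℂ] D, (∀ g e, σ (δ g e) = γ g (σ e)) ∧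
      (∀ e, ∀ t ∈ T, Commute (σ e) t) ∧ ‖u‖ * ‖e₀‖ ≤ ‖u * σ e₀‖ := by
  choose L hL using h.isF.1
  obtain ⟨S, hsep, hS, hS', hd⟩ := sr_sub h.isF h.act δ ψ hψ
  obtain ⟨e, he, he'⟩ := mem_closure_iff_seq_limit.1 (hd e₀)
  choose s hs hs' using he
  have := h.smp.1
  obtain ⟨a, ha⟩ := exists_ne (0 : A)
  choose c hc using fun n => h.idl ((L u).1 n) a
  obtain ⟨κ, hP, hκ⟩ := h.isF.exists_reidx h.idl h.free (hsep.image continuous_fst)
    (hT.image fun t => (L t).1).isSeparable (fun n => {k | ∀ j ∈ Set.Iic n,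
      ‖c n‖ * ‖π (s j).1‖ - 1 / ((n : ℝ) + 1) < ‖i (c n) * (s j).1.1 k‖}) fun n =>
      (eventually_all_finite (Set.finite_Iic n)).2 fun j _ =>
        (h.tendsto_norm' (s j).1 (c n)).eventually (lt_mem_nhds (sub_lt_self _ (by positivity)))
  obtain ⟨K, r, hK, hr⟩ := sr_dom (i := i) (ω := ω) κ
  obtain ⟨σ, hσ⟩ := sr_ext S hd K (π.comp r) (fun s hs => hK _ (hκ _ ⟨s, hs, rfl⟩).1) fun s hs =>
    ((hκ _ ⟨s, hs, rfl⟩).2.1 _ (hr _)).trans (by
      rw [hS _ hs]; exact NonUnitalStarAlgHom.norm_apply_le ψ _)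
  have hσc := RichAux.cont σ
  refine ⟨σ, fun g e => ?_, fun e t ht => ?_, ?_⟩
  · have := (StarAlgEquiv.isometry (δ g)).continuous
    have := (StarAlgEquiv.isometry (γ g)).continuous
    refine (isClosed_eq (f := fun e => σ (δ g e)) (g := fun e => γ g (σ e)) (by fun_prop)
      (by fun_prop)).closure_subset_iff.2 ?_ (hd e)
    rintro _ ⟨s, hs, rfl⟩
    refine (hσ _ (hS' g _ hs)).trans ?_
    rw [hσ s hs, StarAlgHom.comp_apply, StarAlgHom.comp_apply, h.act]
    refine congrArg π (Subtype.ext (BoundedContinuousFunction.ext fun n => ?_))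
    rw [seqAct_apply, hr, hr]
    rfl
  · refine (isClosed_eq (f := fun e => σ e * t) (g := fun e => t * σ e) (by fun_prop)
      (by fun_prop)).closure_subset_iff.2 ?_ (hd e)
    rintro _ ⟨s, hs, rfl⟩
    change _ * t = t * _
    rw [hσ s hs, StarAlgHom.comp_apply, ← hL t, ← map_mul, ← map_mul]
    refine (h.isF.eq_iff.2 fun a =>
      ((hκ _ ⟨s, hs, rfl⟩).2.2 _ ⟨t, ht, rfl⟩ a).congr fun n => ?_).symm
    change _ = ((L t).1 n * (r _).1 n - (r _).1 n * (L t).1 n) * _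
    rw [hr]
    rfl
  refine le_of_tendsto_of_tendsto' (he'.norm.const_mul ‖u‖)
    (((hσc.tendsto e₀).comp he').const_mul u).norm fun j => ?_
  rw [Function.comp_apply, ← hs' j, hσ _ (hs j), StarAlgHom.comp_apply,
    ← NonUnitalStarAlgHom.norm_map ψ inj, ← hS _ (hs j)]
  have hz := hr ⟨(s j).1, hK _ (hκ _ ⟨s j, hs j, rfl⟩).1⟩
  generalize r _ = z at hz ⊢
  have hω : (ω : Filter ℕ) ≤ atTop := Nat.cofinite_eq_atTop ▸ h.free
  have t1 := h.tendsto_norm (L u * z) a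
  have t2 := ((h.tendsto_norm (L u) a).mul_const ‖π (s j).1‖).sub
    (tendsto_one_div_add_atTop_nhds_zero_nat.mono_left hω)
  have t3 := t1.add (nul_iff.1 ((z.2 a).mul_left (L u).1))
  rw [map_mul, hL, add_zero] at t3
  rw [hL, sub_zero, mul_right_comm] at t2
  refine le_of_mul_le_mul_right (le_of_tendsto_of_tendsto t2 t3 ?_) (norm_pos_iff.2 ha)
  filter_upwards [hω (eventually_ge_atTop j)] with n hn
  have t4 := (hP n j hn).le
  rw [← h.norm_i, ← hc] at t4
  refine t4.trans (le_of_eq_of_le (congrArg norm ?_) (norm_sub_le _ _))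
  change _ = (L u).1 n * z.1 n * i a - _
  rw [hz]
  change _ = (L u).1 n * (s j).1.1 (κ n) * i a -
    (L u).1 n * ((s j).1.1 (κ n) * i a - i a * (s j).1.1 (κ n))
  noncomm_ring

/-- `E` = closed invariant subalgebra generated by the orbit of `y` (see `exists_restrict` in
Engine.lean for the restricted action; copy it, do not import). Repeat the proof of `IsF.sr` with
`P n = {k | ‖(u n * i a₀) * x k‖ ≥ ‖u n * i a₀‖ ‖e₀‖ - 1/(n+1)}` (`tendsto_norm'`, `‖a₀‖ = 1`) for a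
lift `x` of `ψ e₀` which is put into the separable set `X`; if `s ∈ S` with `s.2` near `e₀`
is used instead of `x`, note `‖π z‖ ≤ ‖π (x - s.1)‖` from `exists_reidx` for the differences. -/
theorem Ctx.cp [SeparableSpace A] [Countable G] (h : Ctx i ω π hα γ) : CP γ := by
  intro y
  let R := StarAlgebra.adjoin ℂ (Set.range fun g => γ g y)
  have hR : ∀ g, ∀ x ∈ R, γ g x ∈ R := fun g x hx =>
    StarAlgebra.adjoin_le (S := R.comap (γ g : D →⋆ₐ[ℂ] D)) (by
      rintro _ ⟨k, rfl⟩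
      exact StarAlgebra.subset_adjoin ℂ _ ⟨g * k, act_mul γ g k y⟩) hx
  let B := R.topologicalClosure
  have : IsClosed (B : Set D) := StarSubalgebra.isClosed_topologicalClosure _
  have : SeparableSpace B :=
    (RichAux.isSeparable_adjoin (Set.countable_range fun g => γ g y)).closure.separableSpace
  obtain ⟨δ, hδ⟩ := exists_restrict_nrm γ B fun g b hb =>
    map_mem_closure (StarAlgEquiv.isometry (γ g)).continuous hb (hR g)
  exact ⟨B, inferInstance, δ, ⟨y, subset_closure (StarAlgebra.subset_adjoin ℂ _ ⟨1, by simp⟩)⟩,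
    B.subtype, Subtype.val_injective, rfl, hδ,
    fun T hT => h.sr_nrm δ B.subtype Subtype.val_injective hδ hT⟩

end Vale.Agent.P095.S
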