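import Vale.Agent.P095.S.SZero

/-! The exact version. `lift_ps`, `tt_ev` (with `g = 1`, `‖τ e‖ ≤ n2 τ e`), `eps_test` on
`Bool → closedBall 0 2` with a dense sequence of `A` and an enumeration of `{g | γ g ≠ 1}`; the null
conditions extend from the dense set to all `a` (`isClosed_nul`); centrality from
`(a s - s a)* (a s - s a) = s* a* a s - (s* a* s) a - a* (s* a s) + a* (s* s a)`. -/

open Filter Topology TopologicalSpace
open scoped BoundedContinuousFunction ComplexOrder Matrix Kronecker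

namespace Vale.Agent.P095.S

open H P101

variable {A M D G : Type} [NonUnitalCStarAlgebra A] [CStarAlgebra M] [CStarAlgebra D] [Group G]
  {i : A →⋆ₙₐ[ℂ] M} {ω : Ultrafilter ℕ} {π : cenSeq i ω →⋆ₐ[ℂ] D} {α : G →* (M ≃⋆ₐ[ℂ] M)}
  {hα : Inv i α} {γ : G →* (D ≃⋆ₐ[ℂ] D)} {b : ℕ → M} {m : ℕ → ℝ}

theorem nul_of_levels {x : ℕ → M} (l : ℕ)
    (h : ∀ j, l ≤ j → ∀ᶠ n in (ω : Filter ℕ), ‖x n‖ ≤ 1 / ((j : ℝ) + 1)) : Nul ω x :=
  nul_iff'.2 fun ε hε => by
    obtain ⟨j, hj⟩ := exists_nat_one_div_lt hε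
    filter_upwards [h (max l j) (le_max_left _ _)] with n hn
    refine hn.trans_lt (lt_of_le_of_lt ?_ hj)
    gcongr
    exact le_max_right _ _

theorem cen_of_si (x : cenSeq i ω) (s : ℕ →ᵇ M)
    (h1 : ∀ a, Nul ω fun n => star (s n) * i a * s n - i a * x.1 n)
    (h2 : ∀ a, Nul ω fun n => (star (s n) * s n - x.1 n) * i a) : s ∈ cenSeq i ω := fun a => by
  have h3 : Nul ω fun n => star (s n * i a - i a * s n) * (s n * i a - i a * s n) :=
    (((((h2 a).const_mul (star (i a))).sub ((h1 a).const_mul (star (i a)))).sub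
      ((h1 (star a)).mul_const (i a))).add (h1 (star a * a))).congr fun n => by
      simp only [map_mul, map_star, star_sub, star_mul]
      noncomm_ring
  refine nul_iff.2 ?_
  have h4 := (nul_iff.1 h3).sqrt
  rw [Real.sqrt_zero] at h4
  exact h4.congr fun n => by
    rw [CStarRing.norm_star_mul_self, Real.sqrt_mul_self (norm_nonneg _)]

theorem Ctx.s1 [SeparableSpace A] [Countable G] (h : Ctx i ω π hα γ) (hb : AU i b m) (hC : Cp A)
    (hcmp : Cmp i b m) (ho : Outer γ) {f : M →L[ℂ] ℂ} (hf : Exc i f) {e : D} (ps : Ps e)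
    (h1 : ‖e‖ ≤ 1) (h0 : Sm (TT π α b m) e 0) : ∃ s : Bool → D, (∀ β, star (s β) * s β = e) ∧
      star (s true) * s false = 0 ∧ ∀ β β' g, γ g ≠ 1 → star (s β) * γ g (s β') = 0 := by
  classical
  obtain ⟨x, rfl, hx⟩ := h.lift_ps ps
  have hx' : ∀ n, Ps (x.1 n) ∧ ‖x.1 n‖ ≤ 1 := fun n => ⟨(hx n).1, (hx n).2.trans h1⟩
  have h2 : ∀ k, ∀ δ > 0, ∀ᶠ n in (ω : Filter ℕ), ∀ φ ∈ TA (b k) (b (k + 1)) (m k),
      (φ (b k * x.1 n * b k)).re < δ := fun k δ hδ => by
    simpa using h.tt_ev hb (x := x) (c := 0) (fun τ hτ => (Complex.re_le_norm _).trans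
      ((((h.tt_ts hb).tr τ hτ).norm_le_n2 _).trans (h0 τ hτ))) hδ k 1
  obtain ⟨a, ha⟩ := exists_dense_seq A
  obtain ⟨u, hu⟩ := exists_surjective_nat G
  obtain ⟨t, ht⟩ := eps_test h.free (X := {s : Bool → M // ∀ β, ‖s β‖ ≤ 2})
    (fun j n s => ‖star (s.1 true) * s.1 false‖ ≤ 1 / ((j : ℝ) + 1) ∧ ∀ l ≤ j,
      (∀ β, ‖star (s.1 β) * i (a l) * s.1 β - i (a l) * x.1 n‖ ≤ 1 / ((j : ℝ) + 1) ∧
        ‖(star (s.1 β) * s.1 β - x.1 n) * i (a l)‖ ≤ 1 / ((j : ℝ) + 1)) ∧
      (γ (u l) ≠ 1 → ∀ β β', ‖star (s.1 β) * α (u l) (s.1 β')‖ ≤ 1 / ((j : ℝ) + 1))) fun k => by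
      obtain ⟨s, hs⟩ := h.s0 hb hC hcmp ho hf hx' h2 ((Finset.range (k + 1)).image a)
        (((Finset.range (k + 1)).image u).filter fun g => γ g ≠ 1)
        (fun g hg => (Finset.mem_filter.1 hg).2) (ε := 1 / ((k : ℝ) + 1)) (by positivity)
      refine ⟨fun n => if H : ∀ β, ‖s n β‖ ≤ 2 then ⟨s n, H⟩ else ⟨0, fun _ => by simp⟩, ?_⟩
      filter_upwards [hs] with n hn j hj
      have hjk : 1 / ((k : ℝ) + 1) ≤ 1 / ((j : ℝ) + 1) := by gcongr
      have hm : ∀ l ≤ j, l ∈ Finset.range (k + 1) := fun l hl =>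
        Finset.mem_range.2 (by omega)
      rw [dif_pos hn.1]
      exact ⟨hn.2.2.1.trans hjk, fun l hl => ⟨fun β =>
        (hn.2.1 β _ (Finset.mem_image_of_mem _ (hm l hl))).imp (·.trans hjk) (·.trans hjk),
        fun hg β β' => (hn.2.2.2 β β' _ (Finset.mem_filter.2
          ⟨Finset.mem_image_of_mem _ (hm l hl), hg⟩)).trans hjk⟩⟩
  let s : Bool → ℕ →ᵇ M := fun β =>
    .ofNormedAddCommGroupDiscrete (fun n => (t n).1 β) 2 fun n => (t n).2 β
  have s2 : ∀ β c, Nul ω fun n => (star (s β n) * s β n - x.1 n) * i c := fun β =>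
    nul_mul_of_dense ha (star (s β) * s β - x.1) (by
      rintro _ ⟨l, rfl⟩
      exact nul_of_levels l fun j hj => (ht j).mono fun n hn => ((hn.2 l hj).1 β).2)
  have s1 : ∀ β c, Nul ω fun n => star (s β n) * i c * s β n - i c * x.1 n := fun β c =>
    (isClosed_nul (fun c n => star (s β n) * i c * s β n - i c * x.1 n) 5 fun c d n => by
      have e1 := norm_map_sub (i := i) c d
      have e2 : ‖s β n‖ ≤ 2 := (t n).2 β
      rw [show star (s β n) * i c * s β n - i c * x.1 n - (star (s β n) * i d * s β n - i d * x.1 n)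
        = star (s β n) * (i c - i d) * s β n - (i c - i d) * x.1 n by noncomm_ring]
      have e3 : ‖star (s β n) * (i c - i d) * s β n‖ ≤ 2 * dist c d * 2 :=
        (norm_mul₃_le).trans (by rw [norm_star]; gcongr)
      have e4 : ‖(i c - i d) * x.1 n‖ ≤ dist c d * 1 :=
        (norm_mul_le _ _).trans (by gcongr; exact (hx' n).2)
      linarith [norm_sub_le (star (s β n) * (i c - i d) * s β n) ((i c - i d) * x.1 n)]
      ).closure_subset_iff.2 (by
        rintro _ ⟨l, rfl⟩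
        exact nul_of_levels l fun j hj => (ht j).mono fun n hn => ((hn.2 l hj).1 β).1) (ha c)
  let y : Bool → cenSeq i ω := fun β => ⟨s β, cen_of_si x _ (s1 β) (s2 β)⟩
  refine ⟨fun β => π (y β), fun β => ?_, ?_, fun β β' g hg => ?_⟩
  · rw [← map_star, ← map_mul]
    exact h.isF.eq_iff.2 (s2 β)
  · rw [← map_star, ← map_mul]
    exact (h.isF.2 _).2 fun c => (nul_of_levels (x := fun n => star (s true n) * s false n) 0
      fun j _ => (ht j).mono fun n hn => hn.1).mul_const _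
  · obtain ⟨l, rfl⟩ := hu g
    rw [h.act, ← map_star, ← map_mul]
    exact (h.isF.2 _).2 fun c => (nul_of_levels
      (x := fun n => star (s β n) * α (u l) (s β' n)) l
      fun j hj => (ht j).mono fun n hn => (hn.2 l hj).2 hg β β').mul_const _

end Vale.Agent.P095.S
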