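import Vale.Agent.P095.S.Target
import Vale.Agent.P095.S.Fact
import Vale.Agent.P095.S.Sat

/-! Property (SI) in `D` with outer translates orthogonal. -/

open Filter Topology TopologicalSpace
open scoped BoundedContinuousFunction ComplexOrder Matrix Kronecker

namespace Vale.Agent.P095.S

open H P101

variable {A M D G : Type} [NonUnitalCStarAlgebra A] [CStarAlgebra M] [CStarAlgebra D] [Group G]
  {i : A →⋆ₙₐ[ℂ] M} {ω : Ultrafilter ℕ} {π : cenSeq i ω →⋆ₐ[ℂ] D} {α : G →* (M ≃⋆ₐ[ℂ] M)}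
  {hα : Inv i α} {γ : G →* (D ≃⋆ₐ[ℂ] D)} {b : ℕ → M} {m : ℕ → ℝ}

theorem s0_est {I : Type} [Fintype I] (t t' d d' c c' : I → M) (W : M) (ν : I → I → M) {ε : ℝ}
    (h : ∀ p q, ‖star (c p) * (star (t p) * (star (d p) * W * d' q) * t' q) * c' q - ν p q‖ ≤ ε) :
    ‖star (∑ p, d p * t p * c p) * W * (∑ p, d' p * t' p * c' p) - ∑ p, ∑ q, ν p q‖ ≤
      Fintype.card I * (Fintype.card I * ε) := by
  rw [star_sum, Finset.sum_mul, Finset.sum_mul_sum, ← Finset.sum_sub_distrib]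
  refine (norm_sum_le_of_le _ (n := fun _ => Fintype.card I * ε) fun p _ => ?_).trans (by simp)
  rw [← Finset.sum_sub_distrib]
  refine (norm_sum_le_of_le _ (n := fun _ => ε) fun q _ => ?_).trans (by simp)
  simpa only [star_mul, mul_assoc] using h p q

theorem s0_off {z z' t t' c c' u : M} {θ K : ℝ} (hK : 1 ≤ K) (sa : IsSelfAdjoint z)
    (h : ‖z * u * z'‖ ≤ θ) (ht : ‖t‖ ≤ 2) (ht' : ‖t'‖ ≤ 2) (hc : ‖c‖ ≤ K) (hc' : ‖c'‖ ≤ K) :
    ‖star c * (star (z * t) * u * (z' * t')) * c' - 0‖ ≤ 12 * K ^ 3 * θ := by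
  have hθ : 0 ≤ θ := (norm_nonneg _).trans h
  rw [sub_zero, show star (z * t) * u * (z' * t') = star t * (z * u * z') * t' by
    simp only [star_mul, sa.star_eq, mul_assoc]]
  refine (norm_mul_le_of_le (norm_mul_le_of_le ((norm_star c).trans_le hc) (norm_mul_le_of_le
    (norm_mul_le_of_le ((norm_star t).trans_le ht) h) ht')) hc').trans ?_
  have : 0 ≤ K ^ 2 * θ := by positivity
  nlinarith

theorem s0_diag {z t c c' u y x : M} {l : ℂ} {θ K : ℝ} (hK : 1 ≤ K) (sa : IsSelfAdjoint z)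
    (hz : ‖z‖ ≤ 1) (h : ‖z * u * z - l • (z * z)‖ ≤ θ) (ht : ‖t‖ ≤ 2) (h1 : ‖z * t - t‖ ≤ θ)
    (h2 : ‖star t * t - y * x * y‖ ≤ θ) (sa' : IsSelfAdjoint y) (hy : ‖y‖ ≤ 1) (hx : ‖x‖ ≤ 1)
    (h3 : ‖y * c - c‖ ≤ θ) (h4 : ‖y * c' - c'‖ ≤ θ) (h5 : ‖x * c' - c' * x‖ ≤ θ) (hc : ‖c‖ ≤ K)
    (hc' : ‖c'‖ ≤ K) (hl : ‖l‖ ≤ K) :
    ‖star c * (star (z * t) * u * (z * t)) * c' - l • (star c * c' * x)‖ ≤ 12 * K ^ 3 * θ := by
  have hθ : 0 ≤ θ := (norm_nonneg _).trans h
  have e : star c * (star (z * t) * u * (z * t)) * c' - l • (star c * c' * x) =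
      star c * (star t * (z * u * z - l • (z * z)) * t) * c' + l • (star c *
        (star (z * t - t) * (z * t) + star t * (z * t - t) + (star t * t - y * x * y)) * c' +
        (star (y * c - c) * x * (y * c') + star c * x * (y * c' - c') +
          star c * (x * c' - c' * x))) := by
    simp only [star_mul, star_sub, sa.star_eq, sa'.star_eq, mul_sub, sub_mul, mul_add, add_mul,
      smul_add, smul_sub, mul_smul_comm, smul_mul_assoc, mul_assoc]
    abel
  have c1 := (norm_star c).trans_le hc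
  have t1 := (norm_star t).trans_le ht
  rw [e]
  refine (norm_add_le_of_le (norm_mul_le_of_le (norm_mul_le_of_le c1 (norm_mul_le_of_le
    (norm_mul_le_of_le t1 h) ht)) hc') ((norm_smul_le _ _).trans (mul_le_mul hl (norm_add_le_of_le
      (norm_mul_le_of_le (norm_mul_le_of_le c1 (norm_add_le_of_le (norm_add_le_of_le
        (norm_mul_le_of_le ((norm_star _).trans_le h1) (norm_mul_le_of_le hz ht))
        (norm_mul_le_of_le t1 h1)) h2)) hc') (norm_add_le_of_le (norm_add_le_of_le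
        (norm_mul_le_of_le (norm_mul_le_of_le ((norm_star _).trans_le h3) hx)
          (norm_mul_le_of_le hy hc')) (norm_mul_le_of_le (norm_mul_le_of_le c1 hx) h4))
        (norm_mul_le_of_le c1 h5))) (norm_nonneg _) (by positivity)))).trans ?_
  have : 0 ≤ K ^ 2 * θ := by positivity
  nlinarith

theorem Ctx.s0_core (h : Ctx i ω π hα γ) (hb : AU i b m) (hcmp : Cmp i b m) (ho : Outer γ)
    {f : M →L[ℂ] ℂ} (hf : Exc i f) {x : cenSeq i ω} (hx : ∀ n, Ps (x.1 n) ∧ ‖x.1 n‖ ≤ 1)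
    (h0 : ∀ k, ∀ δ > 0, ∀ᶠ n in (ω : Filter ℕ), ∀ φ ∈ TA (b k) (b (k + 1)) (m k),
      (φ (b k * x.1 n * b k)).re < δ) (V : Finset M) (P : Finset G) (hP : ∀ g ∈ P, γ g ≠ 1)
    {L r : ℕ} (d c : Fin L → Fin r → A) {ε : ℝ} (hε : 0 < ε) :
    ∀ᶠ n in (ω : Filter ℕ), ∃ s : Bool → M, ∀ β β', (∀ W ∈ V, ‖star (s β) * W * s β' -
      if β = β' then (∑ l, ∑ p, ∑ q, f (star (i (d l p)) * W * i (d l q)) •
        (star (i (c l p)) * i (c l q))) * x.1 n else 0‖ ≤ ε) ∧
      ∀ g ∈ P, ‖star (s β) * α g (s β')‖ ≤ ε := by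
  classical
  let d' : Fin L × Fin r → M := fun p => i (d p.1 p.2)
  let c' : Fin L × Fin r → M := fun p => i (c p.1 p.2)
  obtain ⟨K, hK, hc, hl⟩ := ((eventually_ge_atTop (1 : ℝ)).and ((eventually_all.2 fun p =>
    eventually_ge_atTop ‖c' p‖).and ((Finset.eventually_all V).2 fun W _ => eventually_all.2
      fun p => eventually_all.2 fun q =>
        eventually_ge_atTop ‖f (star (d' p) * W * d' q)‖))).exists
  obtain ⟨θ, hθ, hθ'⟩ := exists_pos_mul_lt hε
    (Fintype.card (Fin L × Fin r) * (Fintype.card (Fin L × Fin r) * (12 * K ^ 3)))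
  replace hθ' : Fintype.card (Fin L × Fin r) * (Fintype.card (Fin L × Fin r) *
    (12 * K ^ 3 * θ)) ≤ ε := by linarith
  obtain ⟨k, hk⟩ := (eventually_all.2 fun p : Fin L × Fin r =>
    Metric.tendsto_nhds.1 (hb.lim (c p.1 p.2)) θ hθ).exists
  simp only [dist_eq_norm] at hk
  choose e he using fun (p : Fin L × Fin r) (y : M) =>
    mul_mem_right h.idl y (star_mem_range (y := d' p) ⟨_, rfl⟩)
  obtain ⟨z, hz, hU⟩ := h.target ho hf
    ((V ×ˢ Finset.univ ×ˢ Finset.univ).image (fun w => e w.2.1 (w.1 * d' w.2.2)) ∪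
      (P ×ˢ Finset.univ ×ˢ Finset.univ).image fun w => e w.2.1 (α w.1 (d' w.2.2))) P hP
    (Bool × Fin L) hθ
  choose δ hδ H using fun l => hcmp k (z l) (hz l).1 (hz l).2.1 (hz l).2.2 θ hθ
  filter_upwards [eventually_all.2 fun l => h0 k _ (hδ l),
    eventually_all.2 fun p : Fin L × Fin r => nul_iff'.1 (x.2 (c p.1 p.2)) θ hθ] with n h1 h2
  choose t t1 t2 t3 using fun l => H l _ (hx n).1 (hx n).2 (h1 l)
  refine ⟨fun β => ∑ p, d' p * (z (β, p.1) * t (β, p.1)) * c' p, fun β β' =>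
    ⟨fun W hW => ?_, fun g hg => ?_⟩⟩
  · have := s0_est (fun p => z (β, p.1) * t (β, p.1)) (fun p => z (β', p.1) * t (β', p.1))
      d' d' c' c' W (fun p q => if (β, p.1) = (β', q.1) then f (star (d' p) * W * d' q) •
        (star (c' p) * c' q * x.1 n) else 0) (ε := 12 * K ^ 3 * θ) fun p q => by
      have h3 := hU _ (Finset.mem_union_left _ (Finset.mem_image_of_mem _
        (a := (W, p, q)) (by simpa using hW)))
      simp only [he, ← mul_assoc (star (d' p))] at h3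
      split_ifs with h4
      · rw [← h4]
        exact s0_diag hK (hz _).2.1.sa (hz _).2.2.le (h3.1 _) (t1 _) (t2 _) (t3 _) (hb.ps k).sa
          (hb.le k) (hx n).2 (hk p).le (hk q).le (h2 q).le (hc p) (hc q) (hl W hW p q)
      · exact s0_off hK (hz _).2.1.sa (h3.2.1 _ _ h4) (t1 _) (t1 _) (hc p) (hc q)
    refine (le_of_eq (congrArg norm (congrArg₂ (· - ·) rfl ?_))).trans (this.trans hθ')
    split_ifs with h4
    · simp only [h4, Prod.mk.injEq, true_and, Fintype.sum_prod_type, Finset.sum_mul,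
        smul_mul_assoc]
      refine Finset.sum_congr rfl fun l _ => Finset.sum_congr rfl fun p _ => ?_
      rw [Finset.sum_comm]
      simp [c', d']
    · simp [h4]
  · have hn : ∀ y, ‖α g y‖ = ‖y‖ := fun y => StarAlgEquiv.norm_map _ y
    have := s0_est (fun p => z (β, p.1) * t (β, p.1))
      (fun p => α g (z (β', p.1)) * α g (t (β', p.1))) d' (fun p => α g (d' p)) c'
      (fun p => α g (c' p)) 1 (fun _ _ => 0) (ε := 12 * K ^ 3 * θ) fun p q => by
      have h3 := hU _ (Finset.mem_union_right _ (Finset.mem_image_of_mem _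
        (a := (g, p, q)) (by simpa using hg)))
      simp only [he] at h3
      rw [mul_one]
      exact s0_off hK (hz _).2.1.sa (h3.2.2 g hg _ _) (t1 _) ((hn _).trans_le (t1 _)) (hc p)
        ((hn _).trans_le (hc q))
    simpa only [map_sum, map_mul, mul_one, Finset.sum_const_zero, sub_zero] using this.trans hθ'

theorem Ctx.s0 (h : Ctx i ω π hα γ) (hb : AU i b m) (hC : Cp A) (hcmp : Cmp i b m) (ho : Outer γ)
    {f : M →L[ℂ] ℂ} (hf : Exc i f) {x : cenSeq i ω} (hx : ∀ n, Ps (x.1 n) ∧ ‖x.1 n‖ ≤ 1)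
    (h0 : ∀ k, ∀ δ > 0, ∀ᶠ n in (ω : Filter ℕ), ∀ φ ∈ TA (b k) (b (k + 1)) (m k),
      (φ (b k * x.1 n * b k)).re < δ) (F : Finset A) (P : Finset G) (hP : ∀ g ∈ P, γ g ≠ 1)
    {ε : ℝ} (hε : 0 < ε) : ∃ s : ℕ → Bool → M, ∀ᶠ n in (ω : Filter ℕ), (∀ β, ‖s n β‖ ≤ 2) ∧
      (∀ β, ∀ a ∈ F, ‖star (s n β) * i a * s n β - i a * x.1 n‖ ≤ ε ∧
        ‖(star (s n β) * s n β - x.1 n) * i a‖ ≤ ε) ∧ ‖star (s n true) * s n false‖ ≤ ε ∧
      ∀ β β', ∀ g ∈ P, ‖star (s n β) * α g (s n β')‖ ≤ ε := by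
  classical
  obtain ⟨K, hK0, hK⟩ := ((eventually_ge_atTop (0 : ℝ)).and ((Finset.eventually_all F).2
    fun a _ => eventually_ge_atTop ‖i a‖)).exists
  obtain ⟨θ, hθ, hθ'⟩ := exists_pos_mul_lt (lt_min hε one_pos) (2 * K + 4)
  have θ1 : (2 * K + 4) * θ ≤ ε := (hθ'.trans_le (min_le_left _ _)).le
  have θ2 : (2 * K + 4) * θ ≤ 1 := (hθ'.trans_le (min_le_right _ _)).le
  have θ3 : 0 ≤ K * θ := by positivity
  obtain ⟨k, hk⟩ := ((Finset.eventually_all F).2 fun a _ =>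
    (Metric.tendsto_nhds.1 (hb.lim a) θ hθ).and
      (Metric.tendsto_nhds.1 (hb.lim (star a)) θ hθ)).exists
  simp only [dist_eq_norm] at hk
  obtain ⟨u, hu⟩ := hb.mem k
  have sa := (hb.ps k).sa.star_eq
  have hy := hb.le k
  choose e he using fun W : M => mul_mem_left h.idl (b k * W) (hb.mem k)
  let i' : A →L[ℂ] M := LinearMap.mkContinuous (i : A →ₗ[ℂ] M) 1 fun a => by
    rw [one_mul]; exact (h.norm_i a).le
  obtain ⟨L, r, d, c, hd⟩ := hC.fact h.smp (f := f.comp i')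
    (fun a => by simpa [i', map_star] using hf.1 (i a))
    (fun h0 => by
      obtain ⟨a, ha⟩ := hf.2.1
      exact ha (congrArg (fun g : A →L[ℂ] ℂ => g a) h0))
    ((insert 1 (F.image i)).image e) hθ
  refine Eventually.choice (r := fun n (s : Bool → M) => (∀ β, ‖s β‖ ≤ 2) ∧
    (∀ β, ∀ a ∈ F, ‖star (s β) * i a * s β - i a * x.1 n‖ ≤ ε ∧
      ‖(star (s β) * s β - x.1 n) * i a‖ ≤ ε) ∧ ‖star (s true) * s false‖ ≤ ε ∧
      ∀ β β', ∀ g ∈ P, ‖star (s β) * α g (s β')‖ ≤ ε) ?_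
  filter_upwards [h.s0_core hb hcmp ho hf hx h0 (insert 1 (F.image i)) P hP
    (fun l p => u * d l p) c hθ,
    (Finset.eventually_all F).2 fun a _ => nul_iff'.1 (x.2 a) θ hθ] with n ⟨s, hs⟩ h2
  have x1 := (hx n).2
  have H : ∀ β, ∀ W ∈ insert 1 (F.image i),
      ‖star (s β) * W * s β - b k * W * b k * x.1 n‖ ≤ θ + θ * 1 := fun β W hW => by
    have h3 := (hs β β).1 W hW
    have h4 := hd _ (Finset.mem_image_of_mem e hW)
    rw [← h.norm_i, ← norm_neg, map_sub, neg_sub, he] at h4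
    rw [if_pos rfl] at h3
    refine (norm_sub_le_norm_sub_add_norm_sub _ _ _).trans (add_le_add h3 ?_)
    rw [← sub_mul]
    refine norm_mul_le_of_le (le_of_eq_of_le ?_ h4) x1
    simp [i', map_star, he, hu, sa, mul_assoc]
  have H1 := fun β => H β 1 (Finset.mem_insert_self _ _)
  simp only [mul_one] at H1
  refine ⟨s, fun β => ?_, fun β a ha => ⟨?_, ?_⟩, ?_, fun β β' g hg =>
    ((hs β β').2 g hg).trans (by linarith)⟩
  · have h3 := norm_add_le_of_le (H1 β) (norm_mul_le_of_le (norm_mul_le_of_le hy hy) x1)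
    rw [sub_add_cancel, CStarRing.norm_star_mul_self] at h3
    nlinarith [norm_nonneg (s β)]
  · have h3 : ‖i a * b k - i a‖ ≤ θ := by
      rw [← norm_star, star_sub, star_mul, sa, ← map_star]
      exact (hk a ha).2.le
    have h4 := norm_add_le_of_le (H β _ (Finset.mem_insert_of_mem (Finset.mem_image_of_mem i ha)))
      (norm_mul_le_of_le (norm_add_le_of_le (norm_mul_le_of_le hy h3) (hk a ha).1.le) x1)
    refine (le_of_eq_of_le (congrArg _ ?_) h4).trans (by linarith)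
    noncomm_ring
  · have h4 := norm_add_le_of_le (norm_mul_le_of_le (H1 β) (hK a ha)) (norm_add_le_of_le
      (norm_sub_le_of_le (norm_mul_le_of_le (norm_mul_le_of_le hy hy) (h2 a ha).le) (h2 a ha).le)
      (norm_mul_le_of_le (norm_add_le_of_le (norm_mul_le_of_le hy (hk a ha).1.le)
        (hk a ha).1.le) x1))
    refine (le_of_eq_of_le (congrArg _ ?_) h4).trans (by linarith)
    noncomm_ring
  · have h3 := (hs true false).1 1 (Finset.mem_insert_self _ _)
    rw [if_neg (by simp), mul_one, sub_zero] at h3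
    linarith

end Vale.Agent.P095.S
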