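import Vale.Agent.P095.S.Norm

/-! Excising targets under the outer elements. `x₀` from `Exc` (for `ε/4`), positive lifts `y l`
(`lift_ps`), `z' l n = y l n * x₀ * y l n`; along `ω`: `‖z' l n‖ → 1` (`tendsto_norm` for `y²`),
`z' u z' - y y (x₀ u x₀) y y`, `z' z' - y y x₀ x₀ y y` are null, and
`z' l u α g (z' l') ~ y x₀ u (y l α g (y l')) α g x₀ α g y` is null. Fix one `n` and normalize. -/

open Filter Topology TopologicalSpace
open scoped BoundedContinuousFunction ComplexOrder Matrix Kronecker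

namespace Vale.Agent.P095.S

open H P101

variable {A M D G : Type} [NonUnitalCStarAlgebra A] [CStarAlgebra M] [CStarAlgebra D] [Group G]
  {i : A →⋆ₙₐ[ℂ] M} {ω : Ultrafilter ℕ} {π : cenSeq i ω →⋆ₐ[ℂ] D} {α : G →* (M ≃⋆ₐ[ℂ] M)}
  {hα : Inv i α} {γ : G →* (D ≃⋆ₐ[ℂ] D)} {b : ℕ → M} {m : ℕ → ℝ}

theorem tgt_comm {V : Type} [CStarAlgebra V] {ρ : (ℕ →ᵇ M) →⋆ₐ[ℂ] V}
    (hρ : ∀ x, Tendsto (fun n => ‖x n‖) (ω : Filter ℕ) (𝓝 ‖ρ x‖)) (x : cenSeq i ω) (a : A) :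
    Commute (ρ x.1) (ρ (cst M (i a))) := by
  have h1 := tendsto_nhds_unique (hρ (x.1 * cst M (i a) - cst M (i a) * x.1)) (nul_iff.1 (x.2 a))
  rwa [norm_eq_zero, map_sub, map_mul, map_mul, sub_eq_zero] at h1

theorem tgt_norm (h : Ctx i ω π hα γ) {V : Type} [CStarAlgebra V] {ρ : (ℕ →ᵇ M) →⋆ₐ[ℂ] V}
    (hρ : ∀ x, Tendsto (fun n => ‖x n‖) (ω : Filter ℕ) (𝓝 ‖ρ x‖)) (x : cenSeq i ω) (a : A) :
    ‖ρ x.1 * ρ (cst M (i a))‖ = ‖π x‖ * ‖a‖ := by
  rw [← map_mul]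
  exact tendsto_nhds_unique (hρ (x.1 * cst M (i a))) (h.tendsto_norm x a)

theorem tgt_alg {Y X u : M} (h1 : Commute Y X) (h2 : Commute Y u) (c : ℂ) :
    Y * X * u * (Y * X) - c • (Y * X * (Y * X)) = Y * Y * (X * u * X - c • (X * X)) := by
  rw [mul_sub, mul_smul_comm, h1.symm.mul_mul_mul_comm, mul_assoc Y X u,
    (h1.mul_right h2).symm.mul_mul_mul_comm]

theorem tgt_smul {r s ε : ℝ} {w : M} (hr : 3 / 4 < r) (hs : 3 / 4 < s) (h : ‖w‖ < ε / 2) :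
    ‖((r⁻¹ : ℝ) : ℂ) • ((s⁻¹ : ℝ) : ℂ) • w‖ ≤ ε := by
  have r0 : 0 < r := by linarith
  have s0 : 0 < s := by linarith
  have h1 : 9 / 16 < s * r := by nlinarith
  rw [norm_smul, norm_smul, Complex.norm_real, Complex.norm_real, norm_inv, norm_inv,
    Real.norm_of_nonneg r0.le, Real.norm_of_nonneg s0.le, inv_mul_le_iff₀ r0, inv_mul_le_iff₀ s0]
  nlinarith [norm_nonneg w]

theorem Ctx.target (h : Ctx i ω π hα γ) (ho : Outer γ) {f : M →L[ℂ] ℂ} (hf : Exc i f)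
    (U : Finset A) (P : Finset G) (hP : ∀ g ∈ P, γ g ≠ 1) (κ : Type) [Fintype κ] {ε : ℝ}
    (hε : 0 < ε) : ∃ z : κ → M, (∀ l, z l ∈ Set.range i ∧ Ps (z l) ∧ ‖z l‖ = 1) ∧ ∀ u ∈ U,
      (∀ l, ‖z l * i u * z l - f (i u) • (z l * z l)‖ ≤ ε) ∧
      (∀ l l', l ≠ l' → ‖z l * i u * z l'‖ ≤ ε) ∧
      ∀ g ∈ P, ∀ l l', ‖z l * i u * α g (z l')‖ ≤ ε := by
  obtain ⟨d, d1, d2, d3⟩ := ho P hP κ
  obtain ⟨_, ⟨a, rfl⟩, x1, x2, x3⟩ := hf.2.2 U (ε / 4) (by positivity)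
  choose y y1 y2 using fun l => h.lift_ps (d1 l).1
  obtain ⟨V, _, ρ, -, hρ⟩ := exists_ultrapower' M ω
  have c1 := tgt_comm (i := i) hρ
  have c2 := tgt_norm h hρ
  have c3 : ∀ (x x' : cenSeq i ω) (u : A) (s t : ℕ →ᵇ M), π x * π x' = 0 →
      ‖ρ (s * x.1 * cst M (i u) * (x'.1 * t))‖ < ε / 2 := fun x x' u s t e => by
    have h1 := c2 (x * x') u
    rw [map_mul π, e, norm_zero, zero_mul, norm_eq_zero] at h1
    change ρ (x.1 * x'.1) * _ = 0 at h1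
    rw [map_mul, mul_assoc, (c1 x' u).eq] at h1
    rw [map_mul, map_mul, map_mul, map_mul, mul_assoc, mul_assoc, ← mul_assoc _ (ρ x'.1),
      ← mul_assoc (ρ x.1), h1, zero_mul, mul_zero, norm_zero]
    exact half_pos hε
  let z : κ → ℕ →ᵇ M := fun l => (y l).1 * cst M (i a) * (y l).1
  have e1 : ∀ l, ρ (z l) = ρ (y l).1 * ρ (y l).1 * ρ (cst M (i a)) := fun l => by
    rw [map_mul, map_mul, mul_assoc, ← (c1 _ _).eq, mul_assoc]
  have n1 : ∀ l, 3 / 4 < ‖ρ (z l)‖ := fun l => by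
    have h1 := c2 (y l * y l) a
    rw [map_mul π, y1, (d1 l).1.sa.norm_mul_self, (d1 l).2, ← h.norm_i, x2] at h1
    rw [e1, ← map_mul]
    exact lt_of_lt_of_eq (by norm_num) h1.symm
  have n2 : ∀ u ∈ U, ∀ l, ‖ρ (z l * cst M (i u) * z l - f (i u) • (z l * z l))‖ < ε / 2 := by
    intro u hu l
    have h1 : ‖ρ (y l).1‖ ≤ 1 := le_of_tendsto' (hρ _) fun n => (y2 l n).2.trans (d1 l).2.le
    have h2 : ‖ρ (cst M (i a * i u * i a - f (i u) • (i a * i a)))‖ ≤ ε / 4 :=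
      le_of_tendsto' (hρ _) fun _ => x3 u hu
    rw [map_sub, map_smul, map_mul _ _ (z l), map_mul _ (z l), map_mul _ (z l), e1,
      tgt_alg ((c1 _ a).mul_left (c1 _ a)) ((c1 _ u).mul_left (c1 _ u))]
    simp only [map_sub, map_smul, map_mul] at h2
    have h3 : ‖ρ (y l).1 * ρ (y l).1‖ ≤ 1 :=
      (norm_mul_le _ _).trans (mul_le_one₀ h1 (norm_nonneg _) h1)
    have h4 := (norm_mul_le _ _).trans (mul_le_one₀ h3 (norm_nonneg _) h3)
    refine ((norm_mul_le _ _).trans (mul_le_mul h4 h2 (norm_nonneg _) zero_le_one)).trans_lt ?_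
    linarith
  have ev : ∀ᶠ n in (ω : Filter ℕ), (∀ l, 3 / 4 < ‖z l n‖) ∧ ∀ u ∈ U,
      (∀ l, ‖z l n * i u * z l n - f (i u) • (z l n * z l n)‖ < ε / 2) ∧
      (∀ l l', l ≠ l' → ‖z l n * i u * z l' n‖ < ε / 2) ∧
      ∀ g ∈ P, ∀ l l', ‖z l n * i u * α g (z l' n)‖ < ε / 2 := by
    refine (eventually_all.2 fun l => (hρ _).eventually (lt_mem_nhds (n1 l))).and
      ((eventually_all_finset U).2 fun u hu => (eventually_all.2 fun l =>
        (hρ _).eventually (gt_mem_nhds (n2 u hu l))).and (Eventually.and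
          (eventually_all.2 fun l => eventually_all.2 fun l' => eventually_all.2 fun hl => ?_)
          ((eventually_all_finset P).2 fun g hg => eventually_all.2 fun l =>
            eventually_all.2 fun l' => ?_)))
    · refine ((hρ _).eventually (gt_mem_nhds (c3 (y l) (y l') u ((y l).1 * cst M (i a))
        (cst M (i a) * (y l').1) (by rw [y1, y1, d2 l l' hl])))).mono fun n hn => ?_
      refine lt_of_eq_of_lt (congrArg norm ?_) hn
      exact congrArg (z l n * i u * ·) (mul_assoc _ _ _)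
    · refine ((hρ _).eventually (gt_mem_nhds (c3 (y l) (seqAct hα ω g (y l')) u
        ((y l).1 * cst M (i a)) (cst M (α g (i a)) * (seqAct hα ω g (y l')).1)
        (by rw [← h.act, y1, y1, d3 g hg])))).mono fun n hn => ?_
      refine lt_of_eq_of_lt (congrArg norm ?_) hn
      refine congrArg (z l n * i u * ·) ?_
      change α g ((y l').1 n * i a * (y l').1 n) = α g _ * (α g _ * α g _)
      rw [map_mul, map_mul, mul_assoc]
      rfl
  obtain ⟨n, h1, h2⟩ := ev.exists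
  have p : ∀ l, 0 < ‖z l n‖ := fun l => lt_trans (by norm_num) (h1 l)
  refine ⟨fun l => ((‖z l n‖⁻¹ : ℝ) : ℂ) • z l n, fun l => ⟨?_, Ps.smul ?_ (inv_pos.2 (p l)).le,
    ?_⟩, fun u hu => ⟨fun l => ?_, fun l l' hl => ?_, fun g hg l l' => ?_⟩⟩
  · obtain ⟨w, hw⟩ : z l n ∈ Set.range i :=
      mul_mem_right h.idl _ (mul_mem_left h.idl _ ⟨a, rfl⟩)
    exact ⟨_, (map_smul i _ w).trans (congrArg _ hw)⟩
  · have h3 := x1.conj ((y l).1 n)
    rwa [(y2 l n).1.sa.star_eq] at h3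
  · rw [norm_smul, Complex.norm_real, norm_inv, norm_norm, inv_mul_cancel₀ (p l).ne']
  · refine le_of_eq_of_le (congrArg norm ?_) (tgt_smul (h1 l) (h1 l) ((h2 u hu).1 l))
    simp only [smul_mul_assoc, mul_smul_comm, smul_sub]
    rw [smul_comm (f (i u)), smul_comm (f (i u))]
  · refine le_of_eq_of_le (congrArg norm ?_) (tgt_smul (h1 l') (h1 l) ((h2 u hu).2.1 l l' hl))
    simp only [smul_mul_assoc, mul_smul_comm]
  · refine le_of_eq_of_le (congrArg norm ?_) (tgt_smul (h1 l') (h1 l) ((h2 u hu).2.2 g hg l l'))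
    simp only [smul_mul_assoc, mul_smul_comm, map_smul]

end Vale.Agent.P095.S
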